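import Vale.Agent.P006.M

/-! P006 main branch: bad boxes. -/

noncomputable section
open Complex MeasureTheory Filter Topology
open scoped Classical ComplexConjugate

namespace Vale.Agent.P006.M
open Vale.Agent.P026 Vale.Agent.P006
open Vale.Agent.P006.Vau (PS Lam)

namespace BADM

theorem greedy {ι : Type} [DecidableEq ι] (a : ι → ℝ) (T : ℝ) (hT : 0 ≤ T) (ha : ∀ i, a i ≤ 2 * T)
    (S : Finset ι) : T ≤ ∑ i ∈ S, a i → ∃ J : Finset ι, T ≤ ∑ i ∈ J, a i ∧ ∑ i ∈ J, a i ≤ 2 * T := by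
  induction S using Finset.induction_on with
  | empty => intro h; exact ⟨∅, h, by simpa using hT⟩
  | insert i S hi ih =>
    intro h
    by_cases c : T ≤ ∑ i ∈ S, a i
    · exact ih c
    · by_cases c2 : a i ≤ T
      · refine ⟨insert i S, h, ?_⟩
        rw [Finset.sum_insert hi]; linarith
      · exact ⟨{i}, by simpa using (not_le.1 c2).le, by simpa using ha i⟩

theorem choose (k : Fin 6 → ℕ) (W : ℝ) (hW : 1 ≤ W) (hk : ∀ i, (2 : ℝ) ^ k i ≤ W)
    (hs : ((2 : ℝ) ^ (∑ i, k i)) ^ (2 / 3 : ℝ) ≤ W) :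
    ∃ J : Finset (Fin 6), (2 : ℝ) ^ (∑ i ∈ J, k i) ≤ W ∧ (2 : ℝ) ^ (∑ i ∈ Jᶜ, k i) ≤ W := by
  have key : ∀ x : ℝ, x ≤ Real.logb 2 W ↔ (2 : ℝ) ^ x ≤ W := fun x =>
    Real.le_logb_iff_rpow_le one_lt_two (by linarith)
  have key' : ∀ n : ℕ, (n : ℝ) ≤ Real.logb 2 W ↔ (2 : ℝ) ^ n ≤ W := fun n => by
    rw [key, Real.rpow_natCast]
  have l0 : 0 ≤ Real.logb 2 W := Real.logb_nonneg one_lt_two hW
  rw [← Real.rpow_natCast, ← Real.rpow_mul (by norm_num), ← key] at hs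
  by_cases c : ((∑ i, k i : ℕ) : ℝ) ≤ Real.logb 2 W
  · exact ⟨∅, by simpa using hW, by simpa using (key' _).1 c⟩
  · push_cast at c hs
    obtain ⟨J, h1, h2⟩ := greedy (fun i => (k i : ℝ)) (Real.logb 2 W / 2) (by linarith)
      (fun i => by have := (key' _).2 (hk i); linarith) Finset.univ (by linarith)
    have e := Finset.sum_add_sum_compl J fun i => (k i : ℝ)
    refine ⟨J, (key' _).1 ?_, (key' _).1 ?_⟩ <;> push_cast <;> linarith

theorem three (k : Fin 6 → ℕ) (V : ℝ) (hV : 1 ≤ V) (hk : ∀ i, (2 : ℝ) ^ k i ≤ V)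
    (hs : V ^ 2 < (2 : ℝ) ^ (∑ i, k i)) : 3 ≤ (Finset.univ.filter fun i => k i ≠ 0).card := by
  by_contra h
  have e : ∑ i, k i = ∑ i ∈ Finset.univ.filter fun i => k i ≠ 0, k i :=
    (Finset.sum_filter_ne_zero _).symm
  rw [e, ← Finset.prod_pow_eq_pow_sum] at hs
  have a2 : ∏ i ∈ Finset.univ.filter fun i => k i ≠ 0, (2 : ℝ) ^ k i ≤
      V ^ (Finset.univ.filter fun i => k i ≠ 0).card := by
    rw [← Finset.prod_const]
    exact Finset.prod_le_prod (fun i _ => by positivity) fun i _ => hk i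
  have a3 : V ^ (Finset.univ.filter fun i => k i ≠ 0).card ≤ V ^ 2 := pow_le_pow_right₀ hV (by omega)
  linarith

theorem zero {X t : ℝ} {k : Fin 6 → ℕ} {g : Fin 6 → O → ℂ} (hb : Bx X t k g) {i : Fin 6}
    (h0 : k i ≠ 0) (hw : (2 : ℝ) ^ (k i + 1) ≤ ww X) : MS X g del = 0 := by
  obtain ⟨η, v1, v2, -, -, -, -, hg⟩ := (hb i).2
  have z : ∀ n, SP n → g i n = 0 := by
    intro n hn
    rw [hg n hn, if_neg]
    rintro ⟨h1, h2, h3⟩
    have n0 := W1.bas.b2.ne n hn.1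
    rcases (pf n).eq_empty_or_nonempty with e | ⟨p, hp⟩
    · have e1 := Vau.b8.prod n hn.1
      rw [e, Finset.prod_empty] at e1
      rw [e1, Vau.N_one] at h2
      exact absurd h2 (not_le.2 (one_lt_pow₀ one_lt_two h0))
    · have a1 := h1 p hp
      have a2 := Vau.N_dvd n0 ((Vau.b8.mem n p n0).1 hp).2.2
      rw [pow_succ] at hw
      linarith
  refine Finset.sum_eq_zero fun x hx => ?_
  by_cases c : Squarefree (∏ i, x i)
  · rw [Finset.prod_eq_zero (Finset.mem_univ i) (z _ ⟨(Vau.mem_PS.1 (Fintype.mem_piFinset.1 hx i)).1,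
      c.squarefree_of_dvd (Finset.dvd_prod_of_mem _ (Finset.mem_univ i))⟩), zero_mul]
  · rw [del, if_neg c, mul_zero]

end BADM

open BADM in
theorem badS (hG : GRStmt) (hS : SPLITStmt) (hL : SLBStmt) (hN : NRMStmt) : BADStmt := by
  obtain ⟨C, hC, hL⟩ := hL
  filter_upwards [hG (20 + 20 * C) (1 / 200) (by norm_num), hN] with X hX hN t k g hb hP
  obtain ⟨x3, l2, lA, g1, g2, g3, g4, -, w2, L1⟩ := hX
  have x1 : 1 < X := by linarith
  have x0 : 0 < X := by linarith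
  have lg1 : 1 ≤ Real.log X := by
    rw [Real.le_log_iff_exp_le x0]
    exact (Real.exp_one_lt_d9.le.trans (by norm_num)).trans x3
  have up : ∀ y : ℝ, 1 ≤ y → y ^ (1 / 200 : ℝ) ≤ y ∧ y ^ 20 ≤ y ^ (20 + 20 * C) ∧ y ≤ y ^ 20 := by
    intro y hy
    refine ⟨Real.rpow_le_self_of_one_le hy (by norm_num), ?_, le_self_pow₀ hy (by norm_num)⟩
    rw [← Real.rpow_natCast]
    exact Real.rpow_le_rpow_of_exponent_le hy (by push_cast; linarith)
  have r1 : ll X ^ 20 ≤ Real.log X := (up _ (by linarith)).2.1.trans (g1.trans (up _ lg1).1)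
  set ρ := ll X ^ 20 / Real.log X with hρ
  have ρ0 : 0 ≤ ρ := by positivity
  have ρ1 : ρ ≤ 1 := (div_le_one (by linarith)).2 r1
  set P : ℝ := 2 ^ (∑ i, k i) with hPd
  have P1 : 1 ≤ P := one_le_pow₀ one_le_two
  have core : ∀ W : ℝ, 1 ≤ W → (∀ i, (2 : ℝ) ^ k i ≤ W) → P ^ (2 / 3 : ℝ) ≤ W →
      ‖MS X g del‖ ≤ 20 * C * Real.sqrt W * Real.sqrt (P * Real.log X ^ 2 *
        ρ ^ (Finset.univ.filter fun i => k i ≠ 0).card) := by
    intro W hW hk hs
    obtain ⟨J, j1, j2⟩ := choose k W hW hk hs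
    have p1 : (1 : ℝ) ≤ 2 ^ (∑ i ∈ J, k i) := one_le_pow₀ one_le_two
    have p2 : (1 : ℝ) ≤ 2 ^ (∑ i ∈ Jᶜ, k i) := one_le_pow₀ one_le_two
    have eP : (2 : ℝ) ^ (∑ i ∈ Jᶜ, k i) * 2 ^ (∑ i ∈ J, k i) = P := by
      rw [← pow_add, add_comm, Finset.sum_add_sum_compl]
    obtain ⟨n1, n2⟩ := hN t k g Jᶜ (64 * 2 ^ (∑ i ∈ Jᶜ, k i)) hb
    obtain ⟨n3, n4⟩ := hN t k g J (64 * 2 ^ (∑ i ∈ J, k i)) hb
    rw [hS.1 X _ _ g J del x1.le (fun n hn => if_neg hn) (fun a ha h => (n1 a ha h).2)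
      (fun b hb h => (n3 b hb h).2)]
    refine (hL (64 * 2 ^ (∑ i ∈ Jᶜ, k i)) (64 * 2 ^ (∑ i ∈ J, k i)) _ _ _ _ (by linarith)
      (by linarith) (fun a ha => ((memS W1.bas).1 _ a).1 ha)
      (fun a ha => ((memS W1.bas).1 _ a).1 ha)).trans ?_
    have a1 : (64 * 2 ^ (∑ i ∈ Jᶜ, k i) * (64 * 2 ^ (∑ i ∈ J, k i)) : ℝ) ^ (2 / 3 : ℝ) ≤ 256 * W := by
      have e : (64 * 2 ^ (∑ i ∈ Jᶜ, k i) * (64 * 2 ^ (∑ i ∈ J, k i)) : ℝ) = 16 ^ 3 * P := by
        rw [← eP]; ring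
      have e2 : ((16 : ℝ) ^ 3) ^ (2 / 3 : ℝ) = 256 := by
        rw [← Real.rpow_natCast, ← Real.rpow_mul (by norm_num)]; norm_num
      rw [e, Real.mul_rpow (by norm_num) (by linarith), e2]
      linarith
    have a2 : Real.sqrt (64 * 2 ^ (∑ i ∈ Jᶜ, k i) + 64 * 2 ^ (∑ i ∈ J, k i) +
        (64 * 2 ^ (∑ i ∈ Jᶜ, k i) * (64 * 2 ^ (∑ i ∈ J, k i)) : ℝ) ^ (2 / 3 : ℝ)) ≤
        20 * Real.sqrt W := by
      rw [show (20 : ℝ) = Real.sqrt (20 ^ 2) by rw [Real.sqrt_sq (by norm_num)],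
        ← Real.sqrt_mul (by norm_num)]
      exact Real.sqrt_le_sqrt (by linarith)
    rw [mul_assoc, ← Real.sqrt_mul (by positivity)]
    refine mul_le_mul ((mul_le_mul_of_nonneg_left a2 hC).trans (le_of_eq (by ring)))
      (Real.sqrt_le_sqrt ((mul_le_mul n2 n4 (by positivity) (by positivity)).trans (le_of_eq ?_)))
      (by positivity) (by positivity)
    have e3 : (Finset.univ.filter fun i => k i ≠ 0).card =
        (Jᶜ.filter fun i => k i ≠ 0).card + (J.filter fun i => k i ≠ 0).card := by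
      simp only [Finset.card_filter]
      rw [add_comm, Finset.sum_add_sum_compl]
    rw [e3, pow_add, ← eP]
    by_cases c : (5 : Fin 6) ∈ J
    · rw [if_pos c, if_neg (by simpa using c)]; ring
    · rw [if_neg c, if_pos (by simpa using c)]; ring
  have hk : ∀ i, (2 : ℝ) ^ k i ≤ X ^ (66 / 100 : ℝ) := fun i =>
    (hb i).1.trans (Real.rpow_le_rpow_of_exponent_le x1.le (by norm_num))
  have e99 : (X ^ (99 / 100 : ℝ)) ^ (2 / 3 : ℝ) = X ^ (66 / 100 : ℝ) := by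
    rw [← Real.rpow_mul x0.le]; norm_num
  refine ⟨fun h => ?_, fun h => ?_, fun ⟨i, h0, hw⟩ => zero hb h0 hw⟩
  · have a1 : X ^ (66 / 100 : ℝ) ≤ P ^ (2 / 3 : ℝ) :=
      e99 ▸ Real.rpow_le_rpow (by positivity) h (by norm_num)
    have a2 := three k (X ^ (491 / 1000 : ℝ)) (Real.one_le_rpow x1.le (by norm_num))
      (fun i => (hb i).1) (lt_of_lt_of_le (by
        rw [← Real.rpow_natCast, ← Real.rpow_mul x0.le]
        exact Real.rpow_lt_rpow_of_exponent_lt x1 (by norm_num)) h)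
    refine (core _ (Real.one_le_rpow P1 (by norm_num)) (fun i => (hk i).trans a1) le_rfl).trans ?_
    have a3 : ρ ^ (Finset.univ.filter fun i => k i ≠ 0).card ≤ ρ ^ 3 := pow_le_pow_of_le_one ρ0 ρ1 a2
    have a4 : Real.sqrt (P * Real.log X ^ 2 * ρ ^ (Finset.univ.filter fun i => k i ≠ 0).card) ≤
        Real.sqrt P * ll X ^ 30 / Real.sqrt (Real.log X) := by
      have e : P * Real.log X ^ 2 * ρ ^ 3 = P * (ll X ^ 30) ^ 2 / Real.log X := by
        rw [hρ]; field_simp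
      refine (Real.sqrt_le_sqrt (mul_le_mul_of_nonneg_left a3 (by positivity))).trans (le_of_eq ?_)
      rw [e, Real.sqrt_div (by positivity), Real.sqrt_mul (by linarith), Real.sqrt_sq (by positivity)]
    have a5 : Real.sqrt (P ^ (2 / 3 : ℝ)) * Real.sqrt P = P ^ (5 / 6 : ℝ) := by
      rw [Real.sqrt_eq_rpow, Real.sqrt_eq_rpow, ← Real.rpow_mul (by linarith),
        ← Real.rpow_add (by linarith)]
      norm_num
    have a6 : 20 * C ≤ ll X ^ 10 := by
      have := le_self_pow₀ (show 1 ≤ ll X by linarith) (show 10 ≠ 0 by norm_num)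
      linarith
    calc _ ≤ ll X ^ 10 * Real.sqrt (P ^ (2 / 3 : ℝ)) *
          (Real.sqrt P * ll X ^ 30 / Real.sqrt (Real.log X)) := by gcongr
      _ = _ := by rw [← a5]; ring
  · have a1 : P ^ (2 / 3 : ℝ) ≤ X ^ (66 / 100 : ℝ) :=
      e99 ▸ Real.rpow_le_rpow (by positivity) h (by norm_num)
    refine (core _ (Real.one_le_rpow x1.le (by norm_num)) hk a1).trans ?_
    have a3 : ρ ^ (Finset.univ.filter fun i => k i ≠ 0).card ≤ 1 := pow_le_one₀ ρ0 ρ1
    have a4 : Real.sqrt (P * Real.log X ^ 2 * ρ ^ (Finset.univ.filter fun i => k i ≠ 0).card) ≤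
        Real.sqrt (X ^ (99 / 100 : ℝ)) * Real.log X := by
      have : P * Real.log X ^ 2 * ρ ^ (Finset.univ.filter fun i => k i ≠ 0).card ≤
          X ^ (99 / 100 : ℝ) * Real.log X ^ 2 :=
        (mul_le_of_le_one_right (by positivity) a3).trans (by gcongr)
      refine (Real.sqrt_le_sqrt this).trans (le_of_eq ?_)
      rw [Real.sqrt_mul (by positivity), Real.sqrt_sq (by linarith)]
    have a5 : Real.sqrt (X ^ (66 / 100 : ℝ)) * Real.sqrt (X ^ (99 / 100 : ℝ)) * X ^ (1 / 200 : ℝ) =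
        X ^ (83 / 100 : ℝ) := by
      rw [Real.sqrt_eq_rpow, Real.sqrt_eq_rpow, ← Real.rpow_mul x0.le, ← Real.rpow_mul x0.le,
        ← Real.rpow_add x0, ← Real.rpow_add x0]
      norm_num
    have a6 : 20 * C * Real.log X ≤ X ^ (1 / 200 : ℝ) := by
      have b1 : 20 * C ≤ Real.log X := by
        have := (up (ll X) (by linarith)).2.2
        linarith
      have b2 : Real.log X ^ 2 ≤ Real.log X ^ 20 := pow_le_pow_right₀ lg1 (by norm_num)
      have b3 := (up _ lg1).2.1.trans (g2.trans ((up _ L1).1.trans ((up _ L1).2.2.trans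
        ((up _ L1).2.1.trans (g3.trans ((up _ (by linarith)).1.trans ((up _ (by linarith)).2.2.trans
        ((up _ (by linarith)).2.1.trans g4))))))))
      nlinarith
    calc _ ≤ 20 * C * Real.sqrt (X ^ (66 / 100 : ℝ)) *
          (Real.sqrt (X ^ (99 / 100 : ℝ)) * Real.log X) := by gcongr
      _ = Real.sqrt (X ^ (66 / 100 : ℝ)) * Real.sqrt (X ^ (99 / 100 : ℝ)) * (20 * C * Real.log X) := by
          ring
      _ ≤ _ := by rw [← a5]; gcongr

end Vale.Agent.P006.M
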