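import Vale.Agent.P006.M

noncomputable section
open Filter Topology
open scoped Classical

namespace Vale.Agent.P006.M
open Vale.Agent.P026 Vale.Agent.P006

namespace BOXM

theorem tp (n : ℕ) : (2 : ℝ) ^ n = Real.exp (n * Real.log 2) := by
  rw [← Real.log_pow, Real.exp_log (by positivity)]

theorem tpr (n : ℕ) (a : ℝ) : ((2 : ℝ) ^ n) ^ a = Real.exp (n * Real.log 2 * a) := by
  rw [tp, ← Real.exp_mul]

theorem geo (m : ℕ) : ∑ s ∈ Finset.range (m + 1), ((2 : ℝ) ^ s) ^ (5 / 6 : ℝ) ≤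
    3 * ((2 : ℝ) ^ m) ^ (5 / 6 : ℝ) := by
  have hq : (3 / 2 : ℝ) ≤ (2 : ℝ) ^ (5 / 6 : ℝ) := by
    refine le_of_pow_le_pow_left₀ (n := 6) (by norm_num) (by positivity) ?_
    rw [← Real.rpow_natCast ((2 : ℝ) ^ (5 / 6 : ℝ)), ← Real.rpow_mul (by norm_num)]
    norm_num
  induction m with
  | zero => simp
  | succ m ih =>
    rw [Finset.sum_range_succ, pow_succ, Real.mul_rpow (by positivity) (by norm_num)]
    have h0 : 0 ≤ ((2 : ℝ) ^ m) ^ (5 / 6 : ℝ) := by positivity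
    nlinarith

def near (l s : ℝ) : Finset ℕ :=
  (Finset.range 5).biUnion fun j => Finset.Icc ⌈j * s / 12 - 6 * l⌉₊ ⌊j * s / 12 + 6 * l⌋₊

theorem mem_near {l s : ℝ} {n : ℕ} (h : ∃ j : ℕ, j ≤ 4 ∧ |(n : ℝ) - j * s / 12| ≤ 6 * l) :
    n ∈ near l s := by
  obtain ⟨j, hj, h⟩ := h
  rw [abs_le] at h
  refine Finset.mem_biUnion.2 ⟨j, Finset.mem_range.2 (by omega), Finset.mem_Icc.2 ⟨?_, ?_⟩⟩
  · exact Nat.ceil_le.2 (by linarith [h.1])
  · exact Nat.le_floor (by linarith [h.2])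

theorem card_near {l s : ℝ} (hl : 0 ≤ l) (hs : 0 ≤ s) : ((near l s).card : ℝ) ≤ 5 * (12 * l + 1) := by
  have h : ∀ j : ℕ, ((Finset.Icc ⌈j * s / 12 - 6 * l⌉₊ ⌊j * s / 12 + 6 * l⌋₊).card : ℝ) ≤
      12 * l + 1 := by
    intro j
    rw [Nat.card_Icc]
    have h1 := Nat.le_ceil (j * s / 12 - 6 * l)
    have h2 : (⌊j * s / 12 + 6 * l⌋₊ : ℝ) ≤ j * s / 12 + 6 * l := Nat.floor_le (by positivity)
    rcases le_total ⌈j * s / 12 - 6 * l⌉₊ (⌊j * s / 12 + 6 * l⌋₊ + 1) with h3 | h3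
    · rw [Nat.cast_sub h3]
      push_cast
      linarith
    · rw [Nat.sub_eq_zero_of_le h3]
      simp only [Nat.cast_zero]
      positivity
  calc ((near l s).card : ℝ) ≤ ((∑ j ∈ Finset.range 5, (Finset.Icc ⌈(j : ℕ) * s / 12 - 6 * l⌉₊
        ⌊(j : ℕ) * s / 12 + 6 * l⌋₊).card : ℕ) : ℝ) := by
        exact_mod_cast Finset.card_biUnion_le
    _ ≤ ∑ _j ∈ Finset.range 5, (12 * l + 1) := by
        push_cast
        exact Finset.sum_le_sum fun j _ => h j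
    _ = 5 * (12 * l + 1) := by
        rw [Finset.sum_const, Finset.card_range, nsmul_eq_mul]
        norm_num

def Dk (l : ℝ) (k : Fin 6 → ℕ) : Prop :=
  ∀ i, ∃ j : ℕ, j ≤ 4 ∧ |(k i : ℝ) - j * (∑ i, (k i : ℝ)) / 12| ≤ 6 * l

theorem sumD (S : Finset (Fin 6 → ℕ)) {l : ℝ} (hl : 0 ≤ l) (m : ℕ) (hm : ∀ k ∈ S, ∑ i, k i ≤ m) :
    ∑ k ∈ S, (if Dk l k then ((2 : ℝ) ^ (∑ i, k i)) ^ (5 / 6 : ℝ) else 0) ≤
      (5 * (12 * l + 1)) ^ 6 * (3 * ((2 : ℝ) ^ m) ^ (5 / 6 : ℝ)) := by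
  rw [← Finset.sum_filter, ← Finset.sum_fiberwise_of_maps_to (t := Finset.range (m + 1))
    (g := fun k : Fin 6 → ℕ => ∑ i, k i)
    (fun k hk => Finset.mem_range.2 (Nat.lt_succ_of_le (hm k (Finset.mem_filter.1 hk).1)))]
  refine le_trans ?_ (mul_le_mul_of_nonneg_left (geo m) (by positivity))
  rw [Finset.mul_sum]
  refine Finset.sum_le_sum fun s _ => ?_
  rw [Finset.sum_congr rfl (g := fun _ => ((2 : ℝ) ^ s) ^ (5 / 6 : ℝ))
    (fun k hk => by rw [(Finset.mem_filter.1 hk).2]), Finset.sum_const, nsmul_eq_mul]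
  refine mul_le_mul_of_nonneg_right ?_ (by positivity)
  have hsub : ((S.filter (Dk l)).filter fun k => ∑ i, k i = s) ⊆
      Fintype.piFinset fun _ : Fin 6 => near l s := by
    intro k hk
    obtain ⟨h1, h2⟩ := Finset.mem_filter.1 hk
    refine Fintype.mem_piFinset.2 fun i => mem_near ?_
    have h3 := (Finset.mem_filter.1 h1).2 i
    rw [← h2]
    push_cast
    exact h3
  have h1 := Finset.card_le_card hsub
  rw [Fintype.card_piFinset, Finset.prod_const, Finset.card_univ, Fintype.card_fin] at h1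
  calc _ ≤ (((near l s).card ^ 6 : ℕ) : ℝ) := by exact_mod_cast h1
    _ ≤ _ := by
      push_cast
      exact pow_le_pow_left₀ (by positivity) (card_near hl (by positivity)) 6

theorem cardS (S : Finset (Fin 6 → ℕ)) (m : ℕ) (hm : ∀ k ∈ S, ∑ i, k i ≤ m) :
    (S.card : ℝ) ≤ ((m : ℝ) + 1) ^ 6 := by
  have hsub : S ⊆ Fintype.piFinset fun _ : Fin 6 => Finset.range (m + 1) := by
    intro k hk
    refine Fintype.mem_piFinset.2 fun i => Finset.mem_range.2 (Nat.lt_succ_of_le ?_)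
    exact (Finset.single_le_sum (f := k) (fun _ _ => Nat.zero_le _) (Finset.mem_univ i)).trans
      (hm k hk)
  have h1 := Finset.card_le_card hsub
  rw [Fintype.card_piFinset, Finset.prod_const, Finset.card_univ, Fintype.card_fin,
    Finset.card_range] at h1
  exact_mod_cast h1

theorem oneK (hC : COMBStmt) {X l z : ℝ} {k : Fin 6 → ℕ} (hX0 : 0 < X) (hl0 : 0 < ll X)
    (hL1 : 1 ≤ LL X) (hLX : LL X ≤ X ^ (1 / 300 : ℝ)) (hw2 : 2 ≤ ww X)
    (k5 : 20000 * ll X ^ 2 ≤ Real.log (ww X)) (k6 : Real.log (ww X) ≤ 1 / 300 * Real.log X)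
    (hll : l * Real.log 2 = 100 * ll X ^ 2) (hl1 : 1 ≤ l)
    (hL100 : LL X ^ 100 = Real.exp (l * Real.log 2)) (hq4 : 4 ≤ ll X ^ 2) (hlog1 : 1 ≤ Real.log X)
    (hb : ∀ i, (2 : ℝ) ^ k i ≤ X ^ (491 / 1000 : ℝ))
    (b1 : X ^ (99 / 100 : ℝ) ≤ 2 ^ (∑ i, k i) →
      z ≤ ((2 : ℝ) ^ (∑ i, k i)) ^ (5 / 6 : ℝ) * ll X ^ 40 / Real.sqrt (Real.log X))
    (b2 : (2 : ℝ) ^ (∑ i, k i) ≤ X ^ (99 / 100 : ℝ) → z ≤ X ^ (83 / 100 : ℝ))
    (b3 : (∃ i, k i ≠ 0 ∧ (2 : ℝ) ^ (k i + 1) ≤ ww X) → z = 0)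
    (hT : ∀ J : Finset (Fin 6), X ^ (99 / 100 : ℝ) ≤ 2 ^ (∑ i, k i) →
      ((2 : ℝ) ^ (∑ i, k i)) ^ (1 / 3 : ℝ) * LL X ^ 100 ≤ 2 ^ (∑ i ∈ J, k i) →
      (2 : ℝ) ^ (∑ i ∈ J, k i) * LL X ^ 100 ≤ ((2 : ℝ) ^ (∑ i, k i)) ^ (1 / 2 : ℝ) →
      z ≤ X ^ (5 / 6 : ℝ) / LL X) :
    z ≤ 2 * (X ^ (5 / 6 : ℝ) / LL X) +
      (if Dk l k then ((2 : ℝ) ^ (∑ i, k i)) ^ (5 / 6 : ℝ) else 0) *
        (ll X ^ 40 / Real.sqrt (Real.log X)) := by
  have h2b : Real.log 2 ≤ 1 := by linarith [Real.log_two_lt_d9]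
  have h20 : 0 < Real.log 2 := by linarith [Real.log_two_gt_d9]
  have p1 : 0 ≤ X ^ (5 / 6 : ℝ) / LL X := by positivity
  have p2 : 0 ≤ (if Dk l k then ((2 : ℝ) ^ (∑ i, k i)) ^ (5 / 6 : ℝ) else 0) *
      (ll X ^ 40 / Real.sqrt (Real.log X)) := by
    refine mul_nonneg ?_ (by positivity)
    split_ifs <;> positivity
  rcases le_total ((2 : ℝ) ^ (∑ i, k i)) (X ^ (99 / 100 : ℝ)) with hA | hA
  · have h1 := b2 hA
    have h2 : X ^ (83 / 100 : ℝ) ≤ X ^ (5 / 6 : ℝ) / LL X := by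
      rw [le_div_iff₀ (by linarith)]
      calc X ^ (83 / 100 : ℝ) * LL X ≤ X ^ (83 / 100 : ℝ) * X ^ (1 / 300 : ℝ) :=
            mul_le_mul_of_nonneg_left hLX (by positivity)
        _ = X ^ (5 / 6 : ℝ) := by
            rw [← Real.rpow_add hX0]
            norm_num
    linarith
  by_cases hz : ∃ i, k i ≠ 0 ∧ (2 : ℝ) ^ (k i + 1) ≤ ww X
  · rw [b3 hz]
    linarith
  by_cases hJ : ∃ J : Finset (Fin 6), (∑ i, (k i : ℝ)) / 3 + l ≤ ∑ i ∈ J, (k i : ℝ) ∧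
      ∑ i ∈ J, (k i : ℝ) ≤ (∑ i, (k i : ℝ)) / 2 - l
  · obtain ⟨J, j1, j2⟩ := hJ
    have j1' := mul_le_mul_of_nonneg_right j1 h20.le
    have j2' := mul_le_mul_of_nonneg_right j2 h20.le
    have h1 := hT J hA ?_ ?_
    · linarith
    · rw [tpr, hL100, tp, ← Real.exp_add, Real.exp_le_exp]
      push_cast
      linarith
    · rw [tpr, hL100, tp, ← Real.exp_add, Real.exp_le_exp]
      push_cast
      linarith
  · have hA' : 99 / 100 * Real.log X ≤ (∑ i, (k i : ℝ)) * Real.log 2 := by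
      have := Real.log_le_log (by positivity) hA
      rw [Real.log_rpow hX0, Real.log_pow] at this
      push_cast at this
      exact this
    have hD : Dk l k := by
      refine hC k l _ hl1 rfl (fun i => ?_) (fun i => ?_) (fun J h => hJ ⟨J, h⟩)
      · have h1 := Real.log_le_log (by positivity) (hb i)
        rw [Real.log_rpow hX0, Real.log_pow] at h1
        refine le_of_mul_le_mul_right ?_ h20
        linarith
      · by_cases h0 : k i = 0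
        · exact Or.inl h0
        · refine Or.inr ?_
          have h1 : ww X ≤ (2 : ℝ) ^ (k i + 1) := by
            by_contra h
            exact hz ⟨i, h0, (not_le.1 h).le⟩
          have h2 := Real.log_le_log (by linarith) h1
          rw [Real.log_pow] at h2
          push_cast at h2
          refine le_of_mul_le_mul_right ?_ h20
          linarith
    have h9 := b1 hA
    rw [mul_div_assoc] at h9
    rw [if_pos hD]
    linarith

end BOXM

open BOXM in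
theorem boxS (hG : GRStmt) (hB : BADStmt) (hT : T2Stmt) (hC : COMBStmt) : BOXStmt := by
  intro ε hε
  filter_upwards [hB, hT, hG (5 ^ 6 * 3 / ε) 1 one_pos, hG (13000 ^ 6 * 18 / ε) 1 one_pos,
    hG 2 1 one_pos, hG 7 1 one_pos, hG 20000 1 one_pos, hG 1 (1 / 300) (by norm_num),
    hG 54 (1 / 2) (by norm_num)] with X hB hT g1 g2 g3 g4 g5 g6 g7 t S g ht hS
  have hX : 3 ≤ X := g1.1
  have hX0 : 0 < X := by linarith
  have hl2 : 2 ≤ ll X := g1.2.1
  have hl0 : 0 < ll X := by linarith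
  have k1 := g1.2.2.1
  have k2 := g2.2.2.1
  have k3 : ll X ^ 2 ≤ Real.log X := by
    have := g3.2.2.2.1
    rwa [Real.rpow_one, Real.rpow_two] at this
  have k4 : Real.log X ^ 7 ≤ LL X := by
    have := g4.2.2.2.2.1
    rwa [Real.rpow_one, show (7 : ℝ) = ((7 : ℕ) : ℝ) by norm_num, Real.rpow_natCast] at this
  have hL1 : 1 ≤ LL X := g1.2.2.2.2.2.2.2.2.2
  have hw2 : 2 ≤ ww X := g1.2.2.2.2.2.2.2.2.1
  have k5 : LL X ^ (20000 : ℝ) ≤ ww X := by
    have := g5.2.2.2.2.2.1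
    rwa [Real.rpow_one] at this
  have k6 : ww X ≤ X ^ (1 / 300 : ℝ) := by
    have := g6.2.2.2.2.2.2.1
    rwa [Real.rpow_one] at this
  have k7 : ll X ^ 54 ≤ Real.sqrt (Real.log X) := by
    have := g7.2.2.2.1
    rwa [show (54 : ℝ) = ((54 : ℕ) : ℝ) by norm_num, Real.rpow_natCast, ← Real.sqrt_eq_rpow] at this
  clear g1 g2 g3 g4 g5 g6 g7
  have hlog1 : 1 ≤ Real.log X := by nlinarith
  have h2a : (1 / 2 : ℝ) ≤ Real.log 2 := by linarith [Real.log_two_gt_d9]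
  have h2b : Real.log 2 ≤ 1 := by linarith [Real.log_two_lt_d9]
  have h20 : 0 < Real.log 2 := by linarith
  have k5' : 20000 * ll X ^ 2 ≤ Real.log (ww X) := by
    have := Real.log_le_log (by positivity) k5
    rwa [Real.log_rpow (by linarith), LL, Real.log_exp] at this
  have k6' : Real.log (ww X) ≤ 1 / 300 * Real.log X := by
    have := Real.log_le_log (by linarith) k6
    rwa [Real.log_rpow hX0] at this
  have hLX : LL X ≤ X ^ (1 / 300 : ℝ) := by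
    refine le_trans ?_ (k5.trans k6)
    simpa using Real.rpow_le_rpow_of_exponent_le hL1 (show (1 : ℝ) ≤ 20000 by norm_num)
  set l : ℝ := 100 * ll X ^ 2 / Real.log 2 with hl
  have hll : l * Real.log 2 = 100 * ll X ^ 2 := by
    rw [hl]
    field_simp
  have hq4 : 4 ≤ ll X ^ 2 := by nlinarith
  have hl1 : 1 ≤ l := by
    rw [hl, le_div_iff₀ h20]
    linarith
  have hl200 : l ≤ 200 * ll X ^ 2 := by
    rw [hl, div_le_iff₀ h20]
    nlinarith
  have hL100 : LL X ^ 100 = Real.exp (l * Real.log 2) := by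
    rw [hll, LL, ← Real.exp_nat_mul]
    norm_num
  set m : ℕ := Nat.log 2 ⌊2 * X⌋₊ with hm
  have hfl : ⌊2 * X⌋₊ ≠ 0 := by
    have : 1 ≤ ⌊2 * X⌋₊ := Nat.le_floor (by push_cast; linarith)
    omega
  have hmS : ∀ k ∈ S, ∑ i, k i ≤ m := by
    intro k hk
    refine Nat.le_log_of_pow_le (by norm_num) (Nat.le_floor ?_)
    push_cast
    exact (hS k hk).2
  have hm2 : (2 : ℝ) ^ m ≤ 2 * X := by
    have h1 : ((2 ^ m : ℕ) : ℝ) ≤ (⌊2 * X⌋₊ : ℝ) := by exact_mod_cast Nat.pow_log_le_self 2 hfl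
    push_cast at h1
    exact h1.trans (Nat.floor_le (by positivity))
  have hm5 : (m : ℝ) + 1 ≤ 5 * Real.log X := by
    have h1 := Real.log_le_log (by positivity) hm2
    rw [Real.log_pow, Real.log_mul (by norm_num) hX0.ne'] at h1
    have h2 : (0 : ℝ) ≤ m := Nat.cast_nonneg m
    nlinarith
  have hsq : 0 < Real.sqrt (Real.log X) := Real.sqrt_pos.2 (by linarith)
  have one : ∀ k ∈ S, ‖MS X (g k) del‖ ≤ 2 * (X ^ (5 / 6 : ℝ) / LL X) +
      (if Dk l k then ((2 : ℝ) ^ (∑ i, k i)) ^ (5 / 6 : ℝ) else 0) *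
        (ll X ^ 40 / Real.sqrt (Real.log X)) := by
    intro k hk
    obtain ⟨hb, hP⟩ := hS k hk
    obtain ⟨b1, b2, b3⟩ := hB t k (g k) hb hP
    exact oneK hC hX0 hl0 hL1 hLX hw2 k5' k6' hll hl1 hL100 hq4 hlog1 (fun i => (hb i).1) b1 b2
      (fun h => by rw [b3 h, norm_zero])
      (fun J h1 h2 h3 => hT t k (g k) J ht hb h1 hP h2 h3)
  refine (Finset.sum_le_sum one).trans ?_
  rw [Finset.sum_add_distrib, Finset.sum_const, nsmul_eq_mul, ← Finset.sum_mul]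
  have hX56 : 0 < X ^ (5 / 6 : ℝ) := by positivity
  have c1 : (S.card : ℝ) * (2 * (X ^ (5 / 6 : ℝ) / LL X)) ≤ 2 / 3 * (ε * X ^ (5 / 6 : ℝ) / ll X) := by
    have h1 : (S.card : ℝ) ≤ (5 * Real.log X) ^ 6 :=
      (cardS S m hmS).trans (pow_le_pow_left₀ (by positivity) hm5 6)
    have h2 : (5 * Real.log X) ^ 6 * 3 * ll X ≤ ε * LL X := by
      rw [div_le_iff₀ hε] at k1
      have h3 : 0 ≤ Real.log X ^ 6 := by positivity
      calc (5 * Real.log X) ^ 6 * 3 * ll X = 5 ^ 6 * 3 * (ll X * Real.log X ^ 6) := by ring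
        _ ≤ ll X * ε * (ll X * Real.log X ^ 6) :=
            mul_le_mul_of_nonneg_right k1 (by positivity)
        _ = ε * (ll X ^ 2 * Real.log X ^ 6) := by ring
        _ ≤ ε * (Real.log X * Real.log X ^ 6) := by gcongr
        _ = ε * Real.log X ^ 7 := by ring
        _ ≤ ε * LL X := by gcongr
    have h4 : (S.card : ℝ) / LL X ≤ ε / 3 / ll X := by
      rw [div_le_div_iff₀ (by linarith) hl0]
      nlinarith [mul_le_mul_of_nonneg_right h1 hl0.le]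
    calc _ = (S.card : ℝ) / LL X * (2 * X ^ (5 / 6 : ℝ)) := by ring
      _ ≤ ε / 3 / ll X * (2 * X ^ (5 / 6 : ℝ)) := mul_le_mul_of_nonneg_right h4 (by positivity)
      _ = _ := by ring
  have c2 : (∑ k ∈ S, (if Dk l k then ((2 : ℝ) ^ (∑ i, k i)) ^ (5 / 6 : ℝ) else 0)) *
      (ll X ^ 40 / Real.sqrt (Real.log X)) ≤ 1 / 3 * (ε * X ^ (5 / 6 : ℝ) / ll X) := by
    have h1 := sumD S (by linarith : 0 ≤ l) m hmS
    have h2 : (5 * (12 * l + 1)) ^ 6 ≤ (13000 * ll X ^ 2) ^ 6 :=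
      pow_le_pow_left₀ (by positivity) (by linarith) 6
    have h3 : ((2 : ℝ) ^ m) ^ (5 / 6 : ℝ) ≤ 2 * X ^ (5 / 6 : ℝ) := by
      refine (Real.rpow_le_rpow (by positivity) hm2 (by norm_num)).trans ?_
      rw [Real.mul_rpow (by norm_num) hX0.le]
      refine mul_le_mul_of_nonneg_right ?_ hX56.le
      simpa using Real.rpow_le_rpow_of_exponent_le (show (1 : ℝ) ≤ 2 by norm_num)
        (show (5 / 6 : ℝ) ≤ 1 by norm_num)
    have h4 : (∑ k ∈ S, (if Dk l k then ((2 : ℝ) ^ (∑ i, k i)) ^ (5 / 6 : ℝ) else 0)) ≤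
        (13000 * ll X ^ 2) ^ 6 * (3 * (2 * X ^ (5 / 6 : ℝ))) :=
      h1.trans (mul_le_mul h2 (by linarith) (by positivity) (by positivity))
    have h5 : (13000 * ll X ^ 2) ^ 6 * 6 * ll X ^ 40 / Real.sqrt (Real.log X) ≤ ε / 3 / ll X := by
      rw [div_le_div_iff₀ hsq hl0]
      rw [div_le_iff₀ hε] at k2
      calc (13000 * ll X ^ 2) ^ 6 * 6 * ll X ^ 40 * ll X = 13000 ^ 6 * 18 * (ll X ^ 53 / 3) := by
            ring
        _ ≤ ll X * ε * (ll X ^ 53 / 3) := mul_le_mul_of_nonneg_right k2 (by positivity)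
        _ = ε / 3 * ll X ^ 54 := by ring
        _ ≤ ε / 3 * Real.sqrt (Real.log X) := by gcongr
    calc _ ≤ (13000 * ll X ^ 2) ^ 6 * (3 * (2 * X ^ (5 / 6 : ℝ))) *
          (ll X ^ 40 / Real.sqrt (Real.log X)) := mul_le_mul_of_nonneg_right h4 (by positivity)
      _ = (13000 * ll X ^ 2) ^ 6 * 6 * ll X ^ 40 / Real.sqrt (Real.log X) * X ^ (5 / 6 : ℝ) := by
          ring
      _ ≤ ε / 3 / ll X * X ^ (5 / 6 : ℝ) := mul_le_mul_of_nonneg_right h5 hX56.le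
      _ = _ := by ring
  linarith

end Vale.Agent.P006.M
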