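import Vale.Agent.P006.M

/-! P006 main branch: combinatorics of the boxes. -/

noncomputable section
open scoped Classical

namespace Vale.Agent.P006.M
namespace COMBM

lemma tri (f : Fin 6 → ℝ) (l s : ℝ) (hs : s = ∑ i, f i)
    (h : ∀ J : Finset (Fin 6), ¬ (s / 3 + l ≤ ∑ i ∈ J, f i ∧ ∑ i ∈ J, f i ≤ s / 2 - l))
    (J : Finset (Fin 6)) : ∑ i ∈ J, f i < s / 3 + l ∨
      (s / 2 - l < ∑ i ∈ J, f i ∧ ∑ i ∈ J, f i < s / 2 + l) ∨ 2 * s / 3 - l < ∑ i ∈ J, f i := by
  have h1 := h J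
  have h2 := h Jᶜ
  have e := Finset.sum_add_sum_compl J f
  rw [not_and_or, not_le, not_le] at h1 h2
  rcases h1 with h1 | h1
  · exact Or.inl h1
  · rcases h2 with h2 | h2
    · exact Or.inr (Or.inr (by linarith))
    · exact Or.inr (Or.inl ⟨h1, by linarith⟩)

lemma low (f : Fin 6 → ℝ) (l s : ℝ) (hl : 1 ≤ l) (hs : s = ∑ i, f i) (hu : ∀ i, f i < s / 3 + l)
    (h : ∀ J : Finset (Fin 6), ¬ (s / 3 + l ≤ ∑ i ∈ J, f i ∧ ∑ i ∈ J, f i ≤ s / 2 - l))
    (a : Fin 6) (ha : 100 * l ≤ f a) : s / 6 - 2 * l < f a := by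
  by_contra hc
  rw [not_lt] at hc
  have key : ∀ J : Finset (Fin 6), a ∉ J → ∑ i ∈ J, f i < s / 3 - 99 * l := by
    intro J
    induction J using Finset.induction_on with
    | empty =>
      intro _
      rw [Finset.sum_empty]
      linarith
    | insert b J hb ih =>
      intro hn
      have h0 := ih fun g => hn (Finset.mem_insert_of_mem g)
      have h1 := tri f l s hs h (insert b J)
      have h2 := tri f l s hs h (insert a (insert b J))
      rw [Finset.sum_insert hn] at h2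
      have h3 : ∑ i ∈ insert b J, f i < 2 * s / 3 - 98 * l := by
        rw [Finset.sum_insert hb]
        linarith [hu b]
      generalize ∑ i ∈ insert b J, f i = x at *
      rcases h1 with h1 | h1 | h1 <;> rcases h2 with h2 | h2 | h2 <;>
        linarith
  have h1 := key (Finset.univ.erase a) (Finset.notMem_erase _ _)
  have h2 := Finset.add_sum_erase Finset.univ f (Finset.mem_univ a)
  linarith

lemma pair (f : Fin 6 → ℝ) (l s : ℝ) (hl : 1 ≤ l) (hs : s = ∑ i, f i) (hu : ∀ i, f i < s / 3 + l)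
    (h : ∀ J : Finset (Fin 6), ¬ (s / 3 + l ≤ ∑ i ∈ J, f i ∧ ∑ i ∈ J, f i ≤ s / 2 - l))
    (a b : Fin 6) (hab : a ≠ b) (ha : 100 * l ≤ f a) (hb : 100 * l ≤ f b) :
    ∃ m : ℕ, 2 ≤ m ∧ m ≤ 4 ∧ m * s / 6 - 4 * l ≤ f a + f b ∧ f a + f b ≤ m * s / 6 + 4 * l := by
  have h1 := tri f l s hs h {a, b}
  rw [Finset.sum_pair hab] at h1
  have h2 := low f l s hl hs hu h a ha
  have h3 := low f l s hl hs hu h b hb
  have h4 := hu a
  have h5 := hu b
  rcases h1 with h1 | h1 | h1
  · exact ⟨2, le_rfl, by norm_num, by push_cast; linarith, by push_cast; linarith⟩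
  · exact ⟨3, by norm_num, by norm_num, by push_cast; linarith [h1.1], by push_cast; linarith [h1.2]⟩
  · exact ⟨4, by norm_num, le_rfl, by push_cast; linarith, by push_cast; linarith⟩

end COMBM

open COMBM in
theorem combS : COMBStmt := by
  intro k l s hl hs hk hz h a
  have hu : ∀ i, (k i : ℝ) < s / 3 + l := by
    intro i
    have := h {i}
    rw [Finset.sum_singleton, not_and_or, not_le, not_le] at this
    rcases this with g | g
    · exact g
    · linarith [hk i]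
  have s0 : 0 ≤ s := by
    rw [hs]
    exact Finset.sum_nonneg fun i _ => Nat.cast_nonneg _
  rcases hz a with ha | ha
  · exact ⟨0, by norm_num, by rw [ha]; simp; linarith⟩
  set T := (Finset.univ.erase a).filter (fun i => k i ≠ 0) with hT
  by_cases hc : 1 < T.card
  · obtain ⟨b, hb, c, hc, hbc⟩ := Finset.one_lt_card.1 hc
    obtain ⟨b1, b2⟩ := Finset.mem_filter.1 hb
    obtain ⟨c1, c2⟩ := Finset.mem_filter.1 hc
    have b3 := (hz b).resolve_left b2
    have c3 := (hz c).resolve_left c2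
    obtain ⟨m1, p1, q1, r1, t1⟩ := pair (fun i => (k i : ℝ)) l s hl hs hu h a b
      (Finset.ne_of_mem_erase b1).symm ha b3
    obtain ⟨m2, p2, q2, r2, t2⟩ := pair (fun i => (k i : ℝ)) l s hl hs hu h a c
      (Finset.ne_of_mem_erase c1).symm ha c3
    obtain ⟨m3, p3, q3, r3, t3⟩ := pair (fun i => (k i : ℝ)) l s hl hs hu h b c hbc b3 c3
    obtain ⟨j, hj⟩ : ∃ j : ℕ, m1 + m2 = m3 + j := ⟨m1 + m2 - m3, by omega⟩
    have hj' : (m1 : ℝ) * s + m2 * s = m3 * s + j * s := by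
      rw [← add_mul, ← add_mul, ← Nat.cast_add, ← Nat.cast_add, hj]
    by_cases h4 : j ≤ 4
    · refine ⟨j, h4, abs_le.2 ⟨by linarith, by linarith⟩⟩
    · have h5 : (4 : ℝ) ≤ j := by exact_mod_cast (by omega : 4 ≤ j)
      have h6 : 4 * s ≤ j * s := mul_le_mul_of_nonneg_right h5 s0
      have := hu a
      refine ⟨4, le_rfl, abs_le.2 ⟨?_, ?_⟩⟩ <;> push_cast <;> linarith
  · have h1 : ∑ i ∈ T, (k i : ℝ) ≤ T.card • (s / 3 + l) :=
      Finset.sum_le_card_nsmul _ _ _ fun i _ => (hu i).le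
    have h2 : (T.card : ℝ) ≤ 1 := by exact_mod_cast (not_lt.1 hc)
    rw [nsmul_eq_mul] at h1
    have h3 : (T.card : ℝ) * (s / 3 + l) ≤ 1 * (s / 3 + l) :=
      mul_le_mul_of_nonneg_right h2 (by linarith)
    have h4 : ∑ i ∈ T, (k i : ℝ) = ∑ i ∈ Finset.univ.erase a, (k i : ℝ) :=
      Finset.sum_filter_of_ne fun i _ g g' => g (by rw [g']; simp)
    have h5 := Finset.add_sum_erase Finset.univ (fun i => (k i : ℝ)) (Finset.mem_univ a)
    have := hu a
    exfalso
    linarith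

end Vale.Agent.P006.M
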