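import Vale.Agent.P006.M.HAa

/-! P006 main branch: the type I part. -/

noncomputable section
open Complex MeasureTheory Filter Topology
open scoped Classical ComplexConjugate

namespace Vale.Agent.P006.M
open Vale.Agent.P026 Vale.Agent.P006
open Vale.Agent.P026.W1 (bas)
open Vale.Agent.P006.Vau (N1 N0)

namespace HAM

/-- the worst divisor of each product -/
theorem worst (A : Finset (O × O)) (Y : O → ℝ) {R Z D B t : ℝ} (hD0 : 0 ≤ D)
    (hA : ∀ p ∈ A, SP (p.1 * p.2) ∧ N (p.1 * p.2) ≤ R ∧ Z ≤ Y p.2 ∧ Y p.2 ≤ 2 * Z)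
    (hD : ∀ r : O, r ≠ 0 → N r ≤ R → ∀ s : Finset O, (∀ d ∈ s, d ∣ r) → (s.card : ℝ) ≤ D)
    (hT : ∀ (S : Finset O) (Zf : O → ℝ), (∀ r ∈ S, SP r ∧ N r ≤ R ∧ Z ≤ Zf r ∧ Zf r ≤ 2 * Z) →
      ∑ r ∈ S, ‖SS r (Zf r) t‖ ≤ B) :
    ∑ p ∈ A, ‖SS (p.1 * p.2) (Y p.2) t‖ ≤ D * B := by
  set S := A.image fun p => p.1 * p.2 with hS
  have hex : ∀ r ∈ S, ∃ q ∈ A.filter fun p => p.1 * p.2 = r, ∀ p ∈ A.filter fun p => p.1 * p.2 = r,
      ‖SS r (Y p.2) t‖ ≤ ‖SS r (Y q.2) t‖ := fun r hr => by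
    obtain ⟨p, hp, rfl⟩ := Finset.mem_image.1 hr
    exact Finset.exists_max_image _ (fun q : O × O => ‖SS (p.1 * p.2) (Y q.2) t‖)
      ⟨p, Finset.mem_filter.2 ⟨hp, rfl⟩⟩
  choose! φ hφ hm using hex
  have h1 := hT S (fun r => Y (φ r).2) fun r hr => by
    obtain ⟨h2, h3⟩ := Finset.mem_filter.1 (hφ r hr)
    have := hA _ h2
    rw [h3] at this
    exact this
  rw [← Finset.sum_fiberwise_of_maps_to (g := fun p : O × O => p.1 * p.2) (t := S)
    fun p hp => Finset.mem_image_of_mem _ hp]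
  refine le_trans (Finset.sum_le_sum fun r hr => ?_) ((Finset.mul_sum _ _ _).symm.le.trans
    (mul_le_mul_of_nonneg_left h1 hD0))
  obtain ⟨h2, h3⟩ := Finset.mem_filter.1 (hφ r hr)
  have h4 := hA _ h2
  rw [h3] at h4
  have hr0 : r ≠ 0 := bas.b2.ne _ h4.1.1
  have hc : ((A.filter fun p => p.1 * p.2 = r).card : ℝ) ≤ D := by
    rw [← Finset.card_image_of_injOn (f := Prod.snd)]
    · refine hD r hr0 h4.2.1 _ fun d hd => ?_
      obtain ⟨p, hp, rfl⟩ := Finset.mem_image.1 hd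
      exact ⟨p.1, by rw [← (Finset.mem_filter.1 hp).2, mul_comm]⟩
    · intro p hp q hq e
      have e1 := (Finset.mem_filter.1 (Finset.mem_coe.1 hp)).2
      have e2 := (Finset.mem_filter.1 (Finset.mem_coe.1 hq)).2
      have h0 : q.2 ≠ 0 := by rintro h; rw [h, mul_zero] at e2; exact hr0 e2.symm
      refine Prod.ext (mul_right_cancel₀ h0 ?_) e
      rw [e2, ← e, e1]
  refine le_trans (Finset.sum_le_card_nsmul _ _ ‖SS r (Y (φ r).2) t‖ fun p hp => ?_) ?_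
  · rw [(Finset.mem_filter.1 hp).2]; exact hm r hr p hp
  · rw [nsmul_eq_mul]; exact mul_le_mul_of_nonneg_right hc (norm_nonneg _)

/-- all pairs near the scale -/
theorem grp (hT : TI1Stmt) : ∃ C : ℝ, 0 ≤ C ∧ ∀ (X Z η t : ℝ) (A : Finset (O × O)), 3 ≤ X →
    4 ≤ X ^ (1 / 100 : ℝ) → 0 < Z → 1 / 2 ≤ η → η ≤ 1 →
    (∀ p ∈ A, Prim p.1 ∧ Prim p.2 ∧ Squarefree (p.1 * p.2) ∧ N p.1 * Z ≤ X ^ (1001 / 1000 : ℝ) ∧
      N p.2 ≤ Z * X ^ (-48 / 100 : ℝ) ∧ N p.2 ≤ 2 * X) →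
    ∑ p ∈ A, ‖SS (p.1 * p.2) (Z / N p.2 * η) t‖ ≤ C * (1 + |t|) ^ 4 * X ^ (8325 / 10000 : ℝ) := by
  obtain ⟨C, hC0, hC⟩ := hT
  obtain ⟨D, hD⟩ := bas.b3.div (1 / 10000) (by norm_num)
  have hD0 : 0 ≤ D := by
    have := hD 1 one_ne_zero ∅ (by simp)
    simpa [Vau.N_one] using this
  refine ⟨50000 * D * C, by positivity, fun X Z η t A hX hX4 hZ hη hη1 hA => ?_⟩
  have hX0 : 0 < X := by linarith
  have hX1 : 1 ≤ X := by linarith
  set J := Nat.log 2 ⌊2 * X⌋₊ + 1 with hJ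
  have hl : 1 ≤ Real.log X := by
    rw [Real.le_log_iff_exp_le (by linarith)]; linarith [Real.exp_one_lt_d9]
  have hJ1 : (J : ℝ) ≤ 50000 * X ^ (1 / 10000 : ℝ) := by
    have h1 : 2 ^ Nat.log 2 ⌊2 * X⌋₊ ≤ ⌊2 * X⌋₊ := Nat.pow_log_le_self 2 (by
      have : 1 ≤ ⌊2 * X⌋₊ := Nat.le_floor (by push_cast; linarith)
      omega)
    have h2 : (2 : ℝ) ^ Nat.log 2 ⌊2 * X⌋₊ ≤ 2 * X :=
      le_trans (by exact_mod_cast h1) (Nat.floor_le (by linarith))
    have h3 := Real.log_le_log (by positivity) h2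
    rw [Real.log_pow, Real.log_mul (by norm_num) hX0.ne'] at h3
    have h4 := Real.log_two_gt_d9
    have h5 := Real.log_two_lt_d9
    have h6 := Real.log_le_rpow_div hX0.le (show (0 : ℝ) < 1 / 10000 by norm_num)
    have h7 : (0 : ℝ) ≤ Nat.log 2 ⌊2 * X⌋₊ := Nat.cast_nonneg _
    rw [hJ]; push_cast
    nlinarith
  have hm : ∀ p ∈ A, Nat.log 2 (Nn p.2) ∈ Finset.range J := fun p hp => by
    rw [Finset.mem_range, hJ, Nat.lt_succ_iff]
    exact Nat.log_mono_right (Nat.le_floor (hA p hp).2.2.2.2.2)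
  rw [← Finset.sum_fiberwise_of_maps_to hm]
  set B := D * X ^ (2 / 10000 : ℝ) * (C * (1 + |t|) ^ 4 * X ^ (8322 / 10000 : ℝ)) with hB
  have hB0 : 0 ≤ B := by positivity
  refine (Finset.sum_le_card_nsmul _ _ B fun j _ => ?_).trans ?_
  · rcases (A.filter fun p => Nat.log 2 (Nn p.2) = j).eq_empty_or_nonempty with h0 | ⟨q, hq⟩
    · rw [h0, Finset.sum_empty]; exact hB0
    set E : ℝ := 2 ^ j with hE
    have hE0 : 0 < E := by positivity
    have hj : ∀ p ∈ A.filter fun p => Nat.log 2 (Nn p.2) = j, E ≤ N p.2 ∧ N p.2 ≤ 2 * E := fun p hp => by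
      obtain ⟨h1, h2⟩ := Finset.mem_filter.1 hp
      have h3 := N1 (hA p h1).2.1
      have h4 : Nn p.2 ≠ 0 := by
        intro h; unfold N at h3; rw [h] at h3; norm_num at h3
      have h5 := Nat.pow_log_le_self 2 h4
      have h6 := Nat.lt_pow_succ_log_self (b := 2) (by norm_num) (Nn p.2)
      rw [h2] at h5 h6
      unfold N
      constructor
      · rw [hE]; exact_mod_cast h5
      · rw [hE, ← pow_succ']; exact_mod_cast h6.le
    set R := X ^ (1001 / 1000 : ℝ) / Z * (2 * E) with hR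
    set Z' := Z * η / (2 * E) with hZ'
    have hA' : ∀ p ∈ A.filter fun p => Nat.log 2 (Nn p.2) = j,
        SP (p.1 * p.2) ∧ N (p.1 * p.2) ≤ R ∧ Z' ≤ Z / N p.2 * η ∧ Z / N p.2 * η ≤ 2 * Z' := fun p hp => by
      obtain ⟨a1, a2, a3, a4, -, -⟩ := hA p (Finset.mem_filter.1 hp).1
      obtain ⟨b1, b2⟩ := hj p hp
      have := N1 a2
      refine ⟨⟨bas.b2.mul _ _ a1 a2, a3⟩, ?_, ?_, ?_⟩
      · rw [bas.b1.N_mul, hR]
        exact mul_le_mul ((le_div_iff₀ hZ).2 a4) b2 (N0 _) (by positivity)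
      · rw [hZ', div_mul_eq_mul_div]; gcongr
      · rw [hZ', div_mul_eq_mul_div, show 2 * (Z * η / (2 * E)) = Z * η / E by field_simp]; gcongr
    have hR1 : 1 ≤ R := (N1 (hA' q hq).1.1).trans (hA' q hq).2.1
    have hRZ : R * Z' ≤ X ^ (1001 / 1000 : ℝ) := by
      have : R * Z' = X ^ (1001 / 1000 : ℝ) * η := by rw [hR, hZ']; field_simp
      rw [this]; exact mul_le_of_le_one_right (by positivity) hη1
    have hZ2 : X ^ (47 / 100 : ℝ) ≤ Z' := by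
      have h1 := (hj q hq).1.trans (hA q (Finset.mem_filter.1 hq).1).2.2.2.2.1
      have e : X ^ (47 / 100 : ℝ) * X ^ (-48 / 100 : ℝ) * X ^ (1 / 100 : ℝ) = 1 := by
        rw [← Real.rpow_add hX0, ← Real.rpow_add hX0]; norm_num
      have h2 : 0 < X ^ (47 / 100 : ℝ) := by positivity
      have h3 : 0 < X ^ (-48 / 100 : ℝ) := by positivity
      rw [hZ', le_div_iff₀ (by positivity)]
      have h4 : X ^ (47 / 100 : ℝ) * X ^ (-48 / 100 : ℝ) ≤ 1 / 4 := by nlinarith [mul_pos h2 h3]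
      calc _ ≤ X ^ (47 / 100 : ℝ) * (2 * (Z * X ^ (-48 / 100 : ℝ))) := by gcongr
        _ = 2 * Z * (X ^ (47 / 100 : ℝ) * X ^ (-48 / 100 : ℝ)) := by ring
        _ ≤ 2 * Z * (1 / 4) := by gcongr
        _ ≤ _ := by nlinarith
    have hZ1 : 1 ≤ Z' := (Real.one_le_rpow hX1 (by norm_num)).trans hZ2
    have hRX : R ≤ X ^ (2 : ℝ) :=
      ((le_mul_of_one_le_right (by linarith) hZ1).trans hRZ).trans
        (Real.rpow_le_rpow_of_exponent_le hX1 (by norm_num))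
    refine worst _ (fun e => Z / N e * η) (by positivity) hA' (fun r hr h s hs => (hD r hr s hs).trans ?_)
      fun S Zf hS => (hC R Z' t S Zf hR1 hZ1 ?_ hS).trans ?_
    · refine mul_le_mul_of_nonneg_left ((Real.rpow_le_rpow (N0 r) (h.trans hRX) (by norm_num)).trans ?_) hD0
      rw [← Real.rpow_mul hX0.le]; norm_num
    · refine (Real.rpow_le_rpow (by positivity) hRZ (by norm_num)).trans (le_trans ?_ hZ2)
      rw [← Real.rpow_mul hX0.le]
      exact Real.rpow_le_rpow_of_exponent_le hX1 (by norm_num)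
    · refine mul_le_mul_of_nonneg_left ((Real.rpow_le_rpow (by positivity) hRZ (by norm_num)).trans ?_)
        (by positivity)
      rw [← Real.rpow_mul hX0.le]
      exact Real.rpow_le_rpow_of_exponent_le hX1 (by norm_num)
  · rw [Finset.card_range, nsmul_eq_mul]
    have e : X ^ (8325 / 10000 : ℝ) = X ^ (1 / 10000 : ℝ) * X ^ (2 / 10000 : ℝ) * X ^ (8322 / 10000 : ℝ) := by
      rw [← Real.rpow_add hX0, ← Real.rpow_add hX0]; norm_num
    rw [e]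
    refine (mul_le_mul_of_nonneg_right hJ1 hB0).trans (le_of_eq ?_)
    rw [hB]; ring

theorem mu_le (n : O) : ‖mu n‖ ≤ 1 := by
  unfold mu; split_ifs <;> simp

/-- one pair `(r, e)` -/
theorem pair : ∃ D : ℝ, 0 ≤ D ∧ ∀ (X K Z : ℝ) (Φ c : ℝ → ℂ) (α : O → ℂ) (r e : O), 3 ≤ X → 0 < Z → Wt X K Φ →
    (∀ r, ‖α r‖ ≤ 1) → Integrable c →
    (∀ x : ℝ, 0 < x → Φ x = ∫ t : ℝ, c t * (x : ℂ) ^ (-((Real.log X)⁻¹ : ℝ) - t * I : ℂ)) → Prim r → Prim e →
    ‖∑ u ∈ SQ (2 * X), (if Smo (ww X) e ∧ N e ≤ Z * X ^ (-48 / 100 : ℝ) then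
      α r * mu e * (VV Z (N e * N u) : ℝ) * FF X Φ (r * e * u) else 0 : ℂ)‖ ≤
      (if Squarefree (r * e) ∧ N r * Z ≤ X ^ (1001 / 1000 : ℝ) ∧ N e ≤ Z * X ^ (-48 / 100 : ℝ) then
        9 * ∫ t, ‖c t‖ * ‖SS (r * e) (Z / N e * Real.exp (-(Real.log X)⁻¹ / 2)) (-t)‖ else 0) +
      (D * |K| + cd * zt) * X ^ (-7 : ℝ) := by
  have hc := cd_pos
  have hz := zt0
  obtain ⟨D, hD0, hfar⟩ : ∃ D : ℝ, 0 ≤ D ∧ ∀ (X Y K : ℝ) (r : O) (Φ : ℝ → ℂ), 3 ≤ X → 0 < Y → Prim r → Wt X K Φ →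
      X ^ (1001 / 1000 : ℝ) ≤ N r * Y →
      ‖∑ u ∈ SQ (2 * X), ((VV Y (N u) : ℝ) : ℂ) * FF X Φ (r * u)‖ ≤ D * K * X ^ (-7 : ℝ) :=
    ⟨32 * cd * (Real.exp (8000 ^ 2 / 4) * 2 ^ (8000 : ℝ)), by positivity, fun X Y K r Φ hX hY hr hW h =>
      (far hX hY hr hW h).trans (le_of_eq (by ring))⟩
  refine ⟨D, hD0, fun X K Z Φ c α r e hX hZ hW hα hc1 hΦ a1 a2 => ?_⟩
  have hX0 : 0 < X := by linarith
  have hX1 : 1 ≤ X := by linarith
  have hK : 0 ≤ K := (norm_nonneg _).trans (hW.le 1 one_pos)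
  have a4 := N1 a2
  have a5 := bas.b2.mul _ _ a1 a2
  have h7 : 0 < X ^ (-7 : ℝ) := by positivity
  have hn : 0 ≤ (if Squarefree (r * e) ∧ N r * Z ≤ X ^ (1001 / 1000 : ℝ) ∧ N e ≤ Z * X ^ (-48 / 100 : ℝ) then
        9 * ∫ t, ‖c t‖ * ‖SS (r * e) (Z / N e * Real.exp (-(Real.log X)⁻¹ / 2)) (-t)‖ else 0) := by
    split_ifs
    · exact mul_nonneg (by norm_num) (integral_nonneg fun t => by positivity)
    · exact le_rfl
  have hE : 0 ≤ (D * |K| + cd * zt) * X ^ (-7 : ℝ) := by positivity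
  by_cases h : Smo (ww X) e ∧ N e ≤ Z * X ^ (-48 / 100 : ℝ)
  swap
  · rw [Finset.sum_eq_zero fun u _ => if_neg h, norm_zero]; exact add_nonneg hn hE
  have e1 : ∑ u ∈ SQ (2 * X), (if Smo (ww X) e ∧ N e ≤ Z * X ^ (-48 / 100 : ℝ) then
      α r * mu e * (VV Z (N e * N u) : ℝ) * FF X Φ (r * e * u) else 0 : ℂ) =
      α r * mu e * ∑ u ∈ SQ (2 * X), ((VV (Z / N e) (N u) : ℝ) : ℂ) * FF X Φ (r * e * u) := by
    rw [Finset.mul_sum]
    refine Finset.sum_congr rfl fun u hu => ?_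
    have := N1 (((memS bas).1 _ _).1 hu).1.1
    rw [if_pos h, ln.scale Z (N u) (N e) hZ (by linarith) (by linarith)]; ring
  rw [e1, norm_mul, norm_mul]
  refine le_trans (mul_le_of_le_one_left (norm_nonneg _)
    (mul_le_one₀ (hα _) (norm_nonneg _) (mu_le _))) ?_
  have hYp : 0 < Z / N e := by positivity
  by_cases hs : Squarefree (r * e)
  swap
  · rw [Finset.sum_eq_zero fun u _ => by simp [FF, del_zero (Or.inl hs)], norm_zero]; exact add_nonneg hn hE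
  by_cases hb : N r * Z ≤ X ^ (1001 / 1000 : ℝ)
  · rw [if_pos ⟨hs, hb, h.2⟩]
    have hY1 : 1 ≤ Z / N e := by
      rw [le_div_iff₀ (by linarith), one_mul]
      exact h.2.trans (mul_le_of_le_one_right hZ.le (Real.rpow_le_one_of_one_le_of_nonpos hX1 (by norm_num)))
    refine (cut hX hYp a5 hW).trans (add_le_add (full hX hY1 a5 hc1 hΦ) ?_)
    have : 0 ≤ D * |K| * X ^ (-7 : ℝ) := by positivity
    linarith
  · refine (hfar X _ K _ Φ hX hYp a5 hW ?_).trans ?_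
    · rw [bas.b1.N_mul, show N r * N e * (Z / N e) = N r * Z by field_simp]; linarith
    · rw [abs_of_nonneg hK]
      have : 0 ≤ cd * zt * X ^ (-7 : ℝ) := by positivity
      linarith

end HAM

open HAM in
theorem haS (hG : GRStmt) (hT : TI1Stmt) : HAStmt := by
  intro K
  obtain ⟨C, hC0, hC⟩ := grp hT
  obtain ⟨D, hD0, hD⟩ := pair
  set E : ℝ := D * |K| + cd * zt with hE
  have hc := cd_pos
  have hz := zt0
  have hE0 : 0 ≤ E := by positivity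
  filter_upwards [hG 13 (1 / 10000) (by norm_num),
    (tendsto_rpow_atTop (show (0 : ℝ) < 1 / 100 by norm_num)).eventually_ge_atTop 4,
    (tendsto_rpow_atTop (show (0 : ℝ) < 1 / 10000 by norm_num)).eventually_ge_atTop (9 * C + 1024 * E)]
    with X hg hX4 hXC Φ α Z hW hα hZ1 hZ2
  obtain ⟨hX, -, -, -, -, g1, g2, -, g3, g4⟩ := hg
  have hX0 : 0 < X := by linarith
  have hX1 : 1 ≤ X := by linarith
  have hZ : 0 < Z := lt_of_lt_of_le (by positivity) hZ1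
  have hK : 0 ≤ K := (norm_nonneg _).trans (hW.le 1 one_pos)
  obtain ⟨c, hc1, hc2, hΦ, -, hc3⟩ := hW.rep
  have hl : 1 ≤ Real.log X := by
    rw [Real.le_log_iff_exp_le (by linarith)]; linarith [Real.exp_one_lt_d9]
  set η := Real.exp (-(Real.log X)⁻¹ / 2) with hη
  have hi1 : (Real.log X)⁻¹ ≤ 1 := inv_le_one_of_one_le₀ hl
  have hi0 : 0 < (Real.log X)⁻¹ := by positivity
  have hη1 : η ≤ 1 := Real.exp_le_one_iff.2 (by linarith)
  have hη2 : 1 / 2 ≤ η := le_trans (by linarith) (Real.add_one_le_exp _)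
  set P := SQ (2 * X) ×ˢ SQ (2 * X) with hP
  set A := P.filter fun p : O × O => Squarefree (p.1 * p.2) ∧ N p.1 * Z ≤ X ^ (1001 / 1000 : ℝ) ∧
    N p.2 ≤ Z * X ^ (-48 / 100 : ℝ) with hA
  have hm : ∀ p ∈ P, Prim p.1 ∧ Prim p.2 ∧ N p.2 ≤ 2 * X := fun p hp => by
    obtain ⟨h1, h2⟩ := Finset.mem_product.1 hp
    exact ⟨(((memS bas).1 _ _).1 h1).1.1, (((memS bas).1 _ _).1 h2).1.1, (((memS bas).1 _ _).1 h2).2⟩
  have hY : ∀ p ∈ P, 0 < Z / N p.2 * η := fun p hp => by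
    have := N1 (hm p hp).2.1; positivity
  set f : O × O → ℝ → ℝ := fun p t => ‖c t‖ * ‖SS (p.1 * p.2) (Z / N p.2 * η) (-t)‖ with hf
  have hfi : ∀ p ∈ P, Integrable (f p) := fun p hp =>
    ss_int (bas.b2.mul _ _ (hm p hp).1 (hm p hp).2.1) (hY p hp) hc1
  have h7 : 0 < X ^ (-7 : ℝ) := by positivity
  have h1 : ∀ p ∈ P, ‖∑ u ∈ SQ (2 * X), (if Smo (ww X) p.2 ∧ N p.2 ≤ Z * X ^ (-48 / 100 : ℝ) then
      α p.1 * mu p.2 * (VV Z (N p.2 * N u) : ℝ) * FF X Φ (p.1 * p.2 * u) else 0 : ℂ)‖ ≤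
      (if Squarefree (p.1 * p.2) ∧ N p.1 * Z ≤ X ^ (1001 / 1000 : ℝ) ∧ N p.2 ≤ Z * X ^ (-48 / 100 : ℝ) then
        9 * ∫ t, f p t else 0) + E * X ^ (-7 : ℝ) := fun p hp =>
    hD X K Z Φ c α p.1 p.2 hX hZ hW hα hc1 hΦ (hm p hp).1 (hm p hp).2.1
  have h2 : ∑ p ∈ A, ∫ t, f p t ≤ C * X ^ (8325 / 10000 : ℝ) * LL X := by
    rw [← integral_finset_sum _ fun p hp => hfi p (Finset.mem_filter.1 hp).1]
    refine le_trans (integral_mono (integrable_finset_sum _ fun p hp => hfi p (Finset.mem_filter.1 hp).1)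
      (hc2.const_mul (C * X ^ (8325 / 10000 : ℝ))) fun t => ?_) ?_
    · have := hC X Z η (-t) A hX hX4 hZ hη2 hη1 fun p hp => by
        obtain ⟨b1, b2, b3, b4⟩ := Finset.mem_filter.1 hp
        exact ⟨(hm p b1).1, (hm p b1).2.1, b2, b3, b4, (hm p b1).2.2⟩
      simp only [hf]
      rw [← Finset.mul_sum]
      rw [abs_neg] at this
      have h4 : (1 + |t|) ^ 4 ≤ (1 + |t|) ^ 8 := pow_le_pow_right₀ (by linarith [abs_nonneg t]) (by norm_num)
      calc _ ≤ ‖c t‖ * (C * (1 + |t|) ^ 8 * X ^ (8325 / 10000 : ℝ)) :=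
            mul_le_mul_of_nonneg_left (this.trans (by gcongr)) (norm_nonneg _)
        _ = _ := by ring
    · rw [integral_const_mul]; exact mul_le_mul_of_nonneg_left hc3 (by positivity)
  have h3 : ((SQ (2 * X)).card : ℝ) ≤ 16 * (2 * X) := bas.b3.card_le (2 * X) (SQ (2 * X)) (by linarith)
    fun a ha => ⟨bas.b2.ne _ (((memS bas).1 _ _).1 ha).1.1, (((memS bas).1 _ _).1 ha).2⟩
  have h4 : (P.card : ℝ) * (E * X ^ (-7 : ℝ)) ≤ 1024 * E := by
    rw [hP, Finset.card_product]; push_cast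
    have e : X * X * X ^ (-7 : ℝ) ≤ 1 := by
      have : X ^ (-7 : ℝ) ≤ X ^ (-2 : ℝ) := Real.rpow_le_rpow_of_exponent_le hX1 (by norm_num)
      have e2 : X * X * X ^ (-2 : ℝ) = 1 := by
        rw [Real.rpow_neg hX0.le, Real.rpow_two]; field_simp
      nlinarith [mul_pos hX0 hX0]
    calc _ ≤ 16 * (2 * X) * (16 * (2 * X)) * (E * X ^ (-7 : ℝ)) := by gcongr
      _ = 1024 * E * (X * X * X ^ (-7 : ℝ)) := by ring
      _ ≤ _ := mul_le_of_le_one_right (by positivity) e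
  have h5 : ‖HS X Z Φ α fun e => N e ≤ Z * X ^ (-48 / 100 : ℝ)‖ ≤
      9 * (C * X ^ (8325 / 10000 : ℝ) * LL X) + 1024 * E := by
    unfold HS
    rw [← Finset.sum_product']
    refine (norm_sum_le _ _).trans ((Finset.sum_le_sum h1).trans ?_)
    rw [Finset.sum_add_distrib, ← Finset.sum_filter, ← Finset.mul_sum, Finset.sum_const, nsmul_eq_mul]
    exact add_le_add (mul_le_mul_of_nonneg_left h2 (by norm_num)) h4
  refine h5.trans ?_
  have hL : LL X ^ 13 ≤ X ^ (1 / 10000 : ℝ) := by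
    rw [← Real.rpow_natCast]
    exact (g1.trans (Real.rpow_le_rpow_of_exponent_le (by linarith) (by norm_num))).trans g2
  have h8 : 1 ≤ X ^ (8325 / 10000 : ℝ) * LL X := one_le_mul_of_one_le_of_one_le (Real.one_le_rpow hX1 (by norm_num)) g4
  rw [le_div_iff₀ (by positivity)]
  calc _ ≤ (9 * C + 1024 * E) * (X ^ (8325 / 10000 : ℝ) * LL X) * LL X ^ 12 := by
        refine mul_le_mul_of_nonneg_right ?_ (by positivity); nlinarith
    _ = (9 * C + 1024 * E) * X ^ (8325 / 10000 : ℝ) * LL X ^ 13 := by ring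
    _ ≤ X ^ (1 / 10000 : ℝ) * X ^ (8325 / 10000 : ℝ) * X ^ (1 / 10000 : ℝ) := by gcongr
    _ ≤ _ := by
      rw [← Real.rpow_add hX0, ← Real.rpow_add hX0]
      exact Real.rpow_le_rpow_of_exponent_le hX1 (by norm_num)

end Vale.Agent.P006.M
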