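import Vale.Agent.P006.M

/-! P006 main branch, row HB. -/

noncomputable section
open Complex
open scoped Classical

namespace Vale.Agent.P006.M
open Vale.Agent.P026 Vale.Agent.P006
open Vale.Agent.P006.Vau (PS Lam T W T_apply mem_PS b8 hb_op T_comm lo)

namespace HBM

lemma rough_one (w : ℝ) : Rough w 1 := by simp [Rough, b8.pf_one]

lemma rough_mul (w : ℝ) {a b : O} (ha : a ≠ 0) (hb : b ≠ 0) :
    Rough w (a * b) ↔ Rough w a ∧ Rough w b := by
  simp only [Rough, b8.pf_mul a b ha hb, Finset.mem_union, or_imp, forall_and]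

/-- restriction to rough elements -/
def rs (w : ℝ) (g : O → ℂ) (n : O) : ℂ := if Rough w n then g n else 0

def RW (X w : ℝ) (f : W X) : W X :=
  ⟨rs w f.1, by simp [rs, f.2.1], fun n h => by simp [rs, f.2.2 n h]⟩

lemma T_RW {X : ℝ} (w : ℝ) (g : O → ℂ) (f : W X) : T X g (RW X w f) = RW X w (T X (rs w g) f) := by
  ext m
  by_cases m0 : m = 0
  · rw [m0, (T X g (RW X w f)).2.1, (RW X w _).2.1]
  change ∑ n ∈ PS X, g n * rs w f.1 (m * n) = rs w (fun m => ∑ n ∈ PS X, rs w g n * f.1 (m * n)) m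
  unfold rs
  split_ifs with hm
  · refine Finset.sum_congr rfl fun n hn => ?_
    simp only [rough_mul w m0 (W1.bas.b2.ne n (mem_PS.1 hn).1), hm, true_and]
    split_ifs <;> simp
  · refine Finset.sum_eq_zero fun n hn => ?_
    simp [rough_mul w m0 (W1.bas.b2.ne n (mem_PS.1 hn).1), hm]

lemma T_aE {X : ℝ} (hX : 1 ≤ X) (f : W X) : T X aE f = f := by
  ext m
  rw [T_apply, Finset.sum_eq_single 1]
  · simp [aE]
  · intro n _ h
    simp [aE, h]
  · intro h
    exact absurd (mem_PS.2 ⟨W1.bas.b2.one, by rw [Vau.N_one]; exact hX⟩) h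

lemma pi_succ {n : ℕ} (s : Finset O) (F : (Fin (n + 1) → O) → ℂ) :
    ∑ x ∈ Fintype.piFinset (fun _ : Fin (n + 1) => s), F x =
      ∑ a ∈ s, ∑ y ∈ Fintype.piFinset (fun _ : Fin n => s), F (Fin.cons a y) := by
  rw [← Finset.sum_product']
  refine Finset.sum_nbij' (fun x => (x 0, Fin.tail x)) (fun p => Fin.cons p.1 p.2) ?_ ?_ ?_ ?_ ?_
  · intro x hx
    rw [Fintype.mem_piFinset] at hx
    exact Finset.mem_product.2 ⟨hx 0, Fintype.mem_piFinset.2 fun i => hx _⟩
  · intro p hp
    rw [Finset.mem_product, Fintype.mem_piFinset] at hp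
    exact Fintype.mem_piFinset.2 fun i => Fin.cases hp.1 hp.2 i
  · intro x _
    exact Fin.cons_self_tail x
  · intro p _
    simp
  · intro x _
    rw [Fin.cons_self_tail]

lemma gen {Y : ℝ} (f : W Y) : ∀ (n : ℕ) (g : Fin n → O → ℂ) (m : O),
    ∑ x ∈ Fintype.piFinset (fun _ : Fin n => PS Y), (∏ i, g i (x i)) * f.1 (m * ∏ i, x i) =
      ((List.ofFn fun i => T Y (g i)).prod f).1 m
  | 0, g, m => by simp
  | n + 1, g, m => by
    rw [pi_succ, List.ofFn_succ, List.prod_cons, Module.End.mul_apply, T_apply]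
    refine Finset.sum_congr rfl fun a _ => ?_
    rw [← gen f n (fun i => g i.succ) (m * a), Finset.mul_sum]
    refine Finset.sum_congr rfl fun y _ => ?_
    simp only [Fin.prod_univ_succ, Fin.cons_zero, Fin.cons_succ, mul_assoc]

end HBM

open HBM

theorem hbS : HBStmt := by
  intro X Φ hX
  refine ⟨![aM X, aE, aE, aE, aE, aL X 1], ![aM X, aM X, aE, aL X 0, aE, aL X 1],
    ![aM X, aM X, aM X, aL X 0, aL X 0, aL X 1], ?_, ?_, ?_, ?_⟩
  · exact ⟨fun i hi => by fin_cases i <;> simp_all, Or.inr rfl, Or.inr rfl, rfl⟩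
  · exact ⟨fun i hi => by fin_cases i <;> simp_all, Or.inl rfl, Or.inr rfl, rfl⟩
  · exact ⟨fun i hi => by fin_cases i <;> simp_all, Or.inl rfl, Or.inl rfl, rfl⟩
  have X2 : 1 ≤ 2 * X := by linarith
  let f : W (2 * X) := ⟨FF X Φ, by simp [FF, del], fun n h => by simp [FF, not_le.2 h]⟩
  have ms : ∀ g, MS X g (FF X Φ) = ((List.ofFn fun i => T (2 * X) (g i)).prod f).1 1 := fun g => by
    rw [← gen f 6 g 1]
    simp only [one_mul]
    rfl
  have h := hb_op (U := 2 * X ^ (1 / 3 : ℝ)) X2 (by positivity) 3 (by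
    rw [mul_pow, ← Real.rpow_natCast (X ^ _), ← Real.rpow_mul (by linarith)]
    norm_num
    linarith)
  have e1 : rs (ww X) (lo (2 * X ^ (1 / 3 : ℝ)) mu) = aM X := by
    funext n
    simp only [rs, lo, aM, ite_and]
  have e2 : rs (ww X) 1 = aL X 0 := by
    funext n
    simp [rs, aL]
  have e3 : rs (ww X) (fun n => Real.log (N n)) = aL X 1 := by
    funext n
    simp [rs, aL]
  have k := congrArg (fun S : Module.End ℂ (W (2 * X)) => (S (RW _ (ww X) f)).1 1) h
  simp only [Finset.sum_range_succ, Finset.sum_range_zero, zero_add, LinearMap.add_apply,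
    LinearMap.smul_apply, pow_succ, pow_zero, one_mul, mul_one, Module.End.mul_apply, T_RW, e1, e2, e3,
    Submodule.coe_add, Submodule.coe_smul, Pi.add_apply, Pi.smul_apply, smul_eq_mul] at k
  simp only [RW, rs, rough_one, if_true] at k
  simp only [ms, List.ofFn_succ, List.ofFn_zero, List.prod_cons, List.prod_nil, Module.End.mul_apply,
    Module.End.one_apply, Matrix.cons_val_zero, Matrix.cons_val_succ, T_aE X2]
  rw [T_apply] at k
  simp only [one_mul, rs] at k
  refine k.trans ?_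
  norm_num [Nat.choose]
  ring

end Vale.Agent.P006.M
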