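import Vale.Agent.P006.M.HB0

/-! P006 main branch: the high part with a medium smooth factor. -/

noncomputable section
open Complex MeasureTheory Filter Topology
open scoped Classical ComplexConjugate

namespace Vale.Agent.P006.M
open Vale.Agent.P026 Vale.Agent.P006 H16 HB0

namespace HB1

def dy (n : O) : ℕ := Nat.log 2 (Nn n)

theorem dy_le {n : O} (h : Prim n) : (2 : ℝ) ^ dy n ≤ N n ∧ N n ≤ 2 * 2 ^ dy n := by
  have a := N1 h
  have b : Nn n ≠ 0 := fun z => by rw [N, z] at a; norm_num at a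
  have c := Nat.pow_log_le_self 2 b
  have d := (Nat.lt_pow_succ_log_self one_lt_two (Nn n)).le
  rw [Nat.succ_eq_add_one, pow_succ'] at d
  unfold N dy
  exact ⟨by exact_mod_cast c, by exact_mod_cast d⟩

theorem dy_mem {n : O} {X : ℝ} {m : ℕ} (hm : 2 * X + 1 ≤ 2 ^ m) (h : n ∈ SQ (2 * X)) :
    dy n ∈ Finset.range (m + 1) := by
  obtain ⟨a, b⟩ := mSQ.1 h
  have : (2 : ℝ) ^ dy n ≤ 2 ^ m := by linarith [(dy_le a.1).1]
  rw [Finset.mem_range, Nat.lt_add_one_iff]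
  exact (pow_le_pow_iff_right₀ one_lt_two).1 this

def R1 (X : ℝ) : Prop := ∀ (E : ℝ) (s : Finset O), X ^ (9 / 1000 : ℝ) ≤ E →
    (∀ e ∈ s, SP e ∧ Smo (ww X) e ∧ E ≤ N e ∧ N e ≤ 2 * E) → ∑ e ∈ s, (3 : ℝ) ^ (pf e).card ≤ E / LL X ^ 100
def R2 (X : ℝ) : Prop := ∀ (Y : ℝ) (s : Finset O), 0 ≤ Y → Y ≤ 2 * X → (∀ n ∈ s, SP n ∧ N n ≤ Y) →
    ∑ n ∈ s, (3 : ℝ) ^ (pf n).card ≤ Y * LL X ^ 4

theorem r2 {X C : ℝ} (hC : 0 ≤ C) (h : ∀ Y : ℝ, 1 ≤ Y → ∑ n ∈ SQ Y, (3 : ℝ) ^ (pf n).card ≤ C * Y * (1 + Real.log Y) ^ 3)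
    (c : C ≤ LL X) (l : 1 + Real.log (2 * X) ≤ LL X) : R2 X := fun Y s y0 y2 hs => by
  rcases s.eq_empty_or_nonempty with rfl | ⟨n, hn⟩
  · rw [Finset.sum_empty]; positivity
  have y1 : 1 ≤ Y := (N1 (hs n hn).1.1).trans (hs n hn).2
  have a := Real.log_nonneg y1
  have b : 1 + Real.log Y ≤ LL X := by linarith [Real.log_le_log (by linarith) y2]
  refine (Finset.sum_le_sum_of_subset_of_nonneg (fun k hk => mSQ.2 (hs k hk)) fun _ _ _ => by positivity).trans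
    ((h Y y1).trans ?_)
  have := hC.trans c
  calc _ ≤ LL X * Y * LL X ^ 3 := by gcongr
    _ = _ := by ring

theorem rk {X : ℝ} {m : ℕ} (hm : 2 * X + 1 ≤ 2 ^ m) (h : R1 X) (h2 : 2 * X ^ (9 / 1000 : ℝ) ≤ X ^ (1 / 100 : ℝ))
    (hL : 1 ≤ LL X) :
    ∑ e ∈ (SQ (2 * X)).filter fun e => Smo (ww X) e ∧ X ^ (1 / 100 : ℝ) ≤ N e, (3 : ℝ) ^ (pf e).card / N e ≤
      (m + 1) / LL X ^ 100 := by
  rw [← Finset.sum_fiberwise_of_maps_to (g := dy) (t := Finset.range (m + 1))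
    fun e he => dy_mem hm (Finset.mem_filter.1 he).1]
  refine (Finset.sum_le_card_nsmul _ _ (1 / LL X ^ 100) fun k _ => ?_).trans (by simp [div_eq_mul_inv])
  set s := ((SQ (2 * X)).filter fun e => Smo (ww X) e ∧ X ^ (1 / 100 : ℝ) ≤ N e).filter fun e => dy e = k
  have hs : ∀ e ∈ s, (SP e ∧ Smo (ww X) e ∧ (2 : ℝ) ^ k ≤ N e ∧ N e ≤ 2 * 2 ^ k) ∧ X ^ (1 / 100 : ℝ) ≤ N e :=
    fun e he => by
      obtain ⟨a, rfl⟩ := Finset.mem_filter.1 he
      obtain ⟨b, c, d⟩ := Finset.mem_filter.1 a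
      exact ⟨⟨(mSQ.1 b).1, c, dy_le (mSQ.1 b).1.1⟩, d⟩
  rcases s.eq_empty_or_nonempty with z | ⟨n, hn⟩
  · rw [z, Finset.sum_empty]; positivity
  have key := h (2 ^ k) s (by linarith [(hs n hn).1.2.2.2, (hs n hn).2]) fun e he => (hs e he).1
  calc _ ≤ ∑ e ∈ s, (3 : ℝ) ^ (pf e).card / 2 ^ k := Finset.sum_le_sum fun e he => by
        gcongr; exact (hs e he).1.2.2.1
    _ ≤ 2 ^ k / LL X ^ 100 / 2 ^ k := by rw [← Finset.sum_div]; gcongr
    _ = _ := by field_simp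

def Cr (X y D : ℝ) (G : O → O → O → ℂ) : Prop := ∀ (V : ℝ) (a : O → O → ℂ) (b : O → ℂ), 1 ≤ V →
  (∀ e w, ‖a e w‖ ≤ 1) → (∀ v, ‖b v‖ ≤ 1) → (∀ e w, a e w ≠ 0 → Smo (ww X) e ∧ X ^ (1 / 100 : ℝ) ≤ N e) →
  (∀ v, Prim v → b v ≠ 0 → V ≤ N v ∧ N v ≤ 2 * V ∧ N v ≤ y ^ 4) →
  (∀ e w v, a e w ≠ 0 → b v ≠ 0 → N e * N w ≤ y ^ 4 ∨ y ^ 2 ≤ N v) →
  ‖∑ e ∈ SQ (2 * X), ∑ w ∈ SQ (2 * X), ∑ v ∈ SQ (2 * X), a e w * b v * G e w v‖ ≤ D

theorem core {X y K C : ℝ} {Φ : ℝ → ℂ} {m : ℕ} (hy : y ^ 6 = X) (y1 : 1 ≤ y) (hC : 0 ≤ C)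
    (hg : ∀ (A B : ℝ) (S T : Finset (O × O × O)) (α β : O × O × O → ℂ), 1 ≤ A → 1 ≤ B →
      (∀ x ∈ S, Ok A x) → (∀ y ∈ T, Ok B y) → (∀ x, ‖α x‖ ≤ 1) → (∀ y, ‖β y‖ ≤ 1) →
      ‖∑ x ∈ S, ∑ y ∈ T, α x * β y * FF X Φ (pr x * pr y)‖ ≤
        3 * ((m + 1) * (C * √(A + B + (A * B) ^ (2 / 3 : ℝ))) * √(∑ x ∈ S, w3 x) * √(∑ y ∈ T, w3 y)) *
          (K * ll X))
    (k1 : ∑ e ∈ (SQ (2 * X)).filter fun e => Smo (ww X) e ∧ X ^ (1 / 100 : ℝ) ≤ N e,
      (3 : ℝ) ^ (pf e).card / N e ≤ (m + 1) / LL X ^ 100) (k2 : R2 X)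
    (L1 : 24 ≤ LL X) (L2 : (m + 1 : ℝ) ≤ LL X) (L3 : C ≤ LL X) (L4 : K * ll X ≤ LL X ^ 2) :
    Cr X y (y ^ 5 / LL X ^ 40) fun e w v => FF X Φ (e * w * v) := by
  intro V a b hV ha hb sa sb sab
  set L := LL X
  have y0 : 0 < y := by linarith
  have L0 : 0 < L := by linarith
  by_cases hV4 : V ≤ y ^ 4
  swap
  · rw [Finset.sum_eq_zero fun e _ => Finset.sum_eq_zero fun w _ => Finset.sum_eq_zero fun v hv => ?_, norm_zero]
    · positivity
    · have : b v = 0 := by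
        by_contra z
        obtain ⟨p, -, q⟩ := sb v (mSQ.1 hv).1.1 z
        exact hV4 (p.trans q)
      rw [this, mul_zero, zero_mul]
  have y46 : y ^ 4 ≤ X := hy ▸ pow_le_pow_right₀ y1 (by norm_num)
  have y4 : 1 ≤ y ^ 4 := one_le_pow₀ y1
  set A := min (2 * X / V) (2 * y ^ 4) with hA
  have A1 : 1 ≤ A := le_min (by rw [le_div_iff₀ (by linarith)]; linarith) (by linarith)
  have A2 : A ≤ 2 * y ^ 4 := min_le_right _ _
  have A3 : A * V ≤ 2 * y ^ 6 := by rw [hy, ← le_div_iff₀ (by linarith)]; exact min_le_left _ _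
  set S := (SQ (2 * X) ×ˢ SQ (2 * X) ×ˢ ({1} : Finset O)).filter
    fun x => a x.1 x.2.1 ≠ 0 ∧ N x.1 * N x.2.1 ≤ A with hS
  set T := (SQ (2 * X) ×ˢ ({1} : Finset O) ×ˢ ({1} : Finset O)).filter fun x => b x.1 ≠ 0 with hT
  have key := hg A (2 * V) S T (fun x => a x.1 x.2.1) (fun x => b x.1) A1 (by linarith) (fun x hx => by
      obtain ⟨p, -, q⟩ := Finset.mem_filter.1 hx
      simp only [Finset.mem_product, Finset.mem_singleton] at p
      exact ⟨(mSQ.1 p.1).1, (mSQ.1 p.2.1).1, p.2.2 ▸ sp1, by rwa [p.2.2, mul_one, W1.bas.b1.N_mul]⟩)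
    (fun x hx => by
      obtain ⟨p, q⟩ := Finset.mem_filter.1 hx
      simp only [Finset.mem_product, Finset.mem_singleton] at p
      exact ⟨(mSQ.1 p.1).1, p.2.1 ▸ sp1, p.2.2 ▸ sp1, by
        rw [p.2.2, p.2.1, mul_one, mul_one]; exact (sb _ (mSQ.1 p.1).1.1 q).2.1⟩)
    (fun _ => ha _ _) fun _ => hb _
  have hP : ∑ x ∈ S, w3 x ≤ A * L ^ 4 * (L / L ^ 100) := by
    refine le_trans ?_ (mul_le_mul_of_nonneg_left (k1.trans (by gcongr)) (by positivity))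
    rw [hS, Finset.sum_filter, Finset.sum_product, Finset.sum_filter, Finset.mul_sum]
    refine Finset.sum_le_sum fun e he => ?_
    have e1 := N1 (mSQ.1 he).1.1
    simp only [Finset.sum_product, Finset.sum_singleton, w3, pf1, Finset.card_empty, pow_zero, mul_one]
    rw [← Finset.sum_filter, ← Finset.mul_sum]
    split_ifs with c
    · have := k2 (A / N e) ((SQ (2 * X)).filter fun w => a e w ≠ 0 ∧ N e * N w ≤ A) (by positivity)
        ((div_le_self (by linarith) e1).trans (by linarith)) fun w hw => by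
          obtain ⟨p, -, q⟩ := Finset.mem_filter.1 hw
          exact ⟨(mSQ.1 p).1, by rwa [le_div_iff₀' (by linarith)]⟩
      calc _ ≤ (3 : ℝ) ^ (pf e).card * (A / N e * L ^ 4) := by gcongr
        _ = _ := by ring
    · rw [Finset.filter_false_of_mem fun w _ q => c (sa e w q.1)]; simp
  have hQ : ∑ x ∈ T, w3 x ≤ 2 * V * L ^ 4 := by
    rw [hT, Finset.sum_filter]
    simp only [Finset.sum_product, Finset.sum_singleton, w3, pf1, Finset.card_empty, pow_zero, mul_one]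
    rw [← Finset.sum_filter]
    exact k2 _ _ (by linarith) (by linarith) fun v hv => by
      obtain ⟨p, q⟩ := Finset.mem_filter.1 hv
      exact ⟨(mSQ.1 p).1, (sb v (mSQ.1 p).1.1 q).2.1⟩
  have s1 : √(A + 2 * V + (A * (2 * V)) ^ (2 / 3 : ℝ)) ≤ 4 * y ^ 2 := by
    have : (A * (2 * V)) ^ (2 / 3 : ℝ) ≤ (2 * y ^ 2) ^ 2 := by
      calc _ ≤ ((2 * y ^ 2) ^ 3) ^ (2 / 3 : ℝ) := by gcongr; nlinarith [pow_pos y0 6]
        _ = _ := by rw [← Real.rpow_natCast _ 3, ← Real.rpow_mul (by positivity)]; norm_num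
    exact Real.sqrt_le_iff.2 ⟨by positivity, by nlinarith⟩
  have s2 : √(∑ x ∈ S, w3 x) * √(∑ x ∈ T, w3 x) ≤ 2 * y ^ 3 / L ^ 45 := by
    rw [← Real.sqrt_mul (Finset.sum_nonneg fun x _ => w3_nn x)]
    refine Real.sqrt_le_iff.2 ⟨by positivity, ?_⟩
    calc _ ≤ A * L ^ 4 * (L / L ^ 100) * (2 * V * L ^ 4) :=
          mul_le_mul hP hQ (Finset.sum_nonneg fun x _ => w3_nn x) (by positivity)
      _ = A * V * 2 / L ^ 90 / L := by field_simp
      _ ≤ 2 * y ^ 6 * 2 / L ^ 90 / 1 := by gcongr; linarith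
      _ = _ := by ring
  refine le_of_eq_of_le ?_ (key.trans ?_)
  · congr 1
    rw [hS, hT, Finset.sum_filter]
    simp only [Finset.sum_filter, Finset.sum_product, Finset.sum_singleton, pr, mul_one]
    refine Finset.sum_congr rfl fun e he => Finset.sum_congr rfl fun w hw => ?_
    split_ifs with c
    · refine Finset.sum_congr rfl fun v _ => ?_
      split_ifs with d
      · rfl
      · rw [not_not.1 d, mul_zero, zero_mul]
    · refine Finset.sum_eq_zero fun v hv => ?_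
      by_cases p : a e w = 0
      · rw [p, zero_mul, zero_mul]
      by_cases q : b v = 0
      · rw [q, mul_zero, zero_mul]
      rw [FF, if_neg, mul_zero]
      rw [W1.bas.b1.N_mul, W1.bas.b1.N_mul]
      intro z
      have n0 := mul_nonneg (N0 e) (N0 w)
      have v1 := (sb v (mSQ.1 hv).1.1 q).1
      refine c ⟨p, le_min ?_ ?_⟩
      · rw [le_div_iff₀ (by linarith)]; nlinarith
      · rcases sab e w v p q with r | r
        · linarith
        · refine le_of_mul_le_mul_right ?_ (pow_pos y0 2)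
          nlinarith
  · rw [mul_assoc ((m + 1 : ℝ) * _)]
    calc _ ≤ 3 * (L * (L * (4 * y ^ 2)) * (2 * y ^ 3 / L ^ 45)) * L ^ 2 := by
          refine (mul_le_mul_of_nonneg_left L4 (by positivity)).trans ?_
          gcongr
      _ = 24 * y ^ 5 / L ^ 40 / L := by field_simp; norm_num
      _ ≤ L * y ^ 5 / L ^ 40 / L := by gcongr
      _ = _ := by field_simp

theorem cp1 {x : ℝ} (hx : 0 ≤ x) (t : ℝ) : ‖(x : ℂ) ^ (((0 : ℝ) : ℂ) - t * I)‖ ≤ 1 := by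
  rcases hx.eq_or_lt with rfl | h
  · by_cases z : ((0 : ℝ) : ℂ) - t * I = 0
    · rw [z]; simp
    · rw [ofReal_zero] at z ⊢; rw [zero_cpow z]; simp
  · rw [cpn h]; simp

theorem core2 {X y D Z : ℝ} {G : O → O → O → ℂ} (hZ : 0 < Z) (h : Cr X y D G) :
    Cr X y (D * ∫ t, ‖cV t‖) fun e w v => G e w v * (VV Z (N e * N v) : ℝ) := by
  intro V a b hV ha hb sa sb sab
  have p0 : ∀ z ∈ SQ (2 * X) ×ˢ SQ (2 * X) ×ˢ SQ (2 * X), 0 < N z.1 * N z.2.2 := fun z hz => by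
    simp only [Finset.mem_product] at hz
    have := N1 (mSQ.1 hz.1).1.1
    have := N1 (mSQ.1 hz.2.2).1.1
    positivity
  have key := isum (SQ (2 * X) ×ˢ SQ (2 * X) ×ˢ SQ (2 * X)) cV_int
    (fun z => a z.1 z.2.1 * b z.2.2 * G z.1 z.2.1 z.2.2)
    (fun z t => ((N z.1 * N z.2.2 / Z : ℝ) : ℂ) ^ (((0 : ℝ) : ℂ) - t * I))
    (fun z hz => cpc (div_pos (p0 z hz) hZ) _) (M := 1) (D := D)
    (fun z hz t => cp1 (div_pos (p0 z hz) hZ).le t) fun t => by
      have := h V (fun e w => a e w * ((N e / Z : ℝ) : ℂ) ^ (((0 : ℝ) : ℂ) - t * I))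
        (fun v => b v * (N v : ℂ) ^ (((0 : ℝ) : ℂ) - t * I)) hV
        (fun e w => by
          rw [norm_mul]; exact mul_le_one₀ (ha e w) (norm_nonneg _) (cp1 (div_nonneg (N0 e) hZ.le) t))
        (fun v => by rw [norm_mul]; exact mul_le_one₀ (hb v) (norm_nonneg _) (cp1 (N0 v) t))
        (fun e w z => sa e w (left_ne_zero_of_mul z)) (fun v p z => sb v p (left_ne_zero_of_mul z))
        fun e w v z z' => sab e w v (left_ne_zero_of_mul z) (left_ne_zero_of_mul z')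
      refine le_of_eq_of_le ?_ this
      congr 1
      simp only [Finset.sum_product]
      refine Finset.sum_congr rfl fun e _ => Finset.sum_congr rfl fun w _ => Finset.sum_congr rfl fun v _ => ?_
      rw [mul_div_right_comm, ofReal_mul, mul_cpow_ofReal_nonneg (div_nonneg (N0 e) hZ.le) (N0 v)]
      ring
  refine le_of_eq_of_le ?_ key
  congr 1
  symm
  rw [Finset.sum_congr rfl fun z hz => by rw [← vvm hZ (p0 z hz)]]
  simp only [Finset.sum_product, mul_assoc]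

theorem t3 (s : Finset O) (κ : Finset ℕ) (F : ℕ → O → O → O → ℂ) :
    ∑ r ∈ s, ∑ e ∈ s, ∑ u ∈ s, ∑ k ∈ κ, F k r e u = ∑ k ∈ κ, ∑ r ∈ s, ∑ e ∈ s, ∑ u ∈ s, F k r e u := by
  rw [Finset.sum_comm (s := κ)]
  refine Finset.sum_congr rfl fun r _ => ?_
  rw [Finset.sum_comm (s := κ)]
  exact Finset.sum_congr rfl fun e _ => Finset.sum_comm

/-- the terms where the weight is tiny -/
theorem tiny {X y Z K : ℝ} {Φ : ℝ → ℂ} (hy : y ^ 6 = X) (y1 : 1 ≤ y) (hl : 20 ≤ Real.log X) (hΦ : Wt X K Φ)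
    (z1 : X ^ (49 / 100 : ℝ) ≤ Z) {r e u : O} (hr : Prim r) (he : Prim e) (hu : Prim u)
    (c : Z * X ^ (-48 / 100 : ℝ) < N e) (b : y ^ 4 < N r ∨ y ^ 4 < N u) :
    ‖((VV Z (N e * N u) : ℝ) : ℂ) * FF X Φ (r * e * u)‖ ≤
      Real.exp (-(1 / 10 * Real.log X) ^ 2) * ((1 + cst) * K) := by
  have y0 : 0 < y := by linarith
  have X0 : 0 < X := hy ▸ pow_pos y0 6
  have K0 := (norm_nonneg _).trans (hΦ.le 1 one_pos)
  have c0 := Z1.cst_pos
  have p := W1.bas.b2.mul _ _ (W1.bas.b2.mul _ _ hr he) hu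
  have := N1 p
  have r1 := N1 hr
  have e1 := N1 he
  have u1 := N1 hu
  have Z0 : 0 < Z := lt_of_lt_of_le (by positivity) z1
  unfold FF
  split_ifs with h
  swap
  · rw [mul_zero, norm_zero]; positivity
  rw [norm_mul, norm_mul, norm_real, Real.norm_of_nonneg (show 0 ≤ VV Z (N e * N u) from (Real.exp_pos _).le)]
  refine mul_le_mul (vv_le (by positivity) ?_) (mul_le_mul (del_le p) (hΦ.le _ (by positivity)) (norm_nonneg _)
    (by positivity)) (by positivity) (by positivity)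
  have l1 : Real.log X = 6 * Real.log y := by rw [← hy, Real.log_pow]; norm_num
  have l4 : Real.log (y ^ 4) = 4 * Real.log y := by rw [Real.log_pow]; norm_num
  have l2 := Real.log_le_log (by positivity) z1
  have l3 := Real.log_le_log (by positivity) c.le
  have l5 := Real.log_le_log (by positivity) h
  rw [W1.bas.b1.N_mul, W1.bas.b1.N_mul, Real.log_mul (by positivity) (by positivity),
    Real.log_mul (by positivity) (by positivity), Real.log_mul two_ne_zero X0.ne'] at l5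
  rw [Real.log_mul Z0.ne' (by positivity), Real.log_rpow X0] at l3
  rw [Real.log_rpow X0] at l2
  rw [Real.log_div (by positivity) Z0.ne', Real.log_mul (by positivity) (by positivity)]
  have := Real.log_two_lt_d9
  rcases b with b | b <;> have := Real.log_le_log (by positivity) b.le
  · left; linarith
  · right; linarith

theorem t4 (s : Finset O) (κ : Finset ℕ) (f f0 : O → O → O → ℂ) (F1 F2 : ℕ → O → O → O → ℂ)
    (h : ∀ r ∈ s, ∀ e ∈ s, ∀ u ∈ s, f r e u = f0 r e u + ∑ k ∈ κ, (F1 k e u r + F2 k e r u)) :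
    ∑ r ∈ s, ∑ e ∈ s, ∑ u ∈ s, f r e u = ∑ r ∈ s, ∑ e ∈ s, ∑ u ∈ s, f0 r e u +
      ∑ k ∈ κ, (∑ e ∈ s, ∑ u ∈ s, ∑ r ∈ s, F1 k e u r + ∑ e ∈ s, ∑ r ∈ s, ∑ u ∈ s, F2 k e r u) := by
  have : ∀ k, ∑ e ∈ s, ∑ u ∈ s, ∑ r ∈ s, F1 k e u r + ∑ e ∈ s, ∑ r ∈ s, ∑ u ∈ s, F2 k e r u =
      ∑ r ∈ s, ∑ e ∈ s, ∑ u ∈ s, (F1 k e u r + F2 k e r u) := fun k => by
    rw [Finset.sum_comm (f := fun r e => ∑ u ∈ s, (F1 k e u r + F2 k e r u)), ← Finset.sum_add_distrib]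
    refine Finset.sum_congr rfl fun e _ => ?_
    rw [Finset.sum_comm (f := fun u r => F1 k e u r), ← Finset.sum_add_distrib]
    exact Finset.sum_congr rfl fun r _ => Finset.sum_add_distrib.symm
  simp only [this]
  rw [← t3 s κ fun k r e u => F1 k e u r + F2 k e r u, ← Finset.sum_add_distrib]
  refine Finset.sum_congr rfl fun r hr => ?_
  rw [← Finset.sum_add_distrib]
  refine Finset.sum_congr rfl fun e he => ?_
  rw [← Finset.sum_add_distrib]
  exact Finset.sum_congr rfl fun u hu => h r hr e he u hu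

theorem dk {k : ℕ} {v : O} {c : ℂ} (p : Prim v) (h : (if dy v = k then c else 0) ≠ 0) :
    (2 : ℝ) ^ k ≤ N v ∧ N v ≤ 2 * 2 ^ k ∧ c ≠ 0 := by
  split_ifs at h with q
  · subst q; exact ⟨(dy_le p).1, (dy_le p).2, h⟩
  · exact absurd rfl h

theorem asm {X y Z D D' η c : ℝ} {m : ℕ} {F α : O → ℂ} (G : O → Prop) (hm : 2 * X + 1 ≤ 2 ^ m) (y1 : 1 ≤ y)
    (Gs : ∀ e, G e → Smo (ww X) e ∧ X ^ (1 / 100 : ℝ) ≤ N e) (G2 : ∀ e, G e → N e < y ^ 2)
    (h1 : Cr X y D fun e w v => F (e * w * v))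
    (h2 : Cr X y D' fun e w v => F (e * w * v) * (VV Z (N e * N v) : ℝ)) (hα : ∀ r, ‖α r‖ ≤ 1)
    (cd : ((SQ (2 * X)).card : ℝ) ≤ c) (η0 : 0 ≤ η)
    (ht : ∀ r e u, Prim r → Prim e → Prim u → G e → y ^ 4 < N r ∨ y ^ 4 < N u →
      ‖((VV Z (N e * N u) : ℝ) : ℂ) * F (r * e * u)‖ ≤ η) :
    ‖∑ r ∈ SQ (2 * X), ∑ e ∈ SQ (2 * X), ∑ u ∈ SQ (2 * X),
      if G e then α r * mu e * (VV Z (N e * N u) : ℝ) * F (r * e * u) else 0‖ ≤
      c * (c * (c * η)) + (m + 1) * (D + D') := by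
  have y24 : y ^ 2 ≤ y ^ 4 := pow_le_pow_right₀ y1 (by norm_num)
  have v1 : ∀ x, ‖((VV Z x : ℝ) : ℂ)‖ ≤ 1 := fun x => by
    rw [norm_real, VV, Real.norm_of_nonneg (Real.exp_pos _).le, Real.exp_le_one_iff]
    exact neg_nonpos.2 (sq_nonneg _)
  have am : ∀ r e, ‖α r * mu e‖ ≤ 1 := fun r e => by
    rw [norm_mul]; exact mul_le_one₀ (hα r) (norm_nonneg _) (ZKM.norm_mu e)
  have c0 : 0 ≤ c := (Nat.cast_nonneg _).trans cd
  have sb : ∀ (f : O → ℂ) (d : ℝ), 0 ≤ d → (∀ n ∈ SQ (2 * X), ‖f n‖ ≤ d) → ‖∑ n ∈ SQ (2 * X), f n‖ ≤ c * d :=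
    fun f d d0 h => (norm_sum_le _ _).trans ((Finset.sum_le_card_nsmul _ _ d h).trans (by
      rw [nsmul_eq_mul]; gcongr))
  rw [t4 (SQ (2 * X)) (Finset.range (m + 1)) _
    (fun r e u => if G e ∧ (y ^ 4 < N r ∨ y ^ 4 < N u) then
      α r * mu e * ((VV Z (N e * N u) : ℝ) * F (r * e * u)) else 0)
    (fun k e u r => (if G e ∧ N u ≤ y ^ 4 then mu e * (VV Z (N e * N u) : ℝ) else 0) *
      (if dy r = k then (if y ^ 2 ≤ N r ∧ N r ≤ y ^ 4 then α r else 0) else 0) * F (e * u * r))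
    (fun k e r u => (if G e ∧ N r < y ^ 2 then α r * mu e else 0) *
      (if dy u = k then (if N u ≤ y ^ 4 then 1 else 0) else 0) * (F (e * r * u) * (VV Z (N e * N u) : ℝ)))
    fun r hr e _ u hu => ?_]
  · refine (norm_add_le _ _).trans (add_le_add (sb _ _ (by positivity) fun r hr => sb _ _ (by positivity)
      fun e he => sb _ _ η0 fun u hu => ?_) ((norm_sum_le _ _).trans ((Finset.sum_le_card_nsmul _ _ (D + D')
        fun k _ => (norm_add_le _ _).trans (add_le_add ?_ ?_)).trans (by simp [mul_add]))))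
    · split_ifs with q
      · rw [norm_mul]
        exact (mul_le_of_le_one_left (norm_nonneg _) (am r e)).trans
          (ht r e u (mSQ.1 hr).1.1 (mSQ.1 he).1.1 (mSQ.1 hu).1.1 q.1 q.2)
      · rwa [norm_zero]
    · exact h1 (2 ^ k) _ _ (one_le_pow₀ one_le_two)
        (fun e u => by
          split_ifs
          · rw [norm_mul]; exact mul_le_one₀ (ZKM.norm_mu e) (norm_nonneg _) (v1 _)
          · simp)
        (fun r => by split_ifs <;> simp [hα]) (fun e u h => Gs e (ite_ne_right_iff.1 h).1.1)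
        (fun v p h => ⟨(dk p h).1, (dk p h).2.1, (ite_ne_right_iff.1 (dk p h).2.2).1.2⟩)
        fun e w v _ h => Or.inr (ite_ne_right_iff.1 (ite_ne_right_iff.1 h).2).1.1
    · exact h2 (2 ^ k) _ _ (one_le_pow₀ one_le_two)
        (fun e u => by split_ifs; exacts [am _ _, by simp])
        (fun r => by split_ifs <;> simp) (fun e u h => Gs e (ite_ne_right_iff.1 h).1.1)
        (fun v p h => ⟨(dk p h).1, (dk p h).2.1, (ite_ne_right_iff.1 (dk p h).2.2).1⟩)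
        fun e w v h _ => Or.inl (by
          obtain ⟨⟨p, q⟩, -⟩ := ite_ne_right_iff.1 h
          nlinarith [N0 e, N0 w, G2 e p])
  · rw [Finset.sum_add_distrib, ← Finset.sum_mul, ← Finset.mul_sum, ← Finset.sum_mul, ← Finset.mul_sum,
      Finset.sum_ite_eq, Finset.sum_ite_eq, if_pos (dy_mem hm hr), if_pos (dy_mem hm hu),
      show e * u * r = r * e * u by ring, mul_comm e r]
    by_cases q : G e
    swap
    · simp [q]
    rcases lt_or_ge (y ^ 4) (N u) with c1 | c1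
    · simp [q, c1, c1.not_ge, mul_assoc]
    rcases lt_or_ge (y ^ 4) (N r) with c2 | c2
    · simp [q, c2, mul_assoc, (y24.trans c2.le).not_gt]
    rcases lt_or_ge (N r) (y ^ 2) with c3 | c3
    · simp only [q, c1, c1.not_gt, c2.not_gt, c3, c3.not_ge, and_self, or_self, and_false, false_and, if_true,
        if_false]
      ring
    · simp only [q, c1, c1.not_gt, c2.not_gt, c2, c3, c3.not_gt, and_self, or_self, and_false, if_true, if_false]
      ring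

theorem fin {X y L W M : ℝ} (y1 : 1 ≤ y) (LX : L ≤ X) (L2 : 2 ≤ L) (W0 : 0 ≤ W) (W1 : 1 + W ≤ L)
    (M1 : M ≤ L) :
    X ^ 6 * (X ^ 6 * (X ^ 6 * ((X ^ 40)⁻¹ * (X * X)))) + M * (y ^ 5 / L ^ 40 + y ^ 5 / L ^ 40 * W) ≤ y ^ 5 / L ^ 12 := by
  have L0 : 0 < L := by linarith
  have X0 : 0 < X := by linarith
  have y0 : 0 < y := by linarith
  have e0 : X ^ 6 * (X ^ 6 * (X ^ 6 * ((X ^ 40)⁻¹ * (X * X)))) ≤ y ^ 5 / L ^ 13 := by
    calc _ = 1 / X ^ 13 / X ^ 7 := by field_simp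
      _ ≤ y ^ 5 / L ^ 13 / 1 := by
        gcongr
        · exact one_le_pow₀ y1
        · exact one_le_pow₀ (by linarith)
      _ = _ := div_one _
  rw [← mul_one_add]
  calc _ ≤ y ^ 5 / L ^ 13 + L * (y ^ 5 / L ^ 15 * L) := by gcongr <;> first | linarith | norm_num
    _ = 2 * (y ^ 5 / L ^ 13) := by field_simp; norm_num
    _ ≤ L * (y ^ 5 / L ^ 13) := by gcongr
    _ = _ := by field_simp

end HB1

open HB1

theorem hb1S (GR : GRStmt) (SLI : SLIStmt) (RANK : RANKStmt) (TRI : TRIStmt) : HB1Stmt := by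
  obtain ⟨C, hC, hg⟩ := gen SLI TRI
  obtain ⟨k1, C2, hC2, k2⟩ := RANK
  intro K
  have W0 : 0 ≤ ∫ t, ‖cV t‖ := integral_nonneg fun _ => norm_nonneg _
  have c0 := Z1.cst_pos
  filter_upwards [k1, GR (|K| + C + C2 + (∫ t, ‖cV t‖) + cst + 30) 1 one_pos, GR 1 1 one_pos, GR 2 1 one_pos,
    GR 1 (1 / 1000) (by norm_num), GR 40 (1 / 10) (by norm_num)] with X k1 g1 g2 g3 g4 g5 Φ α Z hΦ hα z1 z2
  obtain ⟨X3, -, a1, -⟩ := g1
  obtain ⟨-, -, -, -, -, a2, a3, -⟩ := g2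
  obtain ⟨-, -, -, -, a4, -⟩ := g3
  obtain ⟨-, -, -, -, -, -, a5, -, a6, -⟩ := g4
  obtain ⟨-, -, -, -, -, -, -, a7, -⟩ := g5
  rw [Real.rpow_one] at a2 a3 a4 a5
  rw [Real.rpow_one] at a2 a3
  rw [Real.rpow_two] at a4
  have X0 : 0 < X := by linarith
  have K1 := le_abs_self K
  have K2 := abs_nonneg K
  have l0 : 0 < Real.log X := Real.log_pos (by linarith)
  have l1 : ll X ≤ Real.log X := by linarith [Real.log_le_sub_one_of_pos l0, show ll X = Real.log (Real.log X) from rfl]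
  have l2 : 10 * Real.log X ≤ LL X := by nlinarith
  have LX : LL X ≤ X := a2.trans a3
  have t2 := Real.log_two_lt_d9
  have t3' := Real.log_two_gt_d9
  obtain ⟨n, n1, n2⟩ := exists_nat_pow_near (x := 2 * X + 1) (by linarith) one_lt_two
  have m1 : ((n + 1 : ℕ) + 1 : ℝ) ≤ LL X := by
    have := Real.log_le_log (by positivity) (n1.trans (show 2 * X + 1 ≤ X ^ 2 by nlinarith))
    rw [Real.log_pow, Real.log_pow] at this
    have n0 : (0 : ℝ) ≤ n := n.cast_nonneg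
    push_cast at this ⊢; nlinarith
  have q2 : R2 X := r2 hC2 k2 (by linarith) (by rw [Real.log_mul two_ne_zero X0.ne']; linarith)
  have q1 := rk n2.le k1 (by
    rw [show (1 / 100 : ℝ) = 1 / 1000 + 9 / 1000 by norm_num, Real.rpow_add X0]; gcongr; linarith) (by linarith)
  obtain ⟨y, yp, y1⟩ : ∃ y : ℝ, (∀ j : ℕ, y ^ j = X ^ (j / 6 : ℝ)) ∧ 1 ≤ y := ⟨X ^ (1 / 6 : ℝ), fun j => by
    rw [← Real.rpow_natCast, ← Real.rpow_mul X0.le]; congr 1; ring, Real.one_le_rpow (by linarith) (by norm_num)⟩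
  have y6 : y ^ 6 = X := by rw [yp]; norm_num
  have y2 : X ^ (1 / 3 : ℝ) = y ^ 2 := by rw [yp]; norm_num
  have y5 : X ^ (5 / 6 : ℝ) = y ^ 5 := by rw [yp]; norm_num
  have Z0 : 0 < Z := lt_of_lt_of_le (by positivity) z1
  have K0 := (norm_nonneg _).trans (hΦ.le 1 one_pos)
  have h1 := core (K := K) (Φ := Φ) y6 y1 hC (fun A B S T a b => hg X K A B Φ _ S T a b X3 hΦ n2.le) q1 q2
    (by linarith) m1 (by linarith) (by rw [sq]; gcongr <;> linarith)
  have cd : ((SQ (2 * X)).card : ℝ) ≤ X ^ 6 := by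
    rw [Finset.card_eq_sum_ones, Nat.cast_sum]
    refine (Finset.sum_le_sum fun n _ => ?_).trans
      ((q2 (2 * X) _ (by linarith) le_rfl fun n hn => mSQ.1 hn).trans ?_)
    · rw [Nat.cast_one]; exact one_le_pow₀ (by norm_num)
    · calc _ ≤ X * X * X ^ 4 := by gcongr <;> linarith
        _ = _ := by ring
  rw [Real.rpow_neg X0.le, show (40 : ℝ) = (40 : ℕ) by norm_num, Real.rpow_natCast] at a7
  have key := asm (η := (X ^ 40)⁻¹ * (X * X))
    (fun e => Smo (ww X) e ∧ Z * X ^ (-48 / 100 : ℝ) < N e ∧ N e < X ^ (1 / 3 : ℝ)) n2.le y1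
    (fun e h => ⟨h.1, le_trans (by
      rw [show (1 / 100 : ℝ) = 49 / 100 + -48 / 100 by norm_num, Real.rpow_add X0]; gcongr) h.2.1.le⟩)
    (fun e h => y2 ▸ h.2.2) h1 (core2 Z0 h1) hα cd (by positivity) fun r e u hr he hu c b =>
      (tiny y6 y1 (by linarith) hΦ z1 hr he hu c.2.1 b).trans (by gcongr <;> linarith)
  rw [y5]
  refine le_of_eq_of_le ?_ (key.trans (fin y1 LX (by linarith) W0 (by linarith) m1))
  unfold HS
  congr 1
  refine Finset.sum_congr rfl fun r _ => Finset.sum_congr rfl fun e _ => Finset.sum_congr rfl fun u _ => ?_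
  congr

end Vale.Agent.P006.M
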