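import Vale.Agent.P006.M.H2b

/-! P006 main branch: large smooth part. -/

noncomputable section
open Complex Finset Filter
open scoped Classical

namespace Vale.Agent.P006.M.H2
open Vale.Agent.P026 Vale.Agent.P006

abbrev O3 := O × O × O
def pr (x : O3) : O := x.1 * x.2.1 * x.2.2
def w3 (x : O3) : ℝ := 3 ^ (pf x.1).card * 3 ^ (pf x.2.1).card * 3 ^ (pf x.2.2).card

theorem ub3 (hS : SLIStmt) (hT : TRIStmt) : ∃ C : ℝ, 0 ≤ C ∧ ∀ (A B : ℝ) (S T : Finset O3) (m : ℕ)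
    (i1 i2 i3 j1 j2 j3 : O3 → ℕ), 1 ≤ A → 1 ≤ B →
    (∀ x ∈ S, SP x.1 ∧ SP x.2.1 ∧ SP x.2.2 ∧ N (pr x) ≤ A) → (∀ y ∈ T, SP y.1 ∧ SP y.2.1 ∧ SP y.2.2 ∧ N (pr y) ≤ B) →
    (∀ y ∈ T, j1 y ≤ 2 ^ m ∧ j2 y ≤ 2 ^ m ∧ j3 y ≤ 2 ^ m) →
    UB S T (fun x y => if i1 x < j1 y ∧ i2 x < j2 y ∧ i3 x < j3 y then del (pr x * pr y) else 0)
      ((m + 1) ^ 3 * (C * Real.sqrt (A + B + (A * B) ^ (2 / 3 : ℝ))) * Real.sqrt (∑ x ∈ S, w3 x) *
        Real.sqrt (∑ y ∈ T, w3 y)) := by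
  obtain ⟨C, hC0, hC⟩ := hS
  refine ⟨C, hC0, fun A B S T m i1 i2 i3 j1 j2 j3 hA hB h1 h2 h3 a b ha hb => ?_⟩
  have k0 := hC A B S T a b hA hB h1 h2
  have k1 := hT _ _ S T _ _ _ _ i1 j1 m (fun x => by positivity) (fun y => by positivity) (by positivity)
    (fun y hy => (h3 y hy).1) k0
  have k2 := hT _ _ S T _ _ _ _ i2 j2 m (fun x => by positivity) (fun y => by positivity) (by positivity)
    (fun y hy => (h3 y hy).2.1) k1
  have k3 := hT _ _ S T _ _ _ _ i3 j3 m (fun x => by positivity) (fun y => by positivity) (by positivity)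
    (fun y hy => (h3 y hy).2.2) k2 S subset_rfl T subset_rfl
  have q : ∀ (U : Finset O3) (c : O3 → ℂ), (∀ x ∈ U, ‖c x‖ ≤ 1) → Real.sqrt (∑ x ∈ U,
      3 ^ (pf x.1).card * 3 ^ (pf x.2.1).card * 3 ^ (pf x.2.2).card * ‖c x‖ ^ 2) ≤ Real.sqrt (∑ x ∈ U, w3 x) :=
    fun U c hc => Real.sqrt_le_sqrt (sum_le_sum fun x hx =>
      mul_le_of_le_one_right (by positivity) (pow_le_one₀ (norm_nonneg _) (hc x hx)))
  refine le_trans (le_of_eq ?_) (k3.trans ?_)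
  · congr 1
    refine sum_congr rfl fun x _ => sum_congr rfl fun y _ => ?_
    by_cases c1 : i1 x < j1 y <;> by_cases c2 : i2 x < j2 y <;> by_cases c3 : i3 x < j3 y <;> simp [c1, c2, c3, pr]
  · rw [show ((m : ℝ) + 1) * ((m + 1) * ((m + 1) * (C * Real.sqrt (A + B + (A * B) ^ (2 / 3 : ℝ))))) =
      (m + 1) ^ 3 * (C * Real.sqrt (A + B + (A * B) ^ (2 / 3 : ℝ))) by ring]
    exact mul_le_mul (mul_le_mul_of_nonneg_left (q S a ha) (by positivity)) (q T b hb) (by positivity) (by positivity)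

theorem s3 {Y A H : ℝ} (hA : 0 ≤ A) (hH : ∑ n ∈ SQ Y, (3 : ℝ) ^ (pf n).card / N n ≤ H) (S : Finset O3)
    (hS : ∀ x ∈ S, x ∈ SQ Y ×ˢ SQ Y ×ˢ SQ Y ∧ N (pr x) ≤ A) : ∑ x ∈ S, w3 x ≤ A * H ^ 3 := by
  have f0 : ∀ n : O, 0 ≤ (3 : ℝ) ^ (pf n).card / N n := fun n => div_nonneg (by positivity) (Vau.N0 n)
  have h1 : ∑ x ∈ S, w3 x ≤ ∑ x ∈ S, A * ((3 : ℝ) ^ (pf x.1).card / N x.1 * ((3 : ℝ) ^ (pf x.2.1).card / N x.2.1 *
      ((3 : ℝ) ^ (pf x.2.2).card / N x.2.2))) := by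
    refine sum_le_sum fun x hx => ?_
    obtain ⟨h, h'⟩ := hS x hx
    simp only [mem_product] at h
    have a := Np (mSQ.1 h.1).1
    have b := Np (mSQ.1 h.2.1).1
    have c := Np (mSQ.1 h.2.2).1
    rw [pr, W1.bas.b1.N_mul, W1.bas.b1.N_mul] at h'
    have e : A * ((3 : ℝ) ^ (pf x.1).card / N x.1 * ((3 : ℝ) ^ (pf x.2.1).card / N x.2.1 *
      ((3 : ℝ) ^ (pf x.2.2).card / N x.2.2))) = w3 x * (A / (N x.1 * N x.2.1 * N x.2.2)) := by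
      unfold w3; field_simp
    rw [e]
    exact le_mul_of_one_le_right (by unfold w3; positivity) ((one_le_div (by positivity)).2 h')
  refine h1.trans ?_
  rw [← mul_sum]
  refine mul_le_mul_of_nonneg_left ?_ hA
  refine (sum_le_sum_of_subset_of_nonneg (t := SQ Y ×ˢ SQ Y ×ˢ SQ Y) (fun x hx => (hS x hx).1)
    fun x _ _ => mul_nonneg (f0 _) (mul_nonneg (f0 _) (f0 _))).trans ?_
  simp only [sum_product, ← mul_sum, ← sum_mul]
  have h0 : 0 ≤ ∑ n ∈ SQ Y, (3 : ℝ) ^ (pf n).card / N n := sum_nonneg fun n _ => f0 n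
  calc _ = (∑ n ∈ SQ Y, (3 : ℝ) ^ (pf n).card / N n) ^ 3 := by ring
    _ ≤ _ := pow_le_pow_left₀ h0 hH 3

def Kr (X Z Y θ : ℝ) (Φ : ℝ → ℂ) (α : O → ℂ) (ι : O → ℕ) (M : ℕ) (x y : O3) : ℂ :=
  α x.1 * mu x.2.2 * mu y.1 * (Φ (N (pr x) * N y.1 / X) *
    (((VV Z (N x.2.2 * N x.2.1 * N y.1) : ℝ) : ℂ) *
      if II ι x.2.2 < cc ι Y (pf y.1) + 1 ∧ M - Nn x.2.2 < M - ⌊θ / N y.1⌋₊ ∧ Nn (pr x) < ⌊2 * X / N y.1⌋₊ + 1
      then del (pr x * pr y) else 0))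
def SS (X : ℝ) : Finset O3 := (SQ (2 * X) ×ˢ SQ (2 * X) ×ˢ SQ (2 * X)).filter fun x : O3 => Smo (ww X) x.2.2
def TT (X Y : ℝ) (ι : O → ℕ) : Finset O3 :=
  (SQ (2 * X) ×ˢ ({1} : Finset O) ×ˢ ({1} : Finset O)).filter fun y : O3 => Smo (ww X) y.1 ∧ Cl ι Y y.1

theorem ide {X Z Y θ : ℝ} (Φ : ℝ → ℂ) (α : O → ℂ) (ι : O → ℕ) {M : ℕ} (X0 : 0 < X) (Y16 : 16 ≤ Y) (θ0 : 0 ≤ θ)
    (MX : 2 * X ≤ M) : HS X Z Φ α (fun e => θ < N e ∧ Y ≤ N e) =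
      ∑ y ∈ TT X Y ι, ∑ x ∈ SS X, Kr X Z Y θ Φ α ι M x y := by
  set Q := SQ (2 * X) with hQ
  have a : HS X Z Φ α (fun e => θ < N e ∧ Y ≤ N e) = ∑ e ∈ Q, if Smo (ww X) e ∧ Y ≤ N e then
      ∑ r ∈ Q, ∑ u ∈ Q, (if θ < N e then α r * mu e * (VV Z (N e * N u) : ℝ) * FF X Φ (r * e * u) else 0) else 0 := by
    rw [HS, sum_comm]
    refine sum_congr rfl fun e _ => ?_
    by_cases c1 : Smo (ww X) e <;> by_cases c2 : Y ≤ N e <;> simp only [c1, c2, true_and, and_true, false_and,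
      and_false, if_true, if_false, sum_const_zero, hQ]
  rw [a, split ι (by linarith) (2 * X) (ww X), sum_comm, TT, sum_filter, sum_product]
  refine sum_congr rfl fun e2 h2 => ?_
  simp only [singleton_product_singleton, sum_singleton]
  by_cases c : Smo (ww X) e2 ∧ Cl ι Y e2
  swap
  · rw [if_neg c]
    exact sum_eq_zero fun e1 _ => if_neg fun h => c ⟨h.2.1, h.2.2.1⟩
  rw [if_pos c, SS, sum_filter, sum_product]
  simp only [sum_product]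
  rw [sum_congr rfl fun r _ => sum_comm, sum_comm]
  refine sum_congr rfl fun e1 h1 => ?_
  obtain ⟨p1, q1⟩ := mSQ.1 h1
  obtain ⟨p2, q2⟩ := mSQ.1 h2
  have n2 := Np p2
  by_cases c1 : Smo (ww X) e1
  swap
  · simp [c1]
  have t : ∀ r ∈ Q, ∀ u ∈ Q, Kr X Z Y θ Φ α ι M (r, u, e1) (e2, 1, 1) = if II ι e1 < cc ι Y (pf e2) + 1 ∧ e1 * e2 ∈ Q then
      (if θ < N (e1 * e2) then α r * mu (e1 * e2) * (VV Z (N (e1 * e2) * N u) : ℝ) * FF X Φ (r * (e1 * e2) * u)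
        else 0) else 0 := by
    intro r hr u hu
    have ep : pr (r, u, e1) * pr (e2, 1, 1) = r * (e1 * e2) * u := by simp only [pr]; ring
    have eN : N (pr (r, u, e1)) * N e2 = N (r * (e1 * e2) * u) := by
      rw [← W1.bas.b1.N_mul]; congr 1; simp only [pr]; ring
    have i2 : M - Nn e1 < M - ⌊θ / N e2⌋₊ ↔ θ < N (e1 * e2) := by
      have : Nn e1 ≤ M := Nat.cast_le.1 (q1.trans MX : (Nn e1 : ℝ) ≤ M)
      rw [W1.bas.b1.N_mul, ← div_lt_iff₀ (by linarith), show N e1 = (Nn e1 : ℝ) from rfl,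
        ← Nat.floor_lt (by positivity)]
      omega
    have i3 : Nn (pr (r, u, e1)) < ⌊2 * X / N e2⌋₊ + 1 ↔ N (r * (e1 * e2) * u) ≤ 2 * X := by
      rw [← eN, Nat.lt_succ_iff, Nat.le_floor_iff (by positivity), le_div_iff₀ (by linarith)]; rfl
    simp only [Kr, ep, eN, i2, i3, FF]
    by_cases s : Squarefree (r * (e1 * e2) * u)
    swap
    · simp [del, s]
    by_cases s' : N (r * (e1 * e2) * u) ≤ 2 * X
    swap
    · simp [s']
    have d : e1 * e2 ∣ r * (e1 * e2) * u := ⟨r * u, by ring⟩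
    have s2 := s.squarefree_of_dvd d
    have mq : e1 * e2 ∈ Q := mSQ.2 ⟨⟨W1.bas.b2.mul _ _ p1.1 p2.1, s2⟩, (Vau.N_dvd s.ne_zero d).trans s'⟩
    rw [Vau.b8.mu_mul _ _ (IsRelPrime.of_squarefree_mul s2).isCoprime, W1.bas.b1.N_mul e1 e2,
      show N e1 * N e2 * N u = N e1 * N u * N e2 by ring]
    by_cases c2 : II ι e1 < cc ι Y (pf e2) + 1 <;> by_cases c3 : θ < N e1 * N e2 <;> simp [c2, c3, s', mq]
    ring
  simp only [c1, c.1, c.2, true_and, if_true]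
  rw [sum_congr rfl fun r hr => sum_congr rfl fun u hu => t r hr u hu]
  split_ifs <;> simp

theorem blk {X Z Y θ C K l : ℝ} {Φ : ℝ → ℂ} {α : O → ℂ} {ι : O → ℕ} {M m m0 : ℕ}
    (hC : ∀ (A B : ℝ) (S T : Finset O3) (m : ℕ) (i1 i2 i3 j1 j2 j3 : O3 → ℕ), 1 ≤ A → 1 ≤ B →
      (∀ x ∈ S, SP x.1 ∧ SP x.2.1 ∧ SP x.2.2 ∧ N (pr x) ≤ A) →
      (∀ y ∈ T, SP y.1 ∧ SP y.2.1 ∧ SP y.2.2 ∧ N (pr y) ≤ B) →
      (∀ y ∈ T, j1 y ≤ 2 ^ m ∧ j2 y ≤ 2 ^ m ∧ j3 y ≤ 2 ^ m) →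
      UB S T (fun x y => if i1 x < j1 y ∧ i2 x < j2 y ∧ i3 x < j3 y then del (pr x * pr y) else 0)
        ((m + 1) ^ 3 * (C * Real.sqrt (A + B + (A * B) ^ (2 / 3 : ℝ))) * Real.sqrt (∑ x ∈ S, w3 x) *
          Real.sqrt (∑ y ∈ T, w3 y))) (hC0 : 0 ≤ C) (Cl' : C ≤ l) (Kl : K ≤ l) (l1 : 1 ≤ l) (lll : ll X ≤ l) (l2 : 2 ≤ ll X)
    (hr : ∀ (E : ℝ) (s : Finset O), X ^ (9 / 1000 : ℝ) ≤ E →
      (∀ e ∈ s, SP e ∧ Smo (ww X) e ∧ E ≤ N e ∧ N e ≤ 2 * E) → ∑ e ∈ s, (3 : ℝ) ^ (pf e).card ≤ E / LL X ^ 100)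
    (hW : Wt X K Φ) (hα : ∀ r, ‖α r‖ ≤ 1) (X3 : 3 ≤ X) (L1 : 1 ≤ LL X) (Y16 : 16 ≤ Y) (Z0 : 0 < Z)
    (M1 : M + 1 ≤ 2 ^ m) (MX : 2 * X ≤ M) (m0M : m0 ≤ M) (ml : (m : ℝ) + 1 ≤ 5 * l)
    (YY : Y * Y = X ^ (2 / 3 : ℝ)) (YYY : Y * Y * Y = X) (wY : 2 * ww X ≤ Y) (Y9 : 2 * X ^ (9 / 1000 : ℝ) ≤ Y)
    (h56 : X ^ (5 / 6 : ℝ) = Real.sqrt X * Y)
    (H1 : ∑ n ∈ SQ (2 * X), (3 : ℝ) ^ (pf n).card / N n ≤ 8 * l ^ 4)
    (mT : ∀ y ∈ TT X Y ι, SP y.1 ∧ y.2.1 = 1 ∧ y.2.2 = 1 ∧ Smo (ww X) y.1 ∧ Y ≤ N y.1 ∧ N y.1 ≤ Y * ww X ∧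
      N y.1 ≤ 2 * X ∧ cc ι Y (pf y.1) + 1 ≤ m0) (j : ℕ) :
    ‖∑ y ∈ (TT X Y ι).filter (fun y => Nat.log 2 (Nn y.1) = j), ∑ x ∈ SS X, Kr X Z Y θ Φ α ι M x y‖ ≤
      144000 * l ^ 14 * (X ^ (5 / 6 : ℝ) / LL X ^ 50) := by
  have sp1 : SP 1 := ⟨W1.bas.b2.one, squarefree_one⟩
  have X0 : 0 < X := by linarith
  have l0 : 0 < l := by linarith
  set T := (TT X Y ι).filter (fun y => Nat.log 2 (Nn y.1) = j) with hTj
  rcases T.eq_empty_or_nonempty with h | ⟨y0, hy0⟩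
  · rw [h, sum_empty, norm_zero]; positivity
  set E : ℝ := 2 ^ j with hE
  have E0 : 0 < E := by positivity
  have mE : ∀ y ∈ T, E ≤ N y.1 ∧ N y.1 ≤ 2 * E := by
    intro y hy
    obtain ⟨a, b⟩ := mem_filter.1 hy
    have n1 : Nn y.1 ≠ 0 := by
      have := Np (mT y a).1
      intro h; rw [N, h] at this; norm_num at this
    have c := Nat.pow_log_le_self 2 n1
    have d := (Nat.lt_pow_succ_log_self (by norm_num : 1 < 2) (Nn y.1)).le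
    rw [b] at c d
    refine ⟨by rw [hE, N]; exact_mod_cast c, ?_⟩
    rw [hE, N, mul_comm, ← pow_succ]; exact_mod_cast d
  obtain ⟨-, -, -, -, y1, y2, y3, -⟩ := mT y0 (mem_filter.1 hy0).1
  obtain ⟨y4, y5⟩ := mE y0 hy0
  set A := 2 * X / E with hA
  have A1 : 1 ≤ A := (one_le_div E0).2 (y4.trans y3)
  have A2 : A ≤ 4 * (Y * Y) := by
    rw [hA, div_le_iff₀ E0, ← YYY]
    have := mul_le_mul_of_nonneg_left (y1.trans y5) (mul_self_nonneg Y)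
    linarith
  have B2 : 2 * E ≤ Y * Y := by
    have := mul_le_mul_of_nonneg_left wY (by linarith : 0 ≤ Y)
    linarith
  set S := (SS X).filter (fun x => N (pr x) ≤ A) with hSj
  have e2 : ∑ y ∈ T, ∑ x ∈ (SS X), Kr X Z Y θ Φ α ι M x y = ∑ x ∈ S, ∑ y ∈ T, Kr X Z Y θ Φ α ι M x y := by
    rw [sum_comm, hSj, sum_filter]
    refine sum_congr rfl fun x _ => ?_
    split_ifs with h
    · rfl
    refine sum_eq_zero fun y hy => ?_
    have : ¬ Nn (pr x) < ⌊2 * X / N y.1⌋₊ + 1 := fun h' => h (by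
      rw [Nat.lt_succ_iff, Nat.le_floor_iff (div_nonneg (by linarith) (Vau.N0 _))] at h'
      exact h'.trans (div_le_div_of_nonneg_left (by linarith) E0 (mE y hy).1))
    simp [Kr, this]
  have mS : ∀ x ∈ S, (SP x.1 ∧ SP x.2.1 ∧ SP x.2.2 ∧ N (pr x) ≤ A) ∧ x ∈ SQ (2 * X) ×ˢ SQ (2 * X) ×ˢ SQ (2 * X) := by
    intro x hx
    obtain ⟨a, b⟩ := mem_filter.1 hx
    have c := (mem_filter.1 a).1
    have d := c
    simp only [mem_product] at d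
    exact ⟨⟨(mSQ.1 d.1).1, (mSQ.1 d.2.1).1, (mSQ.1 d.2.2).1, b⟩, c⟩
  have u0 := hC A (2 * E) S T m (fun x => II ι x.2.2) (fun x => M - Nn x.2.2) (fun x => Nn (pr x))
    (fun y => cc ι Y (pf y.1) + 1) (fun y => M - ⌊θ / N y.1⌋₊) (fun y => ⌊2 * X / N y.1⌋₊ + 1) A1 (by linarith)
    (fun x hx => (mS x hx).1) (fun y hy => by
      obtain ⟨a, b, c, -⟩ := mT y (mem_filter.1 hy).1
      refine ⟨a, b ▸ sp1, c ▸ sp1, ?_⟩
      rw [pr, b, c, mul_one, mul_one]; exact (mE y hy).2)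
    (fun y hy => by
      obtain ⟨a, -, -, -, -, -, -, b⟩ := mT y (mem_filter.1 hy).1
      have : ⌊2 * X / N y.1⌋₊ ≤ M := Nat.floor_le_of_le ((div_le_self (by linarith) (Np a)).trans MX)
      refine ⟨by omega, by omega, by omega⟩)
  have u1 := ubVV u0 Z0 (fun x => N x.2.2 * N x.2.1) (fun y => N y.1)
    (fun x hx => one_le_mul_of_one_le_of_one_le (Np (mS x hx).1.2.2.1) (Np (mS x hx).1.2.1))
    fun y hy => Np (mT y (mem_filter.1 hy).1).1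
  have u2 := ubPhi u1 (by positivity) X3 hW (fun x => N (pr x)) (fun y => N y.1)
    (fun x hx => Vau.N1 (W1.bas.b2.mul _ _ (W1.bas.b2.mul _ _ (mS x hx).1.1.1 (mS x hx).1.2.1.1) (mS x hx).1.2.2.1.1))
    (fun y hy => Np (mT y (mem_filter.1 hy).1).1) (fun x => α x.1 * mu x.2.2) (fun y => mu y.1)
    (fun x _ => by rw [norm_mul]; exact mul_le_one₀ (hα _) (norm_nonneg _) (Vau.b8.mu_le _))
    fun y _ => Vau.b8.mu_le _
  rw [e2]
  refine u2.trans ?_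
  have b1 : Real.sqrt (A + 2 * E + (A * (2 * E)) ^ (2 / 3 : ℝ)) ≤ 3 * Y := by
    refine Real.sqrt_le_iff.2 ⟨by linarith, ?_⟩
    have : (A * (2 * E)) ^ (2 / 3 : ℝ) ≤ 4 * (Y * Y) := by
      rw [show A * (2 * E) = 4 * X by rw [hA]; field_simp; ring, Real.mul_rpow (by norm_num) X0.le, YY]
      gcongr
      simpa using Real.rpow_le_rpow_of_exponent_le (x := 4) (by norm_num) (y := 2 / 3) (z := 1) (by norm_num)
    nlinarith
  have b2 : Real.sqrt (∑ x ∈ S, w3 x) ≤ Real.sqrt A * (64 * l ^ 8) := by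
    refine Real.sqrt_le_iff.2 ⟨by positivity, (s3 (by linarith) H1 S fun x hx => ⟨(mS x hx).2, (mS x hx).1.2.2.2⟩).trans ?_⟩
    rw [mul_pow (Real.sqrt A), Real.sq_sqrt (by linarith), show (64 * l ^ 8) ^ 2 = (8 * l ^ 4) ^ 4 by ring]
    refine mul_le_mul_of_nonneg_left (pow_le_pow_right₀ ?_ (by norm_num)) (by linarith)
    have : 1 ≤ l ^ 4 := one_le_pow₀ (by linarith)
    linarith
  have b3 : Real.sqrt (∑ y ∈ T, w3 y) ≤ Real.sqrt E / LL X ^ 50 := by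
    refine Real.sqrt_le_iff.2 ⟨by positivity, ?_⟩
    rw [div_pow, Real.sq_sqrt E0.le, ← pow_mul]
    have inj : Set.InjOn (fun y : O3 => y.1) T := fun y hy z hz e => by
      obtain ⟨-, a, b, -⟩ := mT y (mem_filter.1 hy).1
      obtain ⟨-, c, d, -⟩ := mT z (mem_filter.1 hz).1
      exact Prod.ext e (Prod.ext (a.trans c.symm) (b.trans d.symm))
    have := hr E (T.image fun y => y.1) (by linarith) (fun e he => by
      obtain ⟨y, hy, rfl⟩ := mem_image.1 he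
      obtain ⟨a, -, -, b, -⟩ := mT y (mem_filter.1 hy).1
      exact ⟨a, b, mE y hy⟩)
    rw [sum_image inj] at this
    refine le_trans (le_of_eq (sum_congr rfl fun y hy => ?_)) this
    obtain ⟨-, a, b, -⟩ := mT y (mem_filter.1 hy).1
    simp [w3, a, b, Vau.b8.pf_one]
  have b4 : Real.sqrt A * Real.sqrt E * Y ≤ 2 * X ^ (5 / 6 : ℝ) := by
    rw [← Real.sqrt_mul (by linarith), show A * E = 2 * X by rw [hA]; field_simp,
      h56, ← mul_assoc]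
    refine mul_le_mul_of_nonneg_right (Real.sqrt_le_iff.2 ⟨by positivity, ?_⟩) (by linarith)
    rw [mul_pow, Real.sq_sqrt X0.le]; linarith
  have b5 : K * ll X ≤ l * l := mul_le_mul Kl lll (by linarith) l0.le
  calc _ ≤ 3 * (l * l) * ((5 * l) ^ 3 * (l * (3 * Y)) * (Real.sqrt A * (64 * l ^ 8)) * (Real.sqrt E / LL X ^ 50)) := by
        gcongr
    _ = 72000 * l ^ 14 * (Real.sqrt A * Real.sqrt E * Y / LL X ^ 50) := by ring
    _ ≤ 72000 * l ^ 14 * (2 * X ^ (5 / 6 : ℝ) / LL X ^ 50) := by gcongr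
    _ = _ := by ring

end Vale.Agent.P006.M.H2

namespace Vale.Agent.P006.M
open Vale.Agent.P026 Vale.Agent.P006 H2

theorem hb2S (hG : GRStmt) (hS : SLIStmt) (hR : RANKStmt) (hT : TRIStmt) : HB2Stmt := by
  obtain ⟨C, hC0, hC⟩ := ub3 hS hT
  obtain ⟨Ch, hh0, hh⟩ := hsum
  intro K
  filter_upwards [hG (720000 + |K| + C + Ch) (1 / 10) (by norm_num), hR.1,
    (tendsto_rpow_atTop (by norm_num : (0 : ℝ) < 1 / 5)).eventually_ge_atTop 16] with X g hr h16 Φ α Z hW hα hZ1 hZ2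
  obtain ⟨X3, l2, gA, -, g2, -, g4, -, w2, L1⟩ := g
  have aK := abs_nonneg K
  set l := Real.log X with hl
  have X0 : 0 < X := by linarith
  have X1 : 1 ≤ X := by linarith
  have l0 : 0 < l := Real.log_pos (by linarith)
  have lll : ll X ≤ l := by have := Real.log_le_sub_one_of_pos l0; unfold ll; linarith
  have lb : 720000 + |K| + C + Ch ≤ l := gA.trans lll
  have rp : ∀ a b : ℝ, X ^ a * X ^ b = X ^ (a + b) := fun a b => (Real.rpow_add X0 a b).symm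
  have rm : ∀ a b : ℝ, a ≤ b → X ^ a ≤ X ^ b := fun a b h => Real.rpow_le_rpow_of_exponent_le X1 h
  have wX : ww X ≤ X ^ (1 / 10 : ℝ) := by
    refine le_trans ?_ g4
    simpa using Real.rpow_le_rpow_of_exponent_le (x := ww X) (by linarith) (y := 1)
      (z := 720000 + |K| + C + Ch) (by linarith)
  have lL : l ^ 16 ≤ LL X := by
    have a : l ^ (16 : ℝ) ≤ l ^ (720000 + |K| + C + Ch) := Real.rpow_le_rpow_of_exponent_le (by linarith) (by linarith)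
    have b : LL X ^ (1 / 10 : ℝ) ≤ LL X ^ (1 : ℝ) := Real.rpow_le_rpow_of_exponent_le L1 (by norm_num)
    rw [Real.rpow_one] at b
    exact_mod_cast a.trans (g2.trans b)
  set Y := X ^ (1 / 3 : ℝ) with hY
  have Y16 : 16 ≤ Y := h16.trans (rm _ _ (by norm_num))
  have Z0 : 0 < Z := lt_of_lt_of_le (Real.rpow_pos_of_pos X0 _) hZ1
  obtain ⟨ι, m0, hm0, hi, hm⟩ := idx (w := ww X) (by linarith)
  set M := ⌈2 * X⌉₊ with hM
  set m := Nat.log 2 (M + 1) + 1 with hm'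
  have M1 : M + 1 ≤ 2 ^ m := (Nat.lt_pow_succ_log_self (by norm_num) _).le
  have MX : 2 * X ≤ M := Nat.le_ceil _
  have m0M : m0 ≤ M := by
    have : (m0 : ℝ) ≤ M := by
      have a := rp (1 / 5) (1 / 10)
      have b := rm (1 / 5 + 1 / 10) 1 (by norm_num)
      rw [Real.rpow_one] at b
      nlinarith [Real.rpow_pos_of_pos X0 (1 / 10 : ℝ)]
    exact_mod_cast this
  have ml : (m : ℝ) + 1 ≤ 5 * l := by
    have a : ((2 : ℝ)) ^ Nat.log 2 (M + 1) ≤ (M : ℝ) + 1 := by exact_mod_cast Nat.pow_log_le_self 2 (Nat.succ_ne_zero M)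
    have b : (M : ℝ) < 2 * X + 1 := Nat.ceil_lt_add_one (by linarith)
    have c := Real.log_le_log (by positivity) (a.trans (by nlinarith : (M : ℝ) + 1 ≤ X ^ 2))
    rw [Real.log_pow, Real.log_pow] at c
    have := Real.log_two_gt_d9
    have d : (0 : ℝ) ≤ Nat.log 2 (M + 1) := Nat.cast_nonneg _
    rw [hm']; push_cast at c ⊢
    nlinarith
  have YY : Y * Y = X ^ (2 / 3 : ℝ) := by rw [hY, rp]; norm_num
  have YYY : Y * Y * Y = X := by rw [YY, hY, rp]; norm_num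
  have sm : ∀ a : ℝ, a ≤ 1 / 10 → 2 * X ^ a ≤ Y := fun a ha => by
    have a1 := rp (1 / 5) a
    have b := rm (1 / 5 + a) (1 / 3) (by linarith)
    have c := mul_le_mul_of_nonneg_right h16 (Real.rpow_pos_of_pos X0 a).le
    have := Real.rpow_pos_of_pos X0 a
    linarith
  have wY : 2 * ww X ≤ Y := by linarith [sm (1 / 10) le_rfl]
  have h56 : X ^ (5 / 6 : ℝ) = Real.sqrt X * Y := by rw [Real.sqrt_eq_rpow, hY, rp]; norm_num
  have H1 : ∑ n ∈ SQ (2 * X), (3 : ℝ) ^ (pf n).card / N n ≤ 8 * l ^ 4 := by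
    refine (hh _ (by linarith)).trans ?_
    have a : Real.log (2 * X) ≤ 2 * l := by
      have := Real.log_le_log (by linarith) (by nlinarith : 2 * X ≤ X ^ 2)
      rwa [Real.log_pow] at this
    have b : 0 ≤ Real.log (2 * X) := Real.log_nonneg (by linarith)
    calc _ ≤ l * (2 * l) ^ 3 := by gcongr; linarith
      _ = _ := by ring
  have mT : ∀ y ∈ TT X Y ι, SP y.1 ∧ y.2.1 = 1 ∧ y.2.2 = 1 ∧ Smo (ww X) y.1 ∧ Y ≤ N y.1 ∧ N y.1 ≤ Y * ww X ∧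
      N y.1 ≤ 2 * X ∧ cc ι Y (pf y.1) + 1 ≤ m0 := by
    intro y hy
    obtain ⟨a, b, c⟩ := mem_filter.1 hy
    simp only [mem_product, mem_singleton] at a
    obtain ⟨d1, d2⟩ := clb ι (by linarith) (by linarith) m0 hi hm (mSQ.1 a.1).1 b c
    exact ⟨(mSQ.1 a.1).1, a.2.1, a.2.2, b, c.1, d1, (mSQ.1 a.1).2, d2⟩
  rw [ide Φ α ι X0 Y16 (by positivity) MX, ← sum_fiberwise_of_maps_to (t := range m) (g := fun y : O3 => Nat.log 2 (Nn y.1)) fun y hy => by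
    have a : Nn y.1 ≤ M + 1 := by
      have : Nn y.1 ≤ M := Nat.cast_le.1 ((mT y hy).2.2.2.2.2.2.1.trans MX : (Nn y.1 : ℝ) ≤ M)
      omega
    exact mem_range.2 (Nat.lt_succ_of_le (Nat.log_mono_right a))]
  refine (norm_sum_le _ _).trans ((sum_le_sum fun j _ => blk hC hC0 (by linarith) (by linarith [le_abs_self K]) (by linarith)
    lll l2 hr hW hα X3 L1 Y16 Z0 M1 MX m0M ml YY YYY wY (sm _ (by norm_num)) h56 H1 mT j).trans ?_)
  rw [sum_const, card_range, nsmul_eq_mul]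
  have P0 : 0 ≤ X ^ (5 / 6 : ℝ) := by positivity
  calc _ ≤ (5 * l) * (144000 * l ^ 14 * (X ^ (5 / 6 : ℝ) / LL X ^ 50)) := by gcongr; linarith
    _ = 720000 * l ^ 15 * (X ^ (5 / 6 : ℝ) / LL X ^ 50) := by ring
    _ ≤ l * l ^ 15 * (X ^ (5 / 6 : ℝ) / LL X ^ 50) := by gcongr; linarith
    _ = l ^ 16 * (X ^ (5 / 6 : ℝ) / LL X ^ 50) := by ring
    _ ≤ LL X * (X ^ (5 / 6 : ℝ) / LL X ^ 50) := by gcongr
    _ = X ^ (5 / 6 : ℝ) / LL X ^ 49 := by field_simp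
    _ ≤ _ := by gcongr; norm_num

end Vale.Agent.P006.M
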