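import Vale.Agent.P006.M

/-! P006 main branch, row HI. -/

noncomputable section
open Complex MeasureTheory Filter Topology
open scoped Classical ComplexConjugate

namespace Vale.Agent.P006.M
open Vale.Agent.P026 Vale.Agent.P006
open Vale.Agent.P006.Vau (PS Lam)

namespace HIM

theorem mob (w : ℝ) {n : O} (hn : Prim n) :
    ∑ d ∈ Vau.dv n, (if Smo w d then mu d else 0) = if Rough w n then 1 else 0 := by
  have hB := W1.bas
  refine hB.b2.ind1 (fun n => ∑ d ∈ Vau.dv n, (if Smo w d then mu d else 0) =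
    if Rough w n then 1 else 0) ?_ ?_ n hn
  · simp [Vau.dv_one, ZKM.mu_one, Smo, Rough, Vau.b8.pf_one]
  · intro p a hp h1 ha ih
    have a0 := hB.b2.ne a ha
    have e : ∀ d, d ≠ 0 → pf (p * d) = insert p (pf d) := by
      intro d hd
      rw [Vau.b8.pf_mul p d hp.ne_zero hd, Vau.pf_prime hp h1]
      rfl
    rw [Vau.sum_dv_mul hp h1 ha]
    by_cases hw : N p ≤ w
    · have hr : ¬ Rough w (p * a) := fun h => by
        have := h p (by rw [e a a0]; exact Finset.mem_insert_self _ _)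
        linarith
      rw [if_neg hr]
      refine Finset.sum_eq_zero fun d hd => ?_
      have d0 := hB.b2.ne d ((Vau.mem_dv a0).1 hd).1
      have hs : Smo w (p * d) ↔ Smo w d := by
        unfold Smo
        rw [e d d0, Finset.forall_mem_insert]
        exact ⟨fun h => h.2, fun h => ⟨hw, h⟩⟩
      rw [ZKM.mu_prime_mul hp d0]
      by_cases c1 : Smo w d
      · rw [if_pos c1, if_pos (hs.2 c1)]
        split_ifs <;> simp
      · rw [if_neg c1, if_neg (fun h => c1 (hs.1 h))]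
        simp
    · have hr : Rough w (p * a) ↔ Rough w a := by
        unfold Rough
        rw [e a a0, Finset.forall_mem_insert]
        exact ⟨fun h => h.2, fun h => ⟨not_le.1 hw, h⟩⟩
      have e2 : (if Rough w (p * a) then (1 : ℂ) else 0) = if Rough w a then 1 else 0 := by
        by_cases c : Rough w a
        · rw [if_pos c, if_pos (hr.2 c)]
        · rw [if_neg c, if_neg (fun h => c (hr.1 h))]
      rw [e2, ← ih]
      refine Finset.sum_congr rfl fun d hd => ?_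
      have d0 := hB.b2.ne d ((Vau.mem_dv a0).1 hd).1
      have hs : ¬ Smo w (p * d) := fun h =>
        hw (h p (by rw [e d d0]; exact Finset.mem_insert_self _ _))
      rw [if_neg hs, add_zero]
      by_cases c : p ∣ d
      · rw [if_pos c, if_neg (fun h : Smo w d => hw (h p ((Vau.b8.mem d p d0).2 ⟨hp, h1, c⟩)))]
      · rw [if_neg c]

theorem memQ {X : ℝ} {n : O} : n ∈ SQ X ↔ SP n ∧ N n ≤ X := (memS W1.bas).1 X n

theorem sq_sum (X : ℝ) (F : O → ℂ) (hF : ∀ n, ¬ Squarefree n → F n = 0) :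
    ∑ n ∈ SQ X, F n = ∑ n ∈ PS X, F n := by
  refine Finset.sum_subset (fun n hn => ?_) (fun n hn hn' => hF n fun hs => hn' ?_)
  · rw [memQ] at hn
    exact Vau.mem_PS.2 ⟨hn.1.1, hn.2⟩
  · rw [Vau.mem_PS] at hn
    exact memQ.2 ⟨⟨hn.1, hs⟩, hn.2⟩

theorem FF_ns (X : ℝ) (Φ : ℝ → ℂ) {n : O} (h : ¬ Squarefree n) : FF X Φ n = 0 := by
  simp [FF, del, h]

/-- the rough sum -/
def SR (X Z : ℝ) (Φ : ℝ → ℂ) (α : O → ℂ) : ℂ :=
  ∑ r ∈ SQ (2 * X), ∑ u ∈ SQ (2 * X),
    α r * (if Rough (ww X) u then 1 else 0) * FF X Φ (r * u) * (VV Z (N u) : ℝ)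

theorem SR_eq (X Z : ℝ) (Φ : ℝ → ℂ) (α : O → ℂ) : SR X Z Φ α = HS X Z Φ α fun _ => True := by
  have hB := W1.bas
  unfold SR HS
  refine Finset.sum_congr rfl fun r hr => ?_
  have r1 := Vau.N1 (memQ.1 hr).1.1
  have h := Vau.conv (X := 2 * X) (fun d => if Smo (ww X) d then mu d else 0)
    (fun u => α r * FF X Φ (r * u) * (VV Z (N u) : ℝ)) (fun n hn => by
      have : ¬ N (r * n) ≤ 2 * X := by
        rw [hB.b1.N_mul]
        nlinarith [Vau.N0 n]
      simp [FF, this])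
  rw [sq_sum _ _ fun n hn => by rw [FF_ns X Φ fun k => hn k.of_mul_right]; simp,
    sq_sum _ _ fun e he => Finset.sum_eq_zero fun u _ => by
      rw [FF_ns X Φ fun k => he k.of_mul_left.of_mul_right]; simp]
  refine Eq.trans ?_ (h.symm.trans ?_)
  · refine Finset.sum_congr rfl fun n hn => ?_
    rw [mob _ (Vau.mem_PS.1 hn).1]
    ring
  · refine Finset.sum_congr rfl fun e _ => ?_
    rw [sq_sum _ _ fun n hn => by rw [FF_ns X Φ fun k => hn k.of_mul_right]; simp]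
    refine Finset.sum_congr rfl fun u _ => ?_
    rw [hB.b1.N_mul, mul_assoc r]
    by_cases c : Smo (ww X) e
    · rw [if_pos c, if_pos ⟨c, trivial⟩]
      ring
    · rw [if_neg c, if_neg (fun k => c k.1), zero_mul]

theorem HS_add (X Z : ℝ) (Φ : ℝ → ℂ) (α : O → ℂ) (P Q R : O → Prop)
    (h1 : ∀ e, P e ↔ Q e ∨ R e) (h2 : ∀ e, Q e → ¬ R e) :
    HS X Z Φ α P = HS X Z Φ α Q + HS X Z Φ α R := by
  unfold HS
  simp only [← Finset.sum_add_distrib]
  refine Finset.sum_congr rfl fun r _ => Finset.sum_congr rfl fun e _ =>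
    Finset.sum_congr rfl fun u _ => ?_
  have k1 := h1 e
  have k2 := h2 e
  by_cases c : Smo (ww X) e
  · by_cases cq : Q e
    · rw [if_pos ⟨c, k1.2 (Or.inl cq)⟩, if_pos ⟨c, cq⟩, if_neg fun k => k2 cq k.2, add_zero]
    · by_cases cr : R e
      · rw [if_pos ⟨c, k1.2 (Or.inr cr)⟩, if_neg fun k => cq k.2, if_pos ⟨c, cr⟩, zero_add]
      · rw [if_neg fun k => (k1.1 k.2).elim cq cr, if_neg fun k => cq k.2, if_neg fun k => cr k.2,
          add_zero]
  · rw [if_neg fun k => c k.1, if_neg fun k => c k.1, if_neg fun k => c k.1, add_zero]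

theorem VV_le {Z x : ℝ} (hZ : 0 < Z) (hx : 0 < x) : VV Z x ≤ Real.exp 9 * (x / Z) ^ 6 := by
  have h : (x / Z) ^ 6 = Real.exp (6 * Real.log (x / Z)) := by
    rw [show (6 : ℝ) * Real.log (x / Z) = ((6 : ℕ) : ℝ) * Real.log (x / Z) by norm_num,
      Real.exp_nat_mul, Real.exp_log (div_pos hx hZ)]
  rw [h, ← Real.exp_add, VV]
  exact Real.exp_le_exp.2 (by nlinarith [sq_nonneg (Real.log (x / Z) + 3)])

theorem FF_le {X K : ℝ} {Φ : ℝ → ℂ} (hX : 0 < X) (hW : Wt X K Φ) {n : O} (hn : Prim n) :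
    ‖FF X Φ n‖ ≤ (1 + cst) * K := by
  have K0 : 0 ≤ K := (norm_nonneg _).trans (hW.le 1 one_pos)
  have c0 := Z1.cst_pos
  have n1 := Vau.N1 hn
  unfold FF
  split_ifs
  · rw [norm_mul]
    refine mul_le_mul ?_ (hW.le _ (by positivity)) (norm_nonneg _) (by positivity)
    unfold del
    split_ifs with hs
    · refine (norm_sub_le _ _).trans ?_
      rw [Z0.norm_gt hn hs, norm_real, Real.norm_of_nonneg (by positivity)]
      have := Real.rpow_le_one_of_one_le_of_nonpos n1 (show (-1 / 6 : ℝ) ≤ 0 by norm_num)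
      nlinarith
    · rw [norm_zero]
      positivity
  · rw [norm_zero]
    positivity

theorem card_SQ {X : ℝ} (hX : 0 ≤ X) : ((SQ X).card : ℝ) ≤ 16 * X :=
  W1.bas.b3.card_le X _ hX fun a ha =>
    ⟨W1.bas.b2.ne a (memQ.1 ha).1.1, (memQ.1 ha).2⟩

theorem SR_tail {X Z K : ℝ} {Φ : ℝ → ℂ} {α : O → ℂ} (hX : 1 ≤ X) (hW : Wt X K Φ)
    (hα : ∀ r, ‖α r‖ ≤ 1) (hZ : X ^ 2 ≤ Z) :
    ‖SR X Z Φ α‖ ≤ 65536 * Real.exp 9 * (1 + cst) * K * Z ^ (-2 : ℝ) := by
  have K0 : 0 ≤ K := (norm_nonneg _).trans (hW.le 1 one_pos)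
  have c0 := Z1.cst_pos
  have X0 : 0 < X := by linarith
  have Z0 : 0 < Z := lt_of_lt_of_le (by positivity) hZ
  have cd := card_SQ (X := 2 * X) (by positivity)
  have t : ∀ r ∈ SQ (2 * X), ∀ u ∈ SQ (2 * X),
      ‖α r * (if Rough (ww X) u then 1 else 0) * FF X Φ (r * u) * (VV Z (N u) : ℝ)‖ ≤
        (1 + cst) * K * (Real.exp 9 * (2 * X / Z) ^ 6) := by
    intro r hr u hu
    rw [memQ] at hr hu
    have u1 := Vau.N1 hu.1.1
    have v0 : 0 ≤ VV Z (N u) := (Real.exp_pos _).le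
    rw [norm_mul, norm_mul, norm_mul, norm_real, Real.norm_of_nonneg v0]
    have f := FF_le X0 hW (W1.bas.b2.mul _ _ hr.1.1 hu.1.1)
    have i1 : ‖(if Rough (ww X) u then (1 : ℂ) else 0)‖ ≤ 1 := by
      split_ifs <;> simp
    have v : VV Z (N u) ≤ Real.exp 9 * (2 * X / Z) ^ 6 := by
      refine (VV_le Z0 (by linarith)).trans ?_
      have := hu.2
      gcongr
    have i2 := mul_le_one₀ (hα r) (norm_nonneg _) i1
    refine mul_le_mul ?_ v v0 (by positivity)
    exact (mul_le_of_le_one_left (norm_nonneg _) i2).trans f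
  have e : Z ^ (-2 : ℝ) = (Z ^ 2)⁻¹ := by
    rw [Real.rpow_neg Z0.le]
    norm_num
  have p4 : X ^ 8 ≤ Z ^ 4 := by
    calc X ^ 8 = (X ^ 2) ^ 4 := by ring
      _ ≤ Z ^ 4 := by gcongr
  calc _ ≤ ∑ r ∈ SQ (2 * X), ∑ u ∈ SQ (2 * X), (1 + cst) * K * (Real.exp 9 * (2 * X / Z) ^ 6) :=
        (norm_sum_le _ _).trans (Finset.sum_le_sum fun r hr =>
          (norm_sum_le _ _).trans (Finset.sum_le_sum fun u hu => t r hr u hu))
    _ ≤ (16 * (2 * X)) * ((16 * (2 * X)) * ((1 + cst) * K * (Real.exp 9 * (2 * X / Z) ^ 6))) := by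
        simp only [Finset.sum_const, nsmul_eq_mul]
        gcongr
    _ = 65536 * Real.exp 9 * (1 + cst) * K * (X ^ 8 / Z ^ 4 * (Z ^ 2)⁻¹) := by
        field_simp
        ring
    _ ≤ _ := by
        rw [e]
        have := (div_le_one (by positivity)).2 p4
        have q : X ^ 8 / Z ^ 4 * (Z ^ 2)⁻¹ ≤ (Z ^ 2)⁻¹ :=
          mul_le_of_le_one_left (by positivity) this
        gcongr

theorem rep (hL : HLStmt) {Y x : ℝ} (hY : 0 < Y) (hx : 0 < x) {j : ℕ} (hj : j ≤ 1) :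
    IntegrableOn (fun Z => Real.log Z ^ j * (VV Z x / Z)) (Set.Ioi Y) ∧
    Real.log x ^ j * hiW Y x = (Real.sqrt Real.pi)⁻¹ *
      ((∫ Z in Set.Ioi Y, Real.log Z ^ j * (VV Z x / Z)) - j / 2 * VV Y x) := by
  obtain ⟨-, -, -, h1, h2, h3⟩ := (hL Y hY).2 x hx
  rcases Nat.le_one_iff_eq_zero_or_eq_one.1 hj with rfl | rfl
  · simp only [pow_zero, one_mul]
    exact ⟨h1, by simp [hiW]⟩
  · simp only [pow_one]
    refine ⟨h2, ?_⟩
    rw [h3]
    push_cast
    ring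

theorem main (hL : HLStmt) {X Y : ℝ} (Φ : ℝ → ℂ) (α : O → ℂ) (hY : 0 < Y) {j : ℕ} (hj : j ≤ 1) :
    IntegrableOn (fun Z => ((Real.log Z ^ j / Z : ℝ) : ℂ) * SR X Z Φ α) (Set.Ioi Y) ∧
    ∑ r ∈ SQ (2 * X), ∑ u ∈ SQ (2 * X), α r * (aL X j u * (hiW Y (N u) : ℝ)) * FF X Φ (r * u) =
      (((Real.sqrt Real.pi)⁻¹ : ℝ) : ℂ) *
        ((∫ Z in Set.Ioi Y, ((Real.log Z ^ j / Z : ℝ) : ℂ) * SR X Z Φ α) -
          ((j / 2 : ℝ) : ℂ) * SR X Y Φ α) := by
  have e : (fun Z => ((Real.log Z ^ j / Z : ℝ) : ℂ) * SR X Z Φ α) = fun Z =>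
      ∑ r ∈ SQ (2 * X), ∑ u ∈ SQ (2 * X), α r * (if Rough (ww X) u then 1 else 0) * FF X Φ (r * u) *
        ((Real.log Z ^ j * (VV Z (N u) / Z) : ℝ) : ℂ) := by
    funext Z
    rw [SR, Finset.mul_sum]
    refine Finset.sum_congr rfl fun r _ => ?_
    rw [Finset.mul_sum]
    refine Finset.sum_congr rfl fun u _ => ?_
    push_cast
    ring
  have p : ∀ u ∈ SQ (2 * X), 0 < N u := fun u hu =>
    lt_of_lt_of_le one_pos (Vau.N1 (memQ.1 hu).1.1)
  have i : ∀ r, ∀ u ∈ SQ (2 * X), Integrable (fun Z =>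
      α r * (if Rough (ww X) u then 1 else 0) * FF X Φ (r * u) *
        ((Real.log Z ^ j * (VV Z (N u) / Z) : ℝ) : ℂ)) (volume.restrict (Set.Ioi Y)) :=
    fun r u hu => (Integrable.ofReal (rep hL hY (p u hu) hj).1).const_mul _
  rw [e]
  refine ⟨integrable_finsetSum _ fun r _ => integrable_finsetSum _ fun u hu => i r u hu, ?_⟩
  rw [integral_finsetSum _ fun r _ => integrable_finsetSum _ fun u hu => i r u hu, SR,
    Finset.mul_sum, ← Finset.sum_sub_distrib, Finset.mul_sum]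
  refine Finset.sum_congr rfl fun r _ => ?_
  rw [integral_finsetSum _ fun u hu => i r u hu, Finset.mul_sum, ← Finset.sum_sub_distrib,
    Finset.mul_sum]
  refine Finset.sum_congr rfl fun u hu => ?_
  rw [integral_const_mul, integral_complex_ofReal]
  have h := congrArg (fun t : ℝ => (t : ℂ)) (rep hL hY (p u hu) hj).2
  simp only [ofReal_mul, ofReal_sub] at h
  unfold aL
  split_ifs
  · linear_combination α r * FF X Φ (r * u) * h
  · ring

theorem bound {X Y D E : ℝ} {F : ℝ → ℂ} {j : ℕ} (hj : j ≤ 1) (hX : 1 ≤ Real.log X)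
    (hY : 1 ≤ Y) (hYX : Y ≤ X ^ 2) (hD : 0 ≤ D) (hE : 0 ≤ E)
    (hi : IntegrableOn (fun Z => ((Real.log Z ^ j / Z : ℝ) : ℂ) * F Z) (Set.Ioi Y))
    (h1 : ∀ Z, Y ≤ Z → Z ≤ X ^ 2 → ‖F Z‖ ≤ D) (h2 : ∀ Z, X ^ 2 ≤ Z → ‖F Z‖ ≤ E * Z ^ (-2 : ℝ)) :
    ‖∫ Z in Set.Ioi Y, ((Real.log Z ^ j / Z : ℝ) : ℂ) * F Z‖ ≤ 4 * Real.log X ^ 2 * D + E := by
  have Y0 : 0 < Y := by linarith
  have X2 : 1 ≤ X ^ 2 := hY.trans hYX
  have l2 : Real.log (X ^ 2) = 2 * Real.log X := by
    rw [Real.log_pow]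
    norm_num
  rw [← Set.Ioc_union_Ioi_eq_Ioi hYX, setIntegral_union (Set.Ioc_disjoint_Ioi le_rfl)
    measurableSet_Ioi (hi.mono_set Set.Ioc_subset_Ioi_self) (hi.mono_set (Set.Ioi_subset_Ioi hYX))]
  refine (norm_add_le _ _).trans (add_le_add ?_ ?_)
  · have ii : IntegrableOn (fun Z : ℝ => Z⁻¹) (Set.Ioc Y (X ^ 2)) :=
      (ContinuousOn.integrableOn_Icc (continuousOn_inv₀.mono fun Z hZ =>
        (lt_of_lt_of_le Y0 hZ.1).ne')).mono_set Set.Ioc_subset_Icc_self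
    refine (norm_integral_le_of_norm_le (ii.const_mul (2 * Real.log X * D))
      (ae_restrict_of_forall_mem measurableSet_Ioc fun Z hZ => ?_)).trans ?_
    · have Z1 : 1 ≤ Z := hY.trans hZ.1.le
      have lz := Real.log_nonneg Z1
      have lz2 : Real.log Z ≤ 2 * Real.log X := l2 ▸ Real.log_le_log (by linarith) hZ.2
      have lj : Real.log Z ^ j ≤ 2 * Real.log X := by
        rcases Nat.le_one_iff_eq_zero_or_eq_one.1 hj with rfl | rfl
        · rw [pow_zero]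
          linarith
        · rwa [pow_one]
      rw [norm_mul, norm_real, Real.norm_of_nonneg (by positivity)]
      calc _ ≤ 2 * Real.log X / Z * D := by
            have := h1 Z hZ.1.le hZ.2
            gcongr
        _ = _ := by ring
    · rw [integral_const_mul, ← intervalIntegral.integral_of_le hYX,
        integral_inv_of_pos Y0 (by linarith), Real.log_div (by linarith) Y0.ne', l2]
      have := Real.log_nonneg hY
      have q : 0 ≤ 2 * Real.log X * D := by positivity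
      nlinarith [mul_nonneg q this]
  · refine (norm_integral_le_of_norm_le
      ((integrableOn_Ioi_rpow_of_lt (show (-2 : ℝ) < -1 by norm_num)
        (show 0 < X ^ 2 by linarith)).const_mul E)
      (ae_restrict_of_forall_mem measurableSet_Ioi fun Z hZ => ?_)).trans ?_
    · have Z1 : 1 ≤ Z := X2.trans (le_of_lt hZ)
      have lz := Real.log_nonneg Z1
      have lj : Real.log Z ^ j / Z ≤ 1 := by
        rw [div_le_one (by linarith)]
        rcases Nat.le_one_iff_eq_zero_or_eq_one.1 hj with rfl | rfl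
        · rwa [pow_zero]
        · rw [pow_one]
          linarith [Real.log_le_sub_one_of_pos (show 0 < Z by linarith)]
      rw [norm_mul, norm_real, Real.norm_of_nonneg (by positivity)]
      exact (mul_le_of_le_one_left (norm_nonneg _) lj).trans (h2 Z (le_of_lt hZ))
    · rw [integral_const_mul, integral_Ioi_rpow_of_lt (by norm_num) (by linarith)]
      refine mul_le_of_le_one_right hE ?_
      have := Real.rpow_le_one_of_one_le_of_nonpos X2 (show (-2 + 1 : ℝ) ≤ 0 by norm_num)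
      norm_num at this ⊢
      exact this

end HIM

open HIM

theorem hiS (hG : GRStmt) (hL : HLStmt) (hA : HAStmt) (h1 : HB1Stmt) (h2 : HB2Stmt) : HIStmt := by
  intro K
  filter_upwards [hG (14 + 65536 * Real.exp 9 * (1 + cst) * |K|) 1 one_pos,
    hG 12 (5 / 6) (by norm_num), hA K, h1 K, h2 K] with X g1 g2 kA k1 k2
  intro Φ α j hW hα hj
  obtain ⟨X3, -, gA, -, gL, -, -, -, -, L1⟩ := g1
  obtain ⟨-, -, -, -, -, gw, gX, -, w2, -⟩ := g2
  have K0 : 0 ≤ K := (norm_nonneg _).trans (hW.le 1 one_pos)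
  have c0 := Z1.cst_pos
  rw [abs_of_nonneg K0] at gA gL
  obtain ⟨E, hE⟩ : ∃ E, E = 65536 * Real.exp 9 * (1 + cst) * K := ⟨_, rfl⟩
  have E0 : 0 ≤ E := by
    rw [hE]
    positivity
  rw [← hE] at gA gL
  have X1 : 1 ≤ X := by linarith
  have X0 : 0 < X := by linarith
  have lp : 0 < Real.log X := Real.log_pos (by linarith)
  have lA : 14 + E ≤ Real.log X := by
    have := Real.log_le_sub_one_of_pos lp
    unfold ll at gA
    linarith
  have l3 : Real.log X ^ 3 ≤ LL X := by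
    rw [Real.rpow_one] at gL
    refine le_trans ?_ gL
    rw [← Real.rpow_natCast]
    exact Real.rpow_le_rpow_of_exponent_le (by linarith) (by push_cast; linarith)
  have L12 : LL X ^ 12 ≤ X ^ (5 / 6 : ℝ) := by
    rw [← Real.rpow_natCast]
    push_cast
    exact gw.trans ((Real.rpow_le_rpow_of_exponent_le (by linarith) (by norm_num)).trans gX)
  have Y1 : 1 ≤ X ^ (49 / 100 : ℝ) := Real.one_le_rpow X1 (by norm_num)
  have YX : X ^ (49 / 100 : ℝ) ≤ X ^ 2 := by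
    rw [← Real.rpow_natCast]
    exact Real.rpow_le_rpow_of_exponent_le X1 (by norm_num)
  obtain ⟨D, hD⟩ : ∃ D, D = X ^ (5 / 6 : ℝ) / LL X ^ 12 := ⟨_, rfl⟩
  have L0 : 0 < LL X := by linarith
  have D1 : 1 ≤ D := by
    rw [hD]
    exact (one_le_div (by positivity)).2 L12
  have s3 : ∀ Z, X ^ (49 / 100 : ℝ) ≤ Z → Z ≤ X ^ 2 → ‖SR X Z Φ α‖ ≤ 3 * D := by
    intro Z z1 z2
    have a := kA Φ α Z hW hα z1 z2
    have b := k1 Φ α Z hW hα z1 z2
    have c := k2 Φ α Z hW hα z1 z2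
    rw [← hD] at a b c
    rw [SR_eq, HS_add X Z Φ α _ (fun e => N e ≤ Z * X ^ (-48 / 100 : ℝ))
      (fun e => Z * X ^ (-48 / 100 : ℝ) < N e) (fun e => by simp [le_or_gt])
      (fun e h => not_lt.2 h), HS_add X Z Φ α (fun e => Z * X ^ (-48 / 100 : ℝ) < N e)
      (fun e => Z * X ^ (-48 / 100 : ℝ) < N e ∧ N e < X ^ (1 / 3 : ℝ))
      (fun e => Z * X ^ (-48 / 100 : ℝ) < N e ∧ X ^ (1 / 3 : ℝ) ≤ N e)
      (fun e => ⟨fun h => (lt_or_ge (N e) (X ^ (1 / 3 : ℝ))).imp (fun k => ⟨h, k⟩) fun k => ⟨h, k⟩,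
        fun h => h.elim And.left And.left⟩)
      (fun e h k => not_lt.2 k.2 h.2)]
    refine (norm_add_le _ _).trans ((add_le_add a ((norm_add_le _ _).trans (add_le_add b c))).trans_eq ?_)
    ring
  obtain ⟨mi, me⟩ := main (X := X) hL Φ α (lt_of_lt_of_le one_pos Y1) hj
  have bd := bound hj (by linarith) Y1 YX (by linarith) E0 mi s3
    (fun Z hZ => by rw [hE]; exact SR_tail X1 hW hα hZ)
  have sY := s3 _ le_rfl YX
  have sp : ‖(((Real.sqrt Real.pi)⁻¹ : ℝ) : ℂ)‖ ≤ 1 := by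
    rw [norm_real, Real.norm_of_nonneg (by positivity)]
    exact inv_le_one_of_one_le₀ (Real.one_le_sqrt.2 (by linarith [Real.pi_gt_three]))
  have jn : ‖((j / 2 : ℝ) : ℂ)‖ ≤ 1 := by
    rw [norm_real, Real.norm_of_nonneg (by positivity)]
    have : (j : ℝ) ≤ 1 := by exact_mod_cast hj
    linarith
  rw [me, norm_mul]
  refine (mul_le_of_le_one_left (norm_nonneg _) sp).trans ((norm_sub_le _ _).trans ?_)
  rw [norm_mul]
  have t2 := (mul_le_of_le_one_left (norm_nonneg (SR X (X ^ (49 / 100 : ℝ)) Φ α)) jn).trans sY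
  have e : X ^ (5 / 6 : ℝ) / LL X ^ 10 = LL X ^ 2 * D := by
    rw [hD]
    field_simp
  rw [e]
  have q1 : 14 * Real.log X ^ 2 ≤ LL X := by nlinarith
  have q2 : 14 + E ≤ LL X := by nlinarith
  have q3 : 12 * Real.log X ^ 2 + 3 + E ≤ LL X ^ 2 := by nlinarith
  have q4 := mul_le_mul_of_nonneg_right q3 (show 0 ≤ D by linarith)
  nlinarith

end Vale.Agent.P006.M
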