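import Vale.Agent.P006.M

/-! P006 main branch: the log-normal cut. -/

noncomputable section
open MeasureTheory Filter Topology Set
open scoped Classical

namespace Vale.Agent.P006.M
open Vale.Agent.P026
namespace HLM

def g0 (u : ℝ) : ℝ := Real.exp (-u ^ 2)

lemma g0_pos (u : ℝ) : 0 < g0 u := Real.exp_pos _

lemma g0_int : Integrable g0 := by
  refine (integrable_exp_neg_mul_sq one_pos).congr (Eventually.of_forall fun u => ?_)
  simp [g0]

lemma g1_int : Integrable fun u => u * g0 u := by
  refine (integrable_mul_exp_neg_mul_sq one_pos).congr (Eventually.of_forall fun u => ?_)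
  simp [g0]

lemma g0_tot : ∫ u, g0 u = Real.sqrt Real.pi := by
  have := integral_gaussian 1
  simpa [g0] using this

lemma trans (f : ℝ → ℝ) (a b : ℝ) : ∫ v in Ioi b, f (v - a) = ∫ u in Ioi (b - a), f u := by
  rw [← integral_indicator measurableSet_Ioi, ← integral_indicator measurableSet_Ioi,
    ← integral_sub_right_eq_self ((Ioi (b - a)).indicator f) a]
  congr 1
  funext v
  simp only [indicator, mem_Ioi, sub_lt_sub_iff_right]

lemma VV_eq (Z x : ℝ) (hZ : 0 < Z) (hx : 0 < x) : VV Z x = g0 (Real.log Z - Real.log x) := by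
  unfold VV g0
  rw [Real.log_div hx.ne' hZ.ne']
  congr 1
  ring

lemma e1 (Y x : ℝ) (hY : 0 < Y) (hx : 0 < x) : EqOn (fun Z => VV Z x / Z)
    (fun Z => Z⁻¹ • (fun v => g0 (v - Real.log x)) (Real.log Z)) (Ioi Y) := by
  intro Z hZ
  simp only [smul_eq_mul]
  rw [VV_eq Z x (hY.trans hZ) hx]
  ring

lemma e2 (Y x : ℝ) (hY : 0 < Y) (hx : 0 < x) : EqOn (fun Z => Real.log Z * (VV Z x / Z))
    (fun Z => Z⁻¹ • (fun v => v * g0 (v - Real.log x)) (Real.log Z)) (Ioi Y) := by
  intro Z hZ
  simp only [smul_eq_mul]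
  rw [VV_eq Z x (hY.trans hZ) hx]
  ring

lemma hi_eq (Y x : ℝ) (hY : 0 < Y) (hx : 0 < x) :
    hiW Y x = (Real.sqrt Real.pi)⁻¹ * ∫ u in Ioi (Real.log Y - Real.log x), g0 u := by
  unfold hiW
  rw [setIntegral_congr_fun measurableSet_Ioi (e1 Y x hY hx),
    integral_comp_log_Ioi (fun v => g0 (v - Real.log x)) hY, trans]

lemma ftc (c : ℝ) : ∫ u in Ioi c, u * g0 u = g0 c / 2 := by
  have h : ∀ u ∈ Ici c, HasDerivAt (fun u => -(g0 u) / 2) (u * g0 u) u := by
    intro u _
    have := (((hasDerivAt_pow 2 u).neg.exp).neg).div_const 2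
    refine this.congr_deriv ?_
    simp only [g0, Pi.neg_apply]
    norm_num
    ring
  have t : Tendsto (fun u => -(g0 u) / 2) atTop (𝓝 (-0 / 2)) := by
    refine Tendsto.div_const (Tendsto.neg ?_) 2
    exact Real.tendsto_exp_neg_atTop_nhds_zero.comp (tendsto_pow_atTop (n := 2) (by norm_num))
  rw [integral_Ioi_of_hasDerivAt_of_tendsto' h g1_int.integrableOn t]
  ring

lemma tail (c : ℝ) (hc : c ≤ 0) : Real.sqrt Real.pi - ∫ u in Ioi c, g0 u ≤ g0 c * Real.sqrt Real.pi := by
  have h := intervalIntegral.integral_Iic_add_Ioi (b := c) g0_int.integrableOn g0_int.integrableOn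
  have i2 : Integrable fun u => g0 c * g0 (u - c) := (g0_int.comp_sub_right c).const_mul _
  have h1 : ∫ u in Iic c, g0 u ≤ ∫ u in Iic c, g0 c * g0 (u - c) := by
    refine setIntegral_mono_on g0_int.integrableOn i2.integrableOn measurableSet_Iic fun u hu => ?_
    unfold g0
    rw [← Real.exp_add]
    refine Real.exp_le_exp.2 ?_
    have : u ≤ c := hu
    nlinarith [mul_nonneg (sub_nonneg.2 this) (neg_nonneg.2 hc)]
  have h2 : ∫ u in Iic c, g0 c * g0 (u - c) ≤ ∫ u, g0 c * g0 (u - c) :=
    setIntegral_le_integral i2 (Eventually.of_forall fun u => (mul_pos (g0_pos _) (g0_pos _)).le)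
  have h3 : ∫ u, g0 c * g0 (u - c) = g0 c * Real.sqrt Real.pi := by
    rw [integral_const_mul, integral_sub_right_eq_self g0 c, g0_tot]
  rw [g0_tot] at h
  linarith

end HLM

open HLM in
theorem hlS : HLStmt := by
  intro Y hY
  have p0 : 0 < Real.sqrt Real.pi := Real.sqrt_pos.2 Real.pi_pos
  have nn : 0 ≤ᵐ[volume] g0 := Eventually.of_forall fun u => (g0_pos u).le
  refine ⟨fun x hx y hy hxy => ?_, fun x hx => ?_⟩
  · rw [hi_eq Y x hY hx, hi_eq Y y hY hy]
    refine mul_le_mul_of_nonneg_left ?_ (by positivity)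
    refine setIntegral_mono_set g0_int.integrableOn (ae_restrict_of_ae nn) (LE.le.eventuallyLE ?_)
    exact Ioi_subset_Ioi (by linarith [Real.log_le_log hx hxy])
  have j1 : Integrable fun v => g0 (v - Real.log x) := g0_int.comp_sub_right _
  have j2 : Integrable fun v => (v - Real.log x) * g0 (v - Real.log x) := g1_int.comp_sub_right _
  have j3 : Integrable fun v => v * g0 (v - Real.log x) := by
    refine (j2.add (j1.const_mul (Real.log x))).congr (Eventually.of_forall fun v => ?_)
    simp only [Pi.add_apply]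
    ring
  refine ⟨?_, ?_, fun hxy => ?_, ?_, ?_, ?_⟩
  · rw [hi_eq Y x hY hx]
    exact mul_nonneg (by positivity) (integral_nonneg fun u => (g0_pos u).le)
  · rw [hi_eq Y x hY hx, inv_mul_le_iff₀ p0, mul_one, ← g0_tot]
    exact setIntegral_le_integral g0_int nn
  · rw [hi_eq Y x hY hx, VV_eq Y x hY hx]
    have := tail (Real.log Y - Real.log x) (by linarith [Real.log_le_log hY hxy])
    refine le_of_mul_le_mul_right ?_ p0
    refine le_trans (le_of_eq ?_) this
    field_simp
  · exact ((integrableOn_comp_log_Ioi _ hY).2 j1.integrableOn).congr_fun (e1 Y x hY hx).symm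
      measurableSet_Ioi
  · exact ((integrableOn_comp_log_Ioi _ hY).2 j3.integrableOn).congr_fun (e2 Y x hY hx).symm
      measurableSet_Ioi
  · rw [hi_eq Y x hY hx, setIntegral_congr_fun measurableSet_Ioi (e2 Y x hY hx),
      integral_comp_log_Ioi (fun v => v * g0 (v - Real.log x)) hY, VV_eq Y x hY hx, ← ftc,
      ← trans g0, ← trans (fun u => u * g0 u), ← integral_sub j3.integrableOn j2.integrableOn,
      mul_left_comm, ← integral_const_mul]
    congr 2
    funext v
    ring

end Vale.Agent.P006.M
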