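import Vale.Agent.P006.M.LOa

/-! The low part of the Heath-Brown sums. -/

noncomputable section
open Complex MeasureTheory Filter Topology
open scoped Classical ComplexConjugate

namespace Vale.Agent.P006.M
open Vale.Agent.P026 Vale.Agent.P006 W1
open Vale.Agent.P006.Vau (PS Lam b8 mem_PS N1 N0 N_one)

namespace LOM

def PI (X : ℝ) : Finset (Fin 6 → O) := Fintype.piFinset (fun _ : Fin 6 => PS (2 * X))
def kk (x : Fin 6 → O) : Fin 6 → ℕ := fun i => Nat.log 2 (Nn (x i))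
def good (X : ℝ) (k : Fin 6 → ℕ) : Prop :=
  (∀ i, (2 : ℝ) ^ k i ≤ X ^ (491 / 1000 : ℝ)) ∧ (2 : ℝ) ^ (∑ i, k i) ≤ 2 * X
def SS (X : ℝ) : Finset (Fin 6 → ℕ) := ((PI X).image kk).filter (good X)

theorem mPI {X : ℝ} {x : Fin 6 → O} (h : x ∈ PI X) (i : Fin 6) : Prim (x i) ∧ N (x i) ≤ 2 * X :=
  mem_PS.1 (Fintype.mem_piFinset.1 h i)

theorem card_PI {X : ℝ} (hX : 0 ≤ X) : ((PI X).card : ℝ) ≤ (32 * X) ^ 6 := by
  have := bas.b3.card_le (2 * X) (PS (2 * X)) (by linarith) fun a ha =>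
    ⟨bas.b2.ne _ (mem_PS.1 ha).1, (mem_PS.1 ha).2⟩
  rw [PI, Fintype.card_piFinset, Finset.prod_const, Finset.card_univ, Fintype.card_fin]
  push_cast
  exact pow_le_pow_left₀ (Nat.cast_nonneg _) (by linarith) 6

theorem prod_VB (X : ℝ) : ∏ i, VB X i = 2 * X := by simp [VB]

theorem sum_box (X t : ℝ) (g : Fin 6 → O → ℂ) :
    ∑ k ∈ SS X, MS X (GG X t g k) del = ∑ x ∈ PI X, if good X (kk x) then
      (∏ i, low X g i (x i) * (N (x i) : ℂ) ^ (-((Real.log X)⁻¹ : ℝ) - t * I : ℂ)) * del (∏ i, x i)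
      else 0 := by
  unfold MS
  rw [Finset.sum_comm]
  refine Finset.sum_congr rfl fun x hx => ?_
  have e : ∀ k : Fin 6 → ℕ, (∏ i, GG X t g k i (x i)) * del (∏ i, x i) = if kk x = k then
      (∏ i, low X g i (x i) * (N (x i) : ℂ) ^ (-((Real.log X)⁻¹ : ℝ) - t * I : ℂ)) * del (∏ i, x i)
      else 0 := fun k => by
    unfold GG
    rw [Finset.prod_ite_zero]
    by_cases c : kk x = k
    · rw [if_pos c, if_pos (show ∀ i ∈ Finset.univ, Nat.log 2 (Nn (x i)) = k i from
        fun i _ => congrFun c i)]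
    · rw [if_neg c, if_neg fun h => c (funext fun i => h i (Finset.mem_univ _)), zero_mul]
  simp only [e, Finset.sum_ite_eq]
  have m : kk x ∈ SS X ↔ good X (kk x) :=
    ⟨fun h => (Finset.mem_filter.1 h).2, fun h => Finset.mem_filter.2
      ⟨Finset.mem_image_of_mem _ hx, h⟩⟩
  simp only [m]

theorem cp {X : ℝ} (hX : 0 < X) {x : Fin 6 → O} (h : ∀ i, Prim (x i)) (w : ℂ) :
    ((N (∏ i, x i) / X : ℝ) : ℂ) ^ w = (X : ℂ) ^ (-w) * ∏ i, (N (x i) : ℂ) ^ w := by
  have p : ∀ i, 0 < N (x i) := fun i => zero_lt_one.trans_le (N1 (h i))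
  have q : 0 < N (∏ i, x i) := zero_lt_one.trans_le (N1 (prim_prod h))
  simp only [pw (p _), pw hX, pw (div_pos q hX)]
  rw [← Complex.exp_sum, ← Complex.exp_add, Real.log_div q.ne' hX.ne', N_prod,
    Real.log_prod fun i _ => (p i).ne']
  congr 1
  push_cast
  rw [← Finset.mul_sum]
  ring

theorem integ {c : ℝ → ℂ} (hc : Integrable c) {y : ℝ} (hy : 0 < y) (a : ℝ) :
    Integrable fun t : ℝ => c t * (y : ℂ) ^ (-(a : ℝ) - t * I : ℂ) :=
  hc.mul_bdd (c := y ^ (-a)) (Continuous.const_cpow (by fun_prop)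
    (Or.inl (by exact_mod_cast hy.ne'))).aestronglyMeasurable (.of_forall fun t => by
      rw [Complex.norm_cpow_eq_rpow_re_of_pos hy]; simp)

end LOM

open LOM in
theorem loS (hG : GRStmt) (hL : HLStmt) (hB : BOXStmt) : LOStmt := by
  intro K ε hε
  have c0 := Z1.cst_pos
  set C1 : ℝ := 32 ^ 6 * 2 * (1 + cst) with hC1
  have C10 : 0 < C1 := by positivity
  have t1 := (tendsto_rpow_atTop (show (0 : ℝ) < 1 / 10 by norm_num)).eventually_ge_atTop 2
  have t2 := (tendsto_rpow_atTop (show (0 : ℝ) < 5 / 6 by norm_num)).eventually_ge_atTop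
    (3 * (C1 * (4 + |K|)) / ε)
  filter_upwards [hG 10 (1 / 1000) (by norm_num), hG 1 1 one_pos,
    hB (ε / (9 * (|K| + 1))) (by positivity), t1, t2] with X g1 g2 hb u1 u2 Φ g hW hg
  obtain ⟨hX, l2, -, -, -, -, -, hE, -, -⟩ := g1
  obtain ⟨-, -, -, -, -, q1, q2, -, -, L1⟩ := g2
  rw [Real.rpow_one, Real.rpow_one] at q1 q2
  have X0 : 0 < X := by linarith
  have X1 : 1 ≤ X := by linarith
  have r1 : 2 * X ^ (1 / 3 : ℝ) ≤ X ^ (491 / 1000 : ℝ) := by
    refine (mul_le_mul_of_nonneg_right u1 (by positivity)).trans ?_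
    rw [← Real.rpow_add X0]
    exact Real.rpow_le_rpow_of_exponent_le X1 (by norm_num)
  have r2 : 2 * X ^ (491 / 1000 : ℝ) ≤ X := by
    refine (mul_le_mul_of_nonneg_right u1 (by positivity)).trans ?_
    rw [← Real.rpow_add X0]
    exact (Real.rpow_le_rpow_of_exponent_le X1 (by norm_num)).trans (Real.rpow_one X).le
  have K0 : 0 ≤ K := (norm_nonneg _).trans (hW.le 1 one_pos)
  rw [abs_of_nonneg K0] at hb u2
  have lw := fun i n hn hN => low_le hL hg hX r1 hE i (n := n) hn hN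
  have V0 : ∀ i, 0 ≤ VB X i := fun i => zero_le_one.trans (VB1 hX i)
  have pl : ∀ x ∈ PI X, ‖∏ i, low X g i (x i)‖ ≤ 2 * X := fun x hx => by
    rw [norm_prod, ← prod_VB]
    exact Finset.prod_le_prod (fun _ _ => norm_nonneg _) fun i _ => (lw i _ (mPI hx i).1 (mPI hx i).2).1
  have X10 : 0 < X ^ (-10 : ℝ) := by positivity
  set A : (Fin 6 → O) → ℂ := fun x => if good X (kk x) then
    (∏ i, low X g i (x i)) * del (∏ i, x i) else 0 with hA
  have err : ∀ x ∈ PI X, ‖(∏ i, low X g i (x i)) * FF X Φ (∏ i, x i) - A x * Φ (N (∏ i, x i) / X)‖ ≤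
      2 * X * (1 + cst) * (1 + K) * X ^ (-10 : ℝ) := by
    intro x hx
    have pp := prim_prod fun i => (mPI hx i).1
    have d1 := del_le pp
    have y0 : 0 < N (∏ i, x i) / X := div_pos (zero_lt_one.trans_le (N1 pp)) X0
    have f1 := hW.le _ y0
    have b0 := pl x hx
    simp only [hA, FF]
    by_cases c1 : good X (kk x) <;> by_cases c2 : N (∏ i, x i) ≤ 2 * X
    · rw [if_pos c1, if_pos c2, mul_assoc, sub_self, norm_zero]; positivity
    · have y2 : 2 ≤ N (∏ i, x i) / X := by rw [le_div_iff₀ X0]; linarith [not_le.1 c2]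
      have f2 := (hW.tail _ y2).trans (mul_le_of_le_one_right X10.le
        (Real.rpow_le_one_of_one_le_of_nonpos (by linarith) (by norm_num)))
      rw [if_pos c1, if_neg c2, mul_zero, zero_sub, norm_neg, norm_mul, norm_mul]
      calc _ ≤ 2 * X * (1 + cst) * X ^ (-10 : ℝ) := by gcongr
        _ = 2 * X * (1 + cst) * 1 * X ^ (-10 : ℝ) := by ring
        _ ≤ _ := by gcongr; linarith
    · have c3 : (2 : ℝ) ^ (∑ i, kk x i) ≤ 2 * X := by
        refine le_trans ?_ c2
        rw [N_prod, ← Finset.prod_pow_eq_pow_sum]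
        exact Finset.prod_le_prod (fun _ _ => by positivity) fun i _ =>
          ((shell (mPI hx i).1 _).1 rfl).1
      obtain ⟨j, hj⟩ := not_forall.1 fun h => c1 ⟨h, c3⟩
      have hj2 : X ^ (491 / 1000 : ℝ) < N (x j) :=
        (not_le.1 hj).trans_le ((shell (mPI hx j).1 _).1 rfl).1
      have b1 : ‖∏ i, low X g i (x i)‖ ≤ 2 * X * X ^ (-10 : ℝ) := by
        have e : 2 * X * X ^ (-10 : ℝ) = ∏ i, VB X i * if i = j then X ^ (-10 : ℝ) else 1 := by
          rw [Finset.prod_mul_distrib, prod_VB]; simp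
        rw [norm_prod, e]
        refine Finset.prod_le_prod (fun _ _ => norm_nonneg _) fun i _ => ?_
        split_ifs with h
        · subst h; exact (lw i _ (mPI hx i).1 (mPI hx i).2).2 hj2
        · rw [mul_one]; exact (lw i _ (mPI hx i).1 (mPI hx i).2).1
      rw [if_neg c1, if_pos c2, zero_mul, sub_zero, norm_mul, norm_mul]
      calc _ ≤ 2 * X * X ^ (-10 : ℝ) * ((1 + cst) * (1 + K)) := by gcongr; linarith
        _ = _ := by ring
    · rw [if_neg c1, if_neg c2, zero_mul, mul_zero, sub_self, norm_zero]; positivity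
  obtain ⟨c, ci, ci8, rep, m1, m2⟩ := hW.rep
  set la : ℝ := (Real.log X)⁻¹ with hla
  have y0 : ∀ x ∈ PI X, 0 < N (∏ i, x i) / X := fun x hx =>
    div_pos (zero_lt_one.trans_le (N1 (prim_prod fun i => (mPI hx i).1))) X0
  have e1 : ∑ x ∈ PI X, A x * Φ (N (∏ i, x i) / X) = ∫ t : ℝ, c t * ((X : ℂ) ^ (-(-(la : ℂ) - t * I)) *
      ∑ k ∈ SS X, MS X (LOM.GG X t g k) del) := by
    rw [Finset.sum_congr rfl fun x hx => by rw [rep _ (y0 x hx), ← integral_const_mul],
      ← integral_finsetSum _ fun x hx => (integ ci (y0 x hx) la).const_mul _]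
    refine integral_congr_ae (.of_forall fun t => ?_)
    simp only [sum_box, Finset.mul_sum]
    refine Finset.sum_congr rfl fun x hx => ?_
    rw [cp X0 fun i => (mPI hx i).1, Finset.prod_mul_distrib]
    simp only [hA, ← hla]
    split_ifs <;> ring
  have l1 : 1 ≤ Real.log X := by
    rw [Real.le_log_iff_exp_le X0]
    linarith [Real.exp_one_lt_d9]
  have nX : ∀ t : ℝ, ‖(X : ℂ) ^ (-(-(la : ℂ) - t * I))‖ ≤ 3 := fun t => by
    rw [Complex.norm_cpow_eq_rpow_re_of_pos X0, Real.rpow_def_of_pos X0]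
    have : Real.log X * (-(-(la : ℂ) - t * I)).re = 1 := by
      simp [hla]
      field_simp
    rw [this]
    linarith [Real.exp_one_lt_d9]
  have cP := card_PI X0.le
  have ll0 : 0 < ll X := by linarith
  set E1 : ℝ := ε / (9 * (K + 1)) * X ^ (5 / 6 : ℝ) / ll X with hE1
  have E10 : 0 ≤ E1 := by positivity
  have bx : ∀ t : ℝ, ‖∑ k ∈ SS X, MS X (LOM.GG X t g k) del‖ ≤ E1 + C1 * X⁻¹ * (1 + |t|) ^ 8 := fun t => by
    by_cases ht : |t| ≤ X
    · have := hb (-t) (SS X) (LOM.GG X t g) (by rwa [abs_neg]) fun k hk => by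
        have gk := (Finset.mem_filter.1 hk).2
        exact ⟨fun i => ⟨gk.1 i, atom hL hg hX t k i (by linarith [gk.1 i])⟩, gk.2⟩
      exact ((norm_sum_le _ _).trans this).trans (le_add_of_nonneg_right (by positivity))
    · refine le_trans ?_ (le_add_of_nonneg_left E10)
      have b1 : ‖∑ k ∈ SS X, MS X (LOM.GG X t g k) del‖ ≤ (PI X).card • (2 * X * (1 + cst)) := by
        rw [sum_box]
        refine (norm_sum_le _ _).trans (Finset.sum_le_card_nsmul _ _ _ fun x hx => ?_)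
        split_ifs
        · have b2 : ‖∏ i, (N (x i) : ℂ) ^ (-(la : ℂ) - t * I : ℂ)‖ ≤ 1 := by
            rw [norm_prod]
            refine Finset.prod_le_one (fun _ _ => norm_nonneg _) fun i _ => ?_
            have n1 := N1 (mPI hx i).1
            rw [Complex.norm_cpow_eq_rpow_re_of_pos (by linarith)]
            refine Real.rpow_le_one_of_one_le_of_nonpos n1 ?_
            simp [hla]
            linarith
          have b3 := pl x hx
          have b4 := del_le (prim_prod fun i => (mPI hx i).1)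
          rw [Finset.prod_mul_distrib, norm_mul, norm_mul]
          calc _ ≤ 2 * X * 1 * (1 + cst) := by gcongr
            _ = _ := by ring
        · rw [norm_zero]; positivity
      rw [nsmul_eq_mul] at b1
      have b5 : X ^ 8 ≤ (1 + |t|) ^ 8 := pow_le_pow_left₀ X0.le (by linarith [not_le.1 ht]) 8
      calc _ ≤ (32 * X) ^ 6 * (2 * X * (1 + cst)) := b1.trans (by gcongr)
        _ = C1 * X⁻¹ * X ^ 8 := by rw [hC1]; field_simp
        _ ≤ _ := by gcongr
  have n1 : ‖∑ x ∈ PI X, A x * Φ (N (∏ i, x i) / X)‖ ≤ 3 * E1 * (K * ll X) + 3 * (C1 * X⁻¹) * LL X := by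
    rw [e1]
    refine (norm_integral_le_of_norm_le ((ci.norm.const_mul (3 * E1)).add
      (ci8.const_mul (3 * (C1 * X⁻¹)))) (.of_forall fun t => ?_)).trans ?_
    · have a1 := nX t
      have a2 := bx t
      rw [norm_mul, norm_mul, Pi.add_apply]
      calc _ ≤ ‖c t‖ * (3 * (E1 + C1 * X⁻¹ * (1 + |t|) ^ 8)) := by gcongr
        _ = _ := by ring
    · rw [integral_add' (ci.norm.const_mul _) (ci8.const_mul _), integral_const_mul, integral_const_mul]
      gcongr
  have n2 : ‖MS X (low X g) (FF X Φ) - ∑ x ∈ PI X, A x * Φ (N (∏ i, x i) / X)‖ ≤ C1 * (1 + K) := by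
    unfold MS
    rw [← PI, ← Finset.sum_sub_distrib]
    refine (norm_sum_le _ _).trans ((Finset.sum_le_card_nsmul _ _ _ err).trans ?_)
    have a1 : X ^ (-10 : ℝ) ≤ (X ^ 7)⁻¹ := by
      rw [← Real.rpow_natCast, ← Real.rpow_neg X0.le]
      exact Real.rpow_le_rpow_of_exponent_le X1 (by norm_num)
    rw [nsmul_eq_mul]
    calc _ ≤ (32 * X) ^ 6 * (2 * X * (1 + cst) * (1 + K) * (X ^ 7)⁻¹) := by gcongr
      _ = _ := by rw [hC1]; field_simp
  have n3 : 3 * E1 * (K * ll X) ≤ ε / 3 * X ^ (5 / 6 : ℝ) := by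
    have : 3 * E1 * (K * ll X) = ε / 3 * X ^ (5 / 6 : ℝ) * (K / (K + 1)) := by
      rw [hE1]; field_simp; ring
    rw [this]
    exact mul_le_of_le_one_right (by positivity) (div_le_one_of_le₀ (by linarith) (by linarith))
  have n4 : 3 * (C1 * X⁻¹) * LL X ≤ 3 * C1 := by
    calc _ ≤ 3 * (C1 * X⁻¹) * X := by gcongr; linarith
      _ = _ := by field_simp
  rw [div_le_iff₀ hε] at u2
  have n5 := norm_le_norm_add_norm_sub' (MS X (low X g) (FF X Φ))
    (∑ x ∈ PI X, A x * Φ (N (∏ i, x i) / X))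
  have n6 : 0 ≤ ε * X ^ (5 / 6 : ℝ) := by positivity
  nlinarith

end Vale.Agent.P006.M
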