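import Vale.Agent.P006.M
import Vale.Agent.P006.Mer

noncomputable section
open Complex MeasureTheory Filter Topology
open scoped Classical ComplexConjugate

namespace Vale.Agent.P006.M
open Vale.Agent.P026 Vale.Agent.P006
open Vale.Agent.P006.Vau (PS Lam)

namespace NRMM
open Vale.Agent.P026.W1 (bas)

lemma N_prod {ι : Type} (s : Finset ι) (x : ι → O) : N (∏ i ∈ s, x i) = ∏ i ∈ s, N (x i) := by
  induction s using Finset.induction_on with
  | empty => simp [Vau.N_one]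
  | insert a s ha ih => rw [Finset.prod_insert ha, Finset.prod_insert ha, bas.b1.N_mul, ih]

lemma atom {w Y V t : ℝ} {g : O → ℂ} (h : Atom w Y V t g) {n : O} (hn : SP n) :
    (g n ≠ 0 → Rough w n ∧ Y ≤ N n ∧ N n < 2 * Y) ∧ ‖g n‖ ^ 2 ≤ V ^ 2 := by
  obtain ⟨η, v1, v2, hη, -, -, hv, hg⟩ := h
  rw [hg n hn]
  split_ifs with hc
  · refine ⟨fun _ => hc, ?_⟩
    have h1 := Vau.N1 hn.1
    obtain ⟨a1, a2, a3, a4⟩ := hv (N n) h1 hc.2.2
    have e1 : ‖η‖ = 1 := by rcases hη with rfl | rfl <;> simp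
    rw [norm_mul, norm_mul, norm_pow, e1, one_pow, one_mul, norm_real,
      norm_cpow_eq_rpow_re_of_pos (by linarith), Real.norm_of_nonneg (by positivity)]
    simp only [mul_re, ofReal_re, I_re, mul_zero, ofReal_im, I_im, mul_one, sub_self,
      Real.rpow_zero]
    refine pow_le_pow_left₀ (by positivity) ?_ 2
    exact (mul_le_of_le_one_right a1 a4).trans a2
  · exact ⟨fun h => absurd rfl h, by simp; positivity⟩

lemma sp_of {b : O} (hb : SP b) {x : Fin 6 → O} (hx : ∀ i, Prim (x i)) (h : ∏ i, x i = b) (i : Fin 6) :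
    SP (x i) :=
  ⟨hx i, hb.2.squarefree_of_dvd (h ▸ Finset.dvd_prod_of_mem x (Finset.mem_univ i))⟩

lemma fibre {b : O} (hb : SP b) (F : Finset (Fin 6 → O))
    (hF : ∀ x ∈ F, (∀ i, Prim (x i)) ∧ ∏ i, x i = b) : F.card ≤ 6 ^ (pf b).card := by
  have b0 := bas.b2.ne b hb.1
  let φ : (Fin 6 → O) → (pf b → Fin 6) := fun x p => if h : ∃ i, p.1 ∣ x i then h.choose else 0
  have key : ∀ x ∈ F, ∀ y ∈ F, φ x = φ y → ∀ i, pf (x i) ⊆ pf (y i) := by
    intro x hx y hy hxy i p hp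
    obtain ⟨x1, x2⟩ := hF x hx
    obtain ⟨y1, y2⟩ := hF y hy
    obtain ⟨p1, p2, p3⟩ := (Vau.b8.mem _ p (bas.b2.ne _ (x1 i))).1 hp
    have pb : p ∣ b := p3.trans (x2 ▸ Finset.dvd_prod_of_mem x (Finset.mem_univ i))
    have pm : p ∈ pf b := (Vau.b8.mem _ p b0).2 ⟨p1, p2, pb⟩
    have ex : ∃ i, p ∣ x i := ⟨i, p3⟩
    have ey : ∃ i, p ∣ y i := by
      rw [← y2] at pb
      obtain ⟨j, -, hj⟩ := (p1.dvd_finsetProd_iff y).1 pb
      exact ⟨j, hj⟩
    have e1 : φ x ⟨p, pm⟩ = i := by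
      simp only [φ, dif_pos ex]
      by_contra hne
      have h1 := ex.choose_spec
      have h2 : x ex.choose * x i ∣ b := by
        rw [← x2, ← Finset.prod_pair hne]
        exact Finset.prod_dvd_prod_of_subset _ _ _ (Finset.subset_univ _)
      exact p1.not_unit (hb.2 p ((mul_dvd_mul h1 p3).trans h2))
    have e2 : p ∣ y (φ y ⟨p, pm⟩) := by
      simp only [φ, dif_pos ey]
      exact ey.choose_spec
    rw [← hxy, e1] at e2
    exact (Vau.b8.mem _ p (bas.b2.ne _ (y1 i))).2 ⟨p1, p2, e2⟩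
  have inj : Set.InjOn φ F := by
    intro x hx y hy hxy
    funext i
    have sx := sp_of hb (hF x hx).1 (hF x hx).2 i
    have sy := sp_of hb (hF y hy).1 (hF y hy).2 i
    rw [Mer.sqf_eq sx.1 sx.2, Mer.sqf_eq sy.1 sy.2,
      Finset.Subset.antisymm (key x hx y hy hxy i) (key y hy x hx hxy.symm i)]
  have := Finset.card_le_card_of_injOn φ (fun x _ => Finset.mem_coe.2 (Finset.mem_univ (φ x))) inj
  simpa using this

lemma ome {b : O} (hb : Prim b) {x : Fin 6 → O} (hx : ∀ i, Prim (x i)) (h : ∏ i, x i = b) :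
    (pf b).card ≤ ∑ i, (pf (x i)).card := by
  refine le_trans (Finset.card_le_card ?_) (Finset.card_biUnion_le (t := fun i => pf (x i)))
  intro p hp
  obtain ⟨p1, p2, p3⟩ := (Vau.b8.mem _ p (bas.b2.ne _ hb)).1 hp
  rw [← h] at p3
  obtain ⟨j, -, hj⟩ := (p1.dvd_finsetProd_iff x).1 p3
  exact Finset.mem_biUnion.2 ⟨j, Finset.mem_univ _, (Vau.b8.mem _ p (bas.b2.ne _ (hx j))).2 ⟨p1, p2, hj⟩⟩

def hh (g : O → ℂ) (n : O) : ℝ := if SP n then 6 ^ (pf n).card * ‖g n‖ ^ 2 else 0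

lemma hh0 (g : O → ℂ) (n : O) : 0 ≤ hh g n := by
  unfold hh; split_ifs <;> positivity

lemma pi_mem {X : ℝ} {J : Finset (Fin 6)} {x : Fin 6 → O}
    (hx : x ∈ Fintype.piFinset (fun i : Fin 6 => if i ∈ J then PS (2 * X) else {1})) :
    (∀ i, Prim (x i)) ∧ ∀ i, i ∉ J → x i = 1 := by
  have h := Fintype.mem_piFinset.1 hx
  refine ⟨fun i => ?_, fun i hi => ?_⟩
  · have := h i
    split_ifs at this
    · exact (Vau.mem_PS.1 this).1
    · rw [Finset.mem_singleton.1 this]; exact bas.b2.one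
  · have := h i
    rw [if_neg hi] at this
    exact Finset.mem_singleton.1 this

lemma l2 (X B : ℝ) (g : Fin 6 → O → ℂ) (J : Finset (Fin 6)) :
    ∑ b ∈ SQ B, ‖CV X g J b‖ ^ 2 ≤ ∏ i ∈ J, ∑ n ∈ PS (2 * X), hh (g i) n := by
  set P := Fintype.piFinset (fun i : Fin 6 => if i ∈ J then PS (2 * X) else {1}) with hP
  have h1 : ∀ b ∈ SQ B, ‖CV X g J b‖ ^ 2 ≤
      ∑ x ∈ P, if ∏ i, x i = b then ∏ i ∈ J, hh (g i) (x i) else 0 := by
    intro b hb
    have sb := (((memS bas).1 B b).1 hb).1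
    unfold CV
    rw [← hP, ← Finset.sum_filter, ← Finset.sum_filter]
    set F := P.filter fun x => ∏ i, x i = b
    have hF : ∀ x ∈ F, (∀ i, Prim (x i)) ∧ ∏ i, x i = b := fun x hx =>
      ⟨(pi_mem (Finset.mem_filter.1 hx).1).1, (Finset.mem_filter.1 hx).2⟩
    have c1 : (F.card : ℝ) ≤ 6 ^ (pf b).card := by exact_mod_cast fibre sb F hF
    calc ‖∑ x ∈ F, ∏ i ∈ J, g i (x i)‖ ^ 2 ≤ (∑ x ∈ F, ‖∏ i ∈ J, g i (x i)‖) ^ 2 :=
          pow_le_pow_left₀ (norm_nonneg _) (norm_sum_le _ _) 2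
      _ ≤ F.card * ∑ x ∈ F, ‖∏ i ∈ J, g i (x i)‖ ^ 2 := sq_sum_le_card_mul_sum_sq
      _ ≤ 6 ^ (pf b).card * ∑ x ∈ F, ‖∏ i ∈ J, g i (x i)‖ ^ 2 := by gcongr
      _ = ∑ x ∈ F, 6 ^ (pf b).card * ‖∏ i ∈ J, g i (x i)‖ ^ 2 := Finset.mul_sum _ _ _
      _ ≤ _ := by
          refine Finset.sum_le_sum fun x hx => ?_
          obtain ⟨x1, x2⟩ := hF x hx
          have x3 := (pi_mem (Finset.mem_filter.1 hx).1).2
          have e1 : ∑ i, (pf (x i)).card = ∑ i ∈ J, (pf (x i)).card := by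
            refine (Finset.sum_subset (Finset.subset_univ J) fun i _ hi => ?_).symm
            rw [x3 i hi, Vau.b8.pf_one, Finset.card_empty]
          have e2 : ∏ i ∈ J, hh (g i) (x i) =
              6 ^ (∑ i ∈ J, (pf (x i)).card) * ‖∏ i ∈ J, g i (x i)‖ ^ 2 := by
            rw [norm_prod, ← Finset.prod_pow, ← Finset.prod_pow_eq_pow_sum,
              ← Finset.prod_mul_distrib]
            exact Finset.prod_congr rfl fun i _ => if_pos (sp_of sb x1 x2 i)
          rw [e2, ← e1]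
          exact mul_le_mul_of_nonneg_right
            (pow_le_pow_right₀ (by norm_num) (ome sb.1 x1 x2)) (by positivity)
  refine (Finset.sum_le_sum h1).trans ?_
  rw [Finset.sum_comm]
  have h2 : ∀ x ∈ P, (∑ b ∈ SQ B, if ∏ i, x i = b then ∏ i ∈ J, hh (g i) (x i) else 0) ≤
      ∏ i, if i ∈ J then hh (g i) (x i) else 1 := by
    intro x _
    rw [Finset.sum_ite_eq, Finset.prod_ite_mem, Finset.univ_inter]
    split_ifs
    · exact le_rfl
    · exact Finset.prod_nonneg fun i _ => hh0 _ _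
  refine (Finset.sum_le_sum h2).trans (le_of_eq ?_)
  rw [hP, ← Finset.prod_univ_sum (fun i : Fin 6 => if i ∈ J then PS (2 * X) else {1})
    (fun i n => if i ∈ J then hh (g i) n else 1)]
  conv_rhs => rw [← Finset.univ_inter J, ← Finset.prod_ite_mem]
  refine Finset.prod_congr rfl fun i _ => ?_
  by_cases hi : i ∈ J <;> simp [hi]

lemma pf_ne {n : O} (hn : SP n) (h : 2 ≤ N n) : ∃ p, p ∈ pf n := by
  by_contra hc
  have : pf n = ∅ := Finset.eq_empty_of_forall_notMem fun p hp => hc ⟨p, hp⟩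
  have h2 := Mer.N_sqf hn.1 hn.2
  rw [this, Finset.prod_empty] at h2
  linarith

lemma pf_le {n p : O} (hn : Prim n) (hp : p ∈ pf n) : 2 ≤ N p ∧ N p ≤ N n := by
  have n0 := bas.b2.ne n hn
  obtain ⟨p1, -, p3⟩ := (Vau.b8.mem _ p n0).1 hp
  exact ⟨Mer.N2 p1, Vau.N_dvd n0 p3⟩

lemma one (hG : GRStmt) : ∀ᶠ X : ℝ in atTop, ∀ (k : ℕ) (s : Finset O),
    (2 : ℝ) ^ k ≤ X ^ (491 / 1000 : ℝ) →
    (∀ n ∈ s, SP n ∧ Rough (ww X) n ∧ 2 ^ k ≤ N n ∧ N n < 2 * 2 ^ k) →
    ∑ n ∈ s, (6 : ℝ) ^ (pf n).card ≤ 2 ^ k * if k ≠ 0 then ll X ^ 20 / Real.log X else 1 := by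
  obtain ⟨C, hC0, hC⟩ := Mer.rough 6 (by norm_num)
  filter_upwards [hG (2 * C) 1 one_pos, eventually_ge_atTop 4] with X hX h4 k s hk hs
  obtain ⟨-, l2, lA, -, -, -, -, -, w2, -⟩ := hX
  have lX : 0 < Real.log X := Real.log_pos (by linarith)
  by_cases k0 : k = 0
  · subst k0
    simp only [pow_zero, mul_one, ne_eq, not_true_eq_false, if_false] at hs ⊢
    have : s ⊆ {1} := by
      intro n hn
      obtain ⟨a1, -, -, a4⟩ := hs n hn
      have : pf n = ∅ := Finset.eq_empty_of_forall_notMem fun p hp => by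
        have := pf_le a1.1 hp
        linarith [this.1, this.2]
      rw [Finset.mem_singleton, Mer.sqf_eq a1.1 a1.2, this, Finset.prod_empty]
    refine (Finset.sum_le_sum_of_subset_of_nonneg this fun _ _ _ => by positivity).trans ?_
    simp [Vau.b8.pf_one]
  rw [if_pos k0]
  have k2 : (2 : ℝ) ≤ 2 ^ k := le_self_pow₀ (by norm_num) k0
  rcases lt_or_ge (2 * 2 ^ k) (ww X) with hw | hw
  · have : s = ∅ := Finset.eq_empty_of_forall_notMem fun n hn => by
      obtain ⟨a1, a2, a3, a4⟩ := hs n hn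
      obtain ⟨p, hp⟩ := pf_ne a1 (by linarith)
      linarith [a2 p hp, (pf_le a1.1 hp).2]
    rw [this, Finset.sum_empty]
    positivity
  have h1 := hC (ww X) (2 * 2 ^ k) s w2 hw fun n hn =>
    ⟨(hs n hn).1.1, (hs n hn).1.2, (hs n hn).2.2.2.le, fun p hp => ((hs n hn).2.1 p hp).le⟩
  refine h1.trans ?_
  have e1 : Real.log (ww X) = Real.log X / ll X ^ 2 := Real.log_exp _
  have lw : 0 < Real.log (ww X) := Real.log_pos (by linarith)
  have a1 : Real.log (ww X) ≤ Real.log (2 * 2 ^ k) := Real.log_le_log (by linarith) hw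
  have a2 : 2 * 2 ^ k ≤ X := by
    have b1 : X ^ (491 / 1000 : ℝ) ≤ X ^ (1 / 2 : ℝ) :=
      Real.rpow_le_rpow_of_exponent_le (by linarith) (by norm_num)
    rw [← Real.sqrt_eq_rpow] at b1
    have b2 : 2 ≤ Real.sqrt X := Real.le_sqrt_of_sq_le (by linarith)
    have b3 := Real.mul_self_sqrt (show 0 ≤ X by linarith)
    nlinarith
  have a3 : Real.log (2 * 2 ^ k) ≤ Real.log X := Real.log_le_log (by linarith) a2
  have l0 : 0 < ll X := by linarith
  have a4 : Real.log (2 * 2 ^ k) / Real.log (ww X) ≤ ll X ^ 2 := by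
    rw [div_le_iff₀ lw, e1]
    field_simp
    exact a3
  have a5 : (Real.log (2 * 2 ^ k) / Real.log (ww X)) ^ (6 : ℝ) ≤ (ll X ^ 2) ^ 6 := by
    rw [show (6 : ℝ) = (6 : ℕ) by norm_num, Real.rpow_natCast]
    exact pow_le_pow_left₀ (div_nonneg (by linarith) lw.le) a4 6
  have a6 : 2 * 2 ^ k / Real.log (2 * 2 ^ k) ≤ 2 * 2 ^ k * (ll X ^ 2 / Real.log X) := by
    calc 2 * 2 ^ k / Real.log (2 * 2 ^ k) ≤ 2 * 2 ^ k / Real.log (ww X) := by gcongr
      _ = _ := by rw [e1]; field_simp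
  have a7 : 2 * C ≤ ll X ^ 6 := lA.trans (le_self_pow₀ (by linarith) (by norm_num))
  calc C * (2 * 2 ^ k / Real.log (2 * 2 ^ k)) * (Real.log (2 * 2 ^ k) / Real.log (ww X)) ^ (6 : ℝ)
      ≤ C * (2 * 2 ^ k * (ll X ^ 2 / Real.log X)) * (ll X ^ 2) ^ 6 := by
        refine mul_le_mul (by gcongr) a5 (Real.rpow_nonneg (div_nonneg (by linarith) lw.le) _)
          (by positivity)
    _ = (2 * C) * (2 ^ k * (ll X ^ 14 / Real.log X)) := by ring
    _ ≤ ll X ^ 6 * (2 ^ k * (ll X ^ 14 / Real.log X)) := by gcongr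
    _ = _ := by ring

end NRMM

open NRMM in
theorem nrmS (hG : GRStmt) : NRMStmt := by
  filter_upwards [one hG] with X hX t k g J B hB
  constructor
  · intro b hb hc
    obtain ⟨x, hx, hx2⟩ := Finset.exists_ne_zero_of_sum_ne_zero hc
    have x1 : ∏ i, x i = b := by
      by_contra h
      exact hx2 (if_neg h)
    rw [if_pos x1] at hx2
    obtain ⟨x2, x3⟩ := pi_mem hx
    have x4 : ∀ i ∈ J, (2 : ℝ) ^ k i ≤ N (x i) ∧ N (x i) < 2 * 2 ^ k i := fun i hi =>
      ((atom (hB i).2 (sp_of hb x2 x1 i)).1 (Finset.prod_ne_zero_iff.1 hx2 i hi)).2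
    have e1 : N b = ∏ i ∈ J, N (x i) := by
      rw [← x1, N_prod]
      refine (Finset.prod_subset (Finset.subset_univ J) fun i _ hi => ?_).symm
      rw [x3 i hi, Vau.N_one]
    rw [e1, ← Finset.prod_pow_eq_pow_sum]
    refine ⟨Finset.prod_le_prod (fun i _ => by positivity) fun i hi => (x4 i hi).1, ?_⟩
    refine (Finset.prod_le_prod (fun i _ => Vau.N0 _) fun i hi => (x4 i hi).2.le).trans ?_
    rw [Finset.prod_mul_distrib, Finset.prod_const]
    refine mul_le_mul_of_nonneg_right ?_ (Finset.prod_nonneg fun i _ => by positivity)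
    have : J.card ≤ 6 := by simpa using Finset.card_le_univ J
    calc (2 : ℝ) ^ J.card ≤ 2 ^ 6 := pow_le_pow_right₀ (by norm_num) this
      _ = 64 := by norm_num
  · refine (l2 X B g J).trans ?_
    have h1 : ∀ i ∈ J, ∑ n ∈ PS (2 * X), hh (g i) n ≤ (if i = 5 then Real.log X ^ 2 else 1) *
        (2 ^ k i * if k i ≠ 0 then ll X ^ 20 / Real.log X else 1) := by
      intro i _
      have e : (if i = 5 then Real.log X ^ 2 else 1) = (if i = 5 then Real.log X else 1) ^ 2 := by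
        split_ifs <;> simp
      let s := (PS (2 * X)).filter fun n => SP n ∧ g i n ≠ 0
      have h2 := hX (k i) s (hB i).1 fun n hn =>
        ⟨(Finset.mem_filter.1 hn).2.1,
          (atom (hB i).2 (Finset.mem_filter.1 hn).2.1).1 (Finset.mem_filter.1 hn).2.2⟩
      rw [e]
      refine le_trans ?_ (mul_le_mul_of_nonneg_left h2 (by positivity))
      rw [Finset.mul_sum, Finset.sum_filter]
      refine Finset.sum_le_sum fun n _ => ?_
      unfold hh
      by_cases h3 : SP n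
      · by_cases h4 : g i n = 0
        · simp [h4]
        · rw [if_pos h3, if_pos ⟨h3, h4⟩, mul_comm]
          exact mul_le_mul_of_nonneg_right (atom (hB i).2 h3).2 (by positivity)
      · simp [h3]
    refine (Finset.prod_le_prod (fun i _ => Finset.sum_nonneg fun n _ => hh0 _ _) h1).trans
      (le_of_eq ?_)
    rw [Finset.prod_mul_distrib, Finset.prod_mul_distrib, Finset.prod_pow_eq_pow_sum,
      Finset.prod_ite_eq', Finset.prod_ite, Finset.prod_const, Finset.prod_const_one]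
    ring

end Vale.Agent.P006.M
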