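import Vale.Agent.P006.M
import Vale.Agent.P026.M.LN

/-! P006 main branch: reduction to the low and the high parts. -/

noncomputable section
open Complex MeasureTheory Filter Topology
open scoped Classical ComplexConjugate

namespace Vale.Agent.P006.M
open Vale.Agent.P026 Vale.Agent.P006
open Vale.Agent.P006.Vau (PS Lam)

namespace REDM
open W1

lemma ms_add (X : ℝ) (g : Fin 6 → O → ℂ) (m : Fin 6) (a b : O → ℂ) (G : O → ℂ) :
    MS X (Function.update g m fun n => a n + b n) G =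
      MS X (Function.update g m a) G + MS X (Function.update g m b) G := by
  simp only [MS, ← Finset.sum_add_distrib]
  refine Finset.sum_congr rfl fun x _ => ?_
  have e : ∀ c : O → ℂ, ∏ i, Function.update g m c i (x i) =
      c (x m) * ∏ i ∈ Finset.univ.erase m, g i (x i) := fun c => by
    rw [← Finset.mul_prod_erase _ _ (Finset.mem_univ m), Function.update_self]
    congr 1
    exact Finset.prod_congr rfl fun i hi => by
      rw [Function.update_of_ne (Finset.ne_of_mem_erase hi)]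
  rw [e, e, e]
  ring

lemma ms_zero (X : ℝ) (g : Fin 6 → O → ℂ) (m : Fin 6) (G : O → ℂ) :
    MS X (Function.update g m fun _ => 0) G = 0 := by
  have := ms_add X g m (fun _ => 0) (fun _ => 0) G
  simp only [add_zero] at this
  linear_combination -this

lemma N_prod {ι : Type} (s : Finset ι) (x : ι → O) : N (∏ i ∈ s, x i) = ∏ i ∈ s, N (x i) := by
  induction s using Finset.induction_on with
  | empty => simp [Vau.N_one]
  | insert a s h ih => rw [Finset.prod_insert h, Finset.prod_insert h, bas.b1.N_mul, ih]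

lemma cv_supp {X : ℝ} (hX : 1 ≤ X) (g : Fin 6 → O → ℂ) (J : Finset (Fin 6)) (a : O)
    (h : CV X g J a ≠ 0) : N a ≤ (2 * X) ^ 6 := by
  obtain ⟨x, hx, h1⟩ := Finset.exists_ne_zero_of_sum_ne_zero h
  have h2 : ∏ i, x i = a := by
    by_contra c
    exact h1 (if_neg c)
  rw [← h2, N_prod]
  refine (Finset.prod_le_prod (fun i _ => Vau.N0 _) (g := fun _ => 2 * X) fun i _ => ?_).trans_eq
    (by simp)
  have h3 := Fintype.mem_piFinset.1 hx i
  split_ifs at h3
  · exact (Vau.mem_PS.1 h3).2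
  · rw [Finset.mem_singleton.1 h3, Vau.N_one]; linarith

lemma cv_one (X : ℝ) (g : Fin 6 → O → ℂ) (m : Fin 6) {u : O} (hu : u ∈ PS (2 * X)) :
    CV X g {m} u = g m u := by
  rw [CV, Finset.sum_eq_single_of_mem (Function.update (fun _ => 1) m u)]
  · rw [if_pos (by rw [Finset.prod_update_of_mem (Finset.mem_univ m)]; simp)]
    simp
  · refine Fintype.mem_piFinset.2 fun i => ?_
    by_cases c : i = m
    · subst c; simpa using hu
    · simp [c]
  · intro x hx hne
    refine if_neg fun h => hne (funext fun i => ?_)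
    have h1 : ∀ j, j ≠ m → x j = 1 := fun j hj => by
      simpa [hj] using Fintype.mem_piFinset.1 hx j
    by_cases c : i = m
    · subst c
      rw [Function.update_self, ← h, Finset.prod_eq_single i (fun j _ hj => h1 j hj) (by simp)]
    · rw [Function.update_of_ne c, h1 i c]

lemma cv_congr (X : ℝ) {g g' : Fin 6 → O → ℂ} (J : Finset (Fin 6))
    (h : ∀ i ∈ J, ∀ n ∈ PS (2 * X), g i n = g' i n) (a : O) : CV X g J a = CV X g' J a := by
  refine Finset.sum_congr rfl fun x hx => ?_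
  rw [Finset.prod_congr rfl fun i hi => h i hi (x i) (by
    simpa [hi] using Fintype.mem_piFinset.1 hx i)]

lemma hi01 {Y x : ℝ} (hY : 0 < Y) (hx : 0 < x) : 0 ≤ hiW Y x ∧ hiW Y x ≤ 1 := by
  have h := (lnS bas).part x hx
  have hp : 0 < Real.sqrt Real.pi := Real.sqrt_pos.2 Real.pi_pos
  have hi : IntegrableOn (fun Z => VV Z x / Z) (Set.Ioi 0) :=
    Integrable.of_integral_ne_zero (by rw [h]; exact hp.ne')
  have h0 : ∀ Z ∈ Set.Ioi (0 : ℝ), 0 ≤ VV Z x / Z := fun Z hZ =>
    div_nonneg (Real.exp_pos _).le (le_of_lt hZ)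
  refine ⟨mul_nonneg (by positivity) (setIntegral_nonneg measurableSet_Ioi fun Z hZ =>
    h0 Z (lt_trans hY hZ)), ?_⟩
  rw [hiW, inv_mul_le_iff₀ hp, mul_one, ← h]
  exact setIntegral_mono_set hi ((ae_restrict_iff' measurableSet_Ioi).2 (.of_forall h0))
    (Set.Ioi_subset_Ioi hY.le).eventuallyLE

def Ok (X : ℝ) (g : Fin 6 → O → ℂ) : Prop := ∀ i n, SP n → N n ≤ 2 * X →
  ‖g i n‖ ≤ Real.log X ^ 2 ∧ (g i n ≠ 0 → Rough (ww X) n)

lemma mSQ {X : ℝ} {n : O} : n ∈ SQ X ↔ SP n ∧ N n ≤ X := (memS bas).1 X n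

lemma cut {X B : ℝ} (hB : 2 * X ≤ B) (f : O → ℂ) (h : ∀ n, SP n → 2 * X < N n → f n = 0) :
    ∑ n ∈ SQ B, f n = ∑ n ∈ SQ (2 * X), f n :=
  (Finset.sum_subset (fun n hn => mSQ.2 ⟨(mSQ.1 hn).1, (mSQ.1 hn).2.trans hB⟩) fun n h1 h2 =>
    h n (mSQ.1 h1).1 (not_le.1 fun c => h2 (mSQ.2 ⟨(mSQ.1 h1).1, c⟩))).symm

lemma hi_term (hG : GRStmt) (hS : SPLITStmt) (hH : HIStmt) (K : ℝ) : ∀ᶠ X : ℝ in atTop,
    ∀ Φ g (m : Fin 6) (j : ℕ), Wt X K Φ → Ok X g → j ≤ 1 →
    ‖MS X (Function.update g m fun u => aL X j u * (hiW (X ^ (49 / 100 : ℝ)) (N u) : ℝ)) (FF X Φ)‖ ≤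
      X ^ (5 / 6 : ℝ) / LL X ^ 5 := by
  filter_upwards [hG 12 1 one_pos, hS.2, hH K] with X g1 g2 g3 Φ g m j hW hO hj
  obtain ⟨h3, -, -, -, hL, -, -, -, -, hL1⟩ := g1
  have hX : 1 ≤ X := by linarith
  have hl : 1 ≤ Real.log X := by
    rw [Real.le_log_iff_exp_le (by linarith)]
    exact (Real.exp_one_lt_d9.le.trans (by norm_num)).trans h3
  have hL0 : 0 < LL X := by linarith
  have h6 : 2 * X ≤ (2 * X) ^ 6 := le_self_pow₀ (by linarith) (by norm_num)
  set g' := Function.update g m fun u => aL X j u * (hiW (X ^ (49 / 100 : ℝ)) (N u) : ℝ) with hg'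
  have F0 : ∀ a b, SP a → SP b → 2 * X < N a ∨ 2 * X < N b → FF X Φ (a * b) = 0 := by
    intro a b ha hb h
    refine if_neg (not_le.2 ?_)
    have a1 := Vau.N1 ha.1
    have a2 := Vau.N1 hb.1
    rw [bas.b1.N_mul]
    rcases h with h | h <;> nlinarith
  rw [hS.1 X ((2 * X) ^ 6) ((2 * X) ^ 6) g' {m} (FF X Φ) hX
    (fun n hn => by simp [FF, del, hn]) (fun a _ h => cv_supp hX _ _ a h)
    (fun a _ h => cv_supp hX _ _ a h)]
  rw [Finset.sum_comm, cut h6 _ fun b hb h => Finset.sum_eq_zero fun a ha => by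
      rw [F0 a b (mSQ.1 ha).1 hb (Or.inr h), mul_zero],
    Finset.sum_comm, cut h6 _ fun a ha h => Finset.sum_eq_zero fun b hb => by
      rw [F0 a b ha (mSQ.1 hb).1 (Or.inl h), mul_zero]]
  have key := g3 Φ (fun r => if r ∈ SQ (2 * X) then CV X g' {m}ᶜ r / (LL X ^ 5 : ℝ) else 0) j hW
    (fun r => ?_) hj
  · have e : ∑ a ∈ SQ (2 * X), ∑ b ∈ SQ (2 * X), CV X g' {m}ᶜ a * CV X g' {m} b * FF X Φ (a * b) =
        ((LL X ^ 5 : ℝ) : ℂ) * ∑ r ∈ SQ (2 * X), ∑ u ∈ SQ (2 * X),
          (if r ∈ SQ (2 * X) then CV X g' {m}ᶜ r / (LL X ^ 5 : ℝ) else 0) *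
            (aL X j u * (hiW (X ^ (49 / 100 : ℝ)) (N u) : ℝ)) * FF X Φ (r * u) := by
      simp only [Finset.mul_sum]
      refine Finset.sum_congr rfl fun a ha => Finset.sum_congr rfl fun b hb => ?_
      have : ((LL X ^ 5 : ℝ) : ℂ) ≠ 0 := ofReal_ne_zero.2 (by positivity)
      rw [if_pos ha, cv_one X g' m (Vau.mem_PS.2 ⟨(mSQ.1 hb).1.1, (mSQ.1 hb).2⟩), hg',
        Function.update_self]
      field_simp
    rw [e, norm_mul, norm_real, Real.norm_of_nonneg (by positivity)]
    refine (mul_le_mul_of_nonneg_left key (by positivity)).trans (le_of_eq ?_)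
    field_simp
  · split_ifs with hr
    swap
    · simp
    obtain ⟨h1, h2⟩ := mSQ.1 hr
    have h4 := (g2 (fun i n => if N n ≤ 2 * X then g i n else 0) {m}ᶜ (fun _ => Real.log X ^ 2)
      (fun i n hn => by
        split_ifs with c
        · exact (hO i n hn c).1
        · rw [norm_zero]; positivity)
      (fun i n hn h => by
        split_ifs at h with c
        · exact (hO i n hn c).2 h
        · exact absurd rfl h) r h1 (by nlinarith)).1
    rw [← cv_congr X (g := g') _ (fun i hi n hn => by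
      rw [if_pos (Vau.mem_PS.1 hn).2, hg', Function.update_of_ne (by simpa using hi)])] at h4
    rw [norm_div, norm_real, Real.norm_of_nonneg (by positivity), div_le_one (by positivity)]
    refine h4.trans ?_
    rw [pow_succ (LL X) 4, Finset.prod_const]
    gcongr
    rw [Real.rpow_one, show (12 : ℝ) = (12 : ℕ) by norm_num, Real.rpow_natCast] at hL
    refine le_trans ?_ hL
    rw [← pow_mul]
    refine pow_le_pow_right₀ hl ?_
    have := Finset.card_le_univ ({m}ᶜ : Finset (Fin 6))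
    rw [Fintype.card_fin] at this
    omega

def mix (X : ℝ) (g : Fin 6 → O → ℂ) (m : ℕ) (i : Fin 6) : O → ℂ :=
  if i.val < m then low X g i else g i

lemma raw_ok {X : ℝ} (h3 : 3 ≤ X) (hl : 2 ≤ Real.log X) {g : Fin 6 → O → ℂ} (hg : Raw X g) :
    Ok X g := by
  have h1 : 1 ≤ Real.log X ^ 2 := by nlinarith
  have e1 : ∀ n, ‖aE n‖ ≤ Real.log X ^ 2 ∧ (aE n ≠ 0 → Rough (ww X) n) := fun n => by
    unfold aE
    split_ifs with c
    · exact ⟨by simpa using h1, fun _ p hp => by simp [c, Vau.b8.pf_one] at hp⟩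
    · exact ⟨by rw [norm_zero]; positivity, fun h => absurd rfl h⟩
  have e2 : ∀ n, ‖aM X n‖ ≤ Real.log X ^ 2 ∧ (aM X n ≠ 0 → Rough (ww X) n) := fun n => by
    unfold aM
    split_ifs with c
    · exact ⟨(Vau.b8.mu_le n).trans h1, fun _ => c.1⟩
    · exact ⟨by rw [norm_zero]; positivity, fun h => absurd rfl h⟩
  have e3 : ∀ j n, j ≤ 1 → SP n → N n ≤ 2 * X →
      ‖aL X j n‖ ≤ Real.log X ^ 2 ∧ (aL X j n ≠ 0 → Rough (ww X) n) := fun j n hj hn h => by
    unfold aL
    split_ifs with c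
    · refine ⟨?_, fun _ => c⟩
      have a1 := Vau.N1 hn.1
      have a2 := Real.log_nonneg a1
      have a3 : Real.log (N n) ≤ 2 * Real.log X := by
        rw [show (2 : ℝ) * Real.log X = Real.log (X ^ 2) by simp]
        exact Real.log_le_log (by linarith) (by nlinarith)
      rw [norm_real, Real.norm_of_nonneg (by positivity)]
      interval_cases j
      · simpa using h1
      · nlinarith
    · exact ⟨by rw [norm_zero]; positivity, fun h => absurd rfl h⟩
  intro i n hn h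
  have k : g i = aM X ∨ g i = aE ∨ g i = aL X 0 ∨ g i = aL X 1 := by
    obtain ⟨a, b, c, d⟩ := hg
    fin_cases i
    · have := a 0 (by simp); tauto
    · have := a 1 (by simp); tauto
    · have := a 2 (by simp); tauto
    · tauto
    · tauto
    · tauto
  rcases k with k | k | k | k <;> rw [k]
  exacts [e2 n, e1 n, e3 0 n (by norm_num) hn h, e3 1 n le_rfl hn h]

lemma mix_ok {X : ℝ} (h3 : 3 ≤ X) {g : Fin 6 → O → ℂ} (hg : Ok X g) (m : ℕ) : Ok X (mix X g m) := by
  intro i n hn h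
  have h1 := hg i n hn h
  unfold mix
  split_ifs
  swap
  · exact h1
  unfold low
  split_ifs
  · exact h1
  have h2 := hi01 (Y := X ^ (49 / 100 : ℝ)) (by positivity) (one_pos.trans_le (Vau.N1 hn.1))
  refine ⟨?_, fun c => h1.2 (left_ne_zero_of_mul c)⟩
  rw [norm_mul, norm_real, Real.norm_of_nonneg (by linarith)]
  exact (mul_le_of_le_one_right (norm_nonneg _) (by linarith)).trans h1.1

lemma mix_step (X : ℝ) (g : Fin 6 → O → ℂ) (m : Fin 6) (hm : 3 ≤ m.val) (G : O → ℂ) :
    MS X (mix X g m) G = MS X (mix X g (m + 1)) G + MS X (Function.update (mix X g m) m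
      fun u => if g m = aE then 0 else g m u * (hiW (X ^ (49 / 100 : ℝ)) (N u) : ℝ)) G := by
  have e1 : mix X g (m + 1) = Function.update (mix X g m) m (low X g m) := by
    funext i
    by_cases c : i = m
    · subst c; simp [mix]
    · have : i.val ≠ m.val := fun h => c (Fin.ext h)
      rw [Function.update_of_ne c, mix, mix]
      exact if_congr (by omega) rfl rfl
  rw [e1, ← ms_add]
  congr 1
  funext i
  by_cases c : i = m
  · subst c
    rw [Function.update_self, mix, if_neg (lt_irrefl _)]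
    funext n
    unfold low
    by_cases d : g i = aE
    · simp [d]
    · rw [if_neg (by push Not; exact ⟨hm, d⟩), if_neg d]
      push_cast
      ring
  · rw [Function.update_of_ne c]

lemma one (hG : GRStmt) (hS : SPLITStmt) (hL : LOStmt) (hH : HIStmt) (K ε : ℝ) (hε : 0 < ε) :
    ∀ᶠ X : ℝ in atTop, ∀ Φ g, Wt X K Φ → Raw X g → ‖MS X g (FF X Φ)‖ ≤ 4 * ε * X ^ (5 / 6 : ℝ) := by
  filter_upwards [hG ε⁻¹ 1 one_pos, hL K ε hε, hi_term hG hS hH K] with X g1 g2 g3 Φ g hW hg
  obtain ⟨h3, h2, hA, -, -, -, -, -, -, hL1⟩ := g1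
  have hl : 2 ≤ Real.log X := by
    have := Real.log_le_sub_one_of_pos (Real.log_pos (by linarith : 1 < X))
    unfold ll at h2
    linarith
  have hO := raw_ok h3 hl hg
  have hE : X ^ (5 / 6 : ℝ) / LL X ^ 5 ≤ ε * X ^ (5 / 6 : ℝ) := by
    have a1 : ε⁻¹ ≤ LL X ^ 5 := by
      have := Real.add_one_le_exp (ll X ^ 2)
      refine (hA.trans ?_).trans (le_self_pow₀ hL1 (by norm_num))
      unfold LL
      nlinarith
    rw [div_eq_inv_mul]
    gcongr
    exact inv_le_of_inv_le₀ hε a1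
  have st : ∀ m : Fin 6, 3 ≤ m.val → (g m = aE ∨ g m = aL X 0 ∨ g m = aL X 1) →
      ‖MS X (mix X g m) (FF X Φ)‖ ≤ ‖MS X (mix X g (m + 1)) (FF X Φ)‖ + ε * X ^ (5 / 6 : ℝ) := by
    intro m hm h
    rw [mix_step X g m hm]
    refine (norm_add_le _ _).trans (add_le_add le_rfl ?_)
    by_cases d : g m = aE
    · simp only [if_pos d, ms_zero, norm_zero]
      positivity
    simp only [if_neg d]
    rcases h with h | h | h
    · exact absurd h d
    · rw [h]; exact (g3 Φ _ m 0 hW (mix_ok h3 hO _) (by norm_num)).trans hE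
    · rw [h]; exact (g3 Φ _ m 1 hW (mix_ok h3 hO _) le_rfl).trans hE
  have e3 : mix X g 3 = g := by
    funext i
    unfold mix
    split_ifs with c
    · funext n; exact if_pos (Or.inl c)
    · rfl
  have e6 : mix X g 6 = low X g := funext fun i => if_pos i.2
  have s3 := st 3 (by simp) (by have := hg.2.1; tauto)
  have s4 := st 4 (by simp) (by have := hg.2.2.1; tauto)
  have s5 := st 5 (by simp) (by have := hg.2.2.2; tauto)
  have s6 := g2 Φ g hW hg
  rw [← e6] at s6
  rw [← e3]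
  change ‖MS X (mix X g 3) _‖ ≤ ‖MS X (mix X g 4) _‖ + _ at s3
  change ‖MS X (mix X g 4) _‖ ≤ ‖MS X (mix X g 5) _‖ + _ at s4
  change ‖MS X (mix X g 5) _‖ ≤ ‖MS X (mix X g 6) _‖ + _ at s5
  linarith

end REDM

theorem redS (hG : GRStmt) (hS : SPLITStmt) (hB : HBStmt) (hL : LOStmt) (hH : HIStmt) :
    MAINStmt := by
  intro K ε hε
  filter_upwards [REDM.one hG hS hL hH K (ε / 28) (by positivity), eventually_ge_atTop 1]
    with X h hX Φ hW
  obtain ⟨g1, g2, g3, h1, h2, h3, e⟩ := hB X Φ hX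
  have a1 := h Φ g1 hW h1
  have a2 := h Φ g2 hW h2
  have a3 := h Φ g3 hW h3
  rw [e]
  refine (norm_add_le _ _).trans ((add_le_add (norm_sub_le _ _) le_rfl).trans ?_)
  rw [norm_mul, norm_mul, Complex.norm_ofNat]
  linarith

end Vale.Agent.P006.M
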