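import Vale.Agent.P006.M

/-! P006 row SPL: splitting of six-fold sums and the sup bound. -/

noncomputable section
open Complex Filter Topology
open scoped Classical

namespace Vale.Agent.P006.M
open Vale.Agent.P026 Vale.Agent.P006
open Vale.Agent.P006.Vau (PS mem_PS b8)

namespace SPLM

/-- tuples supported on `J` -/
def PJ (X : ℝ) (J : Finset (Fin 6)) : Finset (Fin 6 → O) :=
  Fintype.piFinset (fun i : Fin 6 => if i ∈ J then PS (2 * X) else {1})

theorem mem_PJ {X : ℝ} {J : Finset (Fin 6)} {x : Fin 6 → O} :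
    x ∈ PJ X J ↔ ∀ i, (i ∈ J → x i ∈ PS (2 * X)) ∧ (i ∉ J → x i = 1) := by
  simp only [PJ, Fintype.mem_piFinset]
  refine forall_congr' fun i => ?_
  by_cases h : i ∈ J <;> simp [h]

theorem prim_of {X : ℝ} {J : Finset (Fin 6)} {x : Fin 6 → O} (h : x ∈ PJ X J) (i : Fin 6) :
    Prim (x i) := by
  by_cases c : i ∈ J
  · exact (mem_PS.1 ((mem_PJ.1 h i).1 c)).1
  · rw [(mem_PJ.1 h i).2 c]; exact W1.bas.b2.one

theorem prim_prod {X : ℝ} {J : Finset (Fin 6)} {x : Fin 6 → O} (h : x ∈ PJ X J) :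
    Prim (∏ i, x i) :=
  Finset.prod_induction _ Prim W1.bas.b2.mul W1.bas.b2.one fun i _ => prim_of h i

theorem CV_eq (X : ℝ) (g : Fin 6 → O → ℂ) (J : Finset (Fin 6)) (n : O) :
    CV X g J n = ∑ x ∈ PJ X J, if ∏ i, x i = n then ∏ i ∈ J, g i (x i) else 0 := rfl

theorem split (X : ℝ) (J : Finset (Fin 6)) (F : (Fin 6 → O) → ℂ) :
    ∑ x ∈ Fintype.piFinset (fun _ : Fin 6 => PS (2 * X)), F x =
      ∑ y ∈ PJ X Jᶜ, ∑ z ∈ PJ X J, F (y * z) := by
  rw [← Finset.sum_product']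
  refine Finset.sum_nbij' (fun x => (fun i => if i ∈ J then 1 else x i,
    fun i => if i ∈ J then x i else 1)) (fun p => p.1 * p.2) ?_ ?_ ?_ ?_ ?_
  · intro x hx
    rw [Fintype.mem_piFinset] at hx
    refine Finset.mem_product.2 ⟨mem_PJ.2 fun i => ?_, mem_PJ.2 fun i => ?_⟩ <;>
      by_cases c : i ∈ J <;> simp [c, hx i]
  · intro p hp
    obtain ⟨h1, h2⟩ := Finset.mem_product.1 hp
    rw [Fintype.mem_piFinset]
    intro i
    by_cases c : i ∈ J
    · rw [Pi.mul_apply, (mem_PJ.1 h1 i).2 (by simpa using c), one_mul]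
      exact (mem_PJ.1 h2 i).1 c
    · rw [Pi.mul_apply, (mem_PJ.1 h2 i).2 c, mul_one]
      exact (mem_PJ.1 h1 i).1 (by simpa using c)
  · intro x _
    funext i
    by_cases c : i ∈ J <;> simp [c]
  · intro p hp
    obtain ⟨h1, h2⟩ := Finset.mem_product.1 hp
    refine Prod.ext (funext fun i => ?_) (funext fun i => ?_) <;> by_cases c : i ∈ J
    · simp [c, (mem_PJ.1 h1 i).2 (by simpa using c)]
    · simp [c, (mem_PJ.1 h2 i).2 c]
    · simp [c, (mem_PJ.1 h1 i).2 (by simpa using c)]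
    · simp [c, (mem_PJ.1 h2 i).2 c]
  · intro x _
    congr 1
    funext i
    by_cases c : i ∈ J <;> simp [c]

theorem collect (X A : ℝ) (g : Fin 6 → O → ℂ) (J : Finset (Fin 6)) (H : O → ℂ)
    (h0 : ∀ n, ¬ Squarefree n → H n = 0) (hA : ∀ a, SP a → CV X g J a ≠ 0 → N a ≤ A) :
    ∑ y ∈ PJ X J, (∏ i ∈ J, g i (y i)) * H (∏ i, y i) = ∑ a ∈ SQ A, CV X g J a * H a := by
  have e : ∑ a ∈ SQ A, CV X g J a * H a =
      ∑ a ∈ SQ A ∪ (PJ X J).image (fun y => ∏ i, y i), CV X g J a * H a := by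
    refine Finset.sum_subset Finset.subset_union_left fun a ha hn => ?_
    obtain ⟨y, hy, rfl⟩ := Finset.mem_image.1 ((Finset.mem_union.1 ha).resolve_left hn)
    by_contra c
    have s : SP (∏ i, y i) := ⟨prim_prod hy, by_contra fun k => c (by rw [h0 _ k, mul_zero])⟩
    exact hn (((memS W1.bas).1 _ _).2 ⟨s, hA _ s (left_ne_zero_of_mul c)⟩)
  rw [e]
  simp only [CV_eq, Finset.sum_mul, ite_mul, zero_mul]
  rw [Finset.sum_comm]
  refine Finset.sum_congr rfl fun y hy => ?_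
  rw [Finset.sum_ite_eq, if_pos (Finset.mem_union_right _ (Finset.mem_image_of_mem _ hy))]

theorem part1 (X A B : ℝ) (g : Fin 6 → O → ℂ) (J : Finset (Fin 6)) (G : O → ℂ)
    (hG : ∀ n, ¬ Squarefree n → G n = 0) (hA : ∀ a, SP a → CV X g Jᶜ a ≠ 0 → N a ≤ A)
    (hB : ∀ b, SP b → CV X g J b ≠ 0 → N b ≤ B) :
    MS X g G = ∑ a ∈ SQ A, ∑ b ∈ SQ B, CV X g Jᶜ a * CV X g J b * G (a * b) := by
  rw [MS, split X J]
  have e : ∀ y ∈ PJ X Jᶜ, ∑ z ∈ PJ X J, (∏ i, g i ((y * z) i)) * G (∏ i, (y * z) i) =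
      (∏ i ∈ Jᶜ, g i (y i)) * ∑ b ∈ SQ B, CV X g J b * G ((∏ i, y i) * b) := fun y hy => by
    rw [← collect X B g J (fun b => G ((∏ i, y i) * b))
      (fun n hn => hG _ fun k => hn k.of_mul_right) hB, Finset.mul_sum]
    refine Finset.sum_congr rfl fun z hz => ?_
    have e1 : ∏ i ∈ J, g i ((y * z) i) = ∏ i ∈ J, g i (z i) := Finset.prod_congr rfl fun i c => by
      rw [Pi.mul_apply, (mem_PJ.1 hy i).2 (by simpa using c), one_mul]
    have e2 : ∏ i ∈ Jᶜ, g i ((y * z) i) = ∏ i ∈ Jᶜ, g i (y i) := Finset.prod_congr rfl fun i c => by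
      rw [Pi.mul_apply, (mem_PJ.1 hz i).2 (by simpa using c), mul_one]
    rw [← Finset.prod_mul_prod_compl J, e1, e2]
    simp only [Pi.mul_apply, Finset.prod_mul_distrib]
    ring
  rw [Finset.sum_congr rfl e, collect X A g Jᶜ (fun a => ∑ b ∈ SQ B, CV X g J b * G (a * b))
    (fun n hn => Finset.sum_eq_zero fun b _ => by rw [hG _ fun k => hn k.of_mul_left, mul_zero]) hA]
  simp only [Finset.mul_sum, mul_assoc]

theorem sp_of {X : ℝ} {J : Finset (Fin 6)} {x : Fin 6 → O} (h : x ∈ PJ X J) {n : O} (hn : SP n)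
    (e : ∏ i, x i = n) (i : Fin 6) : SP (x i) :=
  ⟨prim_of h i, hn.2.squarefree_of_dvd (e ▸ Finset.dvd_prod_of_mem _ (Finset.mem_univ i))⟩

theorem sp_eq {a : O} (h : SP a) : a = ∏ p ∈ pf a, p := by
  conv_lhs => rw [b8.prod a h.1]
  exact Finset.prod_congr rfl fun p hp => by rw [(b8.sqf a h.1).1 h.2 p hp, pow_one]

theorem card_fib (X : ℝ) (J : Finset (Fin 6)) {n : O} (hn : SP n) :
    ((PJ X J).filter fun x => ∏ i, x i = n).card ≤ 6 ^ (pf n).card := by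
  have n0 := W1.bas.b2.ne n hn.1
  let f : (Fin 6 → O) → (pf n → Fin 6) := fun x p => if h : ∃ i, p.1 ∣ x i then h.choose else 0
  have key : ∀ x : Fin 6 → O, ∏ i, x i = n → ∀ (p : pf n) i, p.1 ∣ x i ↔ f x p = i := by
    intro x e p i
    obtain ⟨pp, -, pd⟩ := (b8.mem n p n0).1 p.2
    have ex : ∃ i, p.1 ∣ x i := by
      obtain ⟨j, -, hj⟩ := pp.exists_mem_finset_dvd (e.symm ▸ pd : p.1 ∣ ∏ i, x i)
      exact ⟨j, hj⟩
    have sp : p.1 ∣ x (f x p) := by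
      simp only [f, dif_pos ex]; exact ex.choose_spec
    refine ⟨fun h => by_contra fun c => pp.not_isUnit (hn.2 _ ?_), fun h => h ▸ sp⟩
    refine Dvd.dvd.trans ?_ (dvd_of_eq e)
    rw [← Finset.mul_prod_erase _ _ (Finset.mem_univ i)]
    exact mul_dvd_mul h (sp.trans (Finset.dvd_prod_of_mem _
      (Finset.mem_erase.2 ⟨c, Finset.mem_univ _⟩)))
  have := Finset.card_le_card_of_injOn (s := (PJ X J).filter fun x => ∏ i, x i = n)
    (t := Finset.univ) f (fun _ _ => Finset.mem_univ _) (by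
      intro x hx x' hx' e
      obtain ⟨h1, e1⟩ := Finset.mem_filter.1 hx
      obtain ⟨h2, e2⟩ := Finset.mem_filter.1 hx'
      funext i
      have s1 := sp_of h1 hn e1 i
      have s2 := sp_of h2 hn e2 i
      rw [sp_eq s1, sp_eq s2]
      congr 1
      ext p
      rw [b8.mem _ p (W1.bas.b2.ne _ s1.1), b8.mem _ p (W1.bas.b2.ne _ s2.1)]
      refine and_congr_right fun pp => and_congr_right fun pr => ?_
      by_cases c : p ∣ n
      · have hp := (b8.mem n p n0).2 ⟨pp, pr, c⟩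
        rw [key x e1 ⟨p, hp⟩ i, key x' e2 ⟨p, hp⟩ i, e]
      · exact iff_of_false
          (fun h => c (h.trans (e1 ▸ Finset.dvd_prod_of_mem _ (Finset.mem_univ i))))
          (fun h => c (h.trans (e2 ▸ Finset.dvd_prod_of_mem _ (Finset.mem_univ i)))))
  simpa using this

theorem norm_CV (X : ℝ) (g : Fin 6 → O → ℂ) (J : Finset (Fin 6)) (V : Fin 6 → ℝ)
    (hV : ∀ i n, SP n → ‖g i n‖ ≤ V i) {n : O} (hn : SP n) :
    ‖CV X g J n‖ ≤ 6 ^ (pf n).card * ∏ i ∈ J, V i := by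
  have V0 : 0 ≤ ∏ i ∈ J, V i := Finset.prod_nonneg fun i _ =>
    (norm_nonneg _).trans (hV i 1 ⟨W1.bas.b2.one, squarefree_one⟩)
  rw [CV_eq, ← Finset.sum_filter]
  refine (norm_sum_le _ _).trans ((Finset.sum_le_card_nsmul _ _ (∏ i ∈ J, V i) fun x hx => ?_).trans ?_)
  · obtain ⟨h1, e1⟩ := Finset.mem_filter.1 hx
    rw [norm_prod]
    exact Finset.prod_le_prod (fun _ _ => norm_nonneg _) fun i _ => hV i _ (sp_of h1 hn e1 i)
  · rw [nsmul_eq_mul]
    refine mul_le_mul_of_nonneg_right ?_ V0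
    exact_mod_cast card_fib X J hn

theorem rough_CV (X w : ℝ) (g : Fin 6 → O → ℂ) (J : Finset (Fin 6))
    (hR : ∀ i n, SP n → g i n ≠ 0 → Rough w n) {n : O} (hn : SP n) (h : CV X g J n ≠ 0) :
    Rough w n := by
  rw [CV_eq] at h
  obtain ⟨x, hx, h1⟩ := Finset.exists_ne_zero_of_sum_ne_zero h
  have e : ∏ i, x i = n := by_contra fun c => h1 (if_neg c)
  rw [if_pos e] at h1
  intro p hp
  obtain ⟨pp, pr, pd⟩ := (b8.mem n p (W1.bas.b2.ne n hn.1)).1 hp
  obtain ⟨i, -, hi⟩ := pp.exists_mem_finset_dvd (e.symm ▸ pd : p ∣ ∏ i, x i)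
  have s := sp_of hx hn e i
  by_cases c : i ∈ J
  · exact hR i _ s (Finset.prod_ne_zero_iff.1 h1 i c) p
      ((b8.mem _ p (W1.bas.b2.ne _ s.1)).2 ⟨pp, pr, hi⟩)
  · rw [(mem_PJ.1 hx i).2 c] at hi
    exact (pp.not_isUnit (isUnit_of_dvd_one hi)).elim

theorem six_pow {X : ℝ} (hX : 3 ≤ X) (hl : 2 ≤ ll X) {n : O} (hn : Prim n) (hN : N n ≤ X ^ 2)
    (hR : Rough (ww X) n) : (6 : ℝ) ^ (pf n).card ≤ LL X ^ 4 := by
  have l0 : 0 < Real.log X := Real.log_pos (by linarith)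
  have l2 : 0 < ll X ^ 2 := by positivity
  have h1 : ww X ^ (pf n).card ≤ X ^ 2 := by
    refine le_trans ?_ ((b8.rd_le n (W1.bas.b2.ne n hn)).trans hN)
    rw [← Finset.prod_const, rd]
    exact Finset.prod_le_prod (fun _ _ => (Real.exp_pos _).le) fun p hp => (hR p hp).le
  have h2 : ((pf n).card : ℝ) * (Real.log X / ll X ^ 2) ≤ 2 * Real.log X := by
    have := Real.log_le_log (pow_pos (Real.exp_pos _) _) h1
    rwa [Real.log_pow, Real.log_pow, Real.log_exp, Nat.cast_ofNat] at this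
  have h3 : ((pf n).card : ℝ) ≤ 2 * ll X ^ 2 := by
    rw [← mul_div_assoc, div_le_iff₀ l2] at h2
    nlinarith
  have h4 : (6 : ℝ) ≤ Real.exp 2 := by
    have := Real.exp_one_gt_d9
    rw [show (2 : ℝ) = 1 + 1 by norm_num, Real.exp_add]
    nlinarith
  refine (pow_le_pow_left₀ (by norm_num) h4 _).trans ?_
  rw [LL, ← Real.exp_nat_mul, ← Real.exp_nat_mul]
  refine Real.exp_le_exp.2 ?_
  push_cast
  linarith

end SPLM

open SPLM in
theorem splS (hG : GRStmt) : SPLITStmt := by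
  refine ⟨fun X A B g J G _ h0 hA hB => part1 X A B g J G h0 hA hB, ?_⟩
  filter_upwards [hG 0 1 one_pos] with X hX g J V hV hR n hn hN
  have r := rough_CV X (ww X) g J hR hn
  refine ⟨?_, r⟩
  have V0 : 0 ≤ ∏ i ∈ J, V i := Finset.prod_nonneg fun i _ =>
    (norm_nonneg _).trans (hV i 1 ⟨W1.bas.b2.one, squarefree_one⟩)
  by_cases c : CV X g J n = 0
  · rw [c, norm_zero]
    exact mul_nonneg (pow_nonneg (Real.exp_pos _).le _) V0
  · exact (norm_CV X g J V hV hn).trans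
      (mul_le_mul_of_nonneg_right (six_pow hX.1 hX.2.1 hn.1 hN (r c)) V0)

end Vale.Agent.P006.M
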