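import Vale.Agent.P006.M
import Vale.Agent.P006.M.SPL
import Vale.Agent.P006.L.All

/-! P006 row SLB: bilinear forms of the sharp large sieve. -/

noncomputable section
open Complex Finset
open scoped Classical ComplexConjugate

namespace Vale.Agent.P006.M
open Vale.Agent.P026 Vale.Agent.P006
open Vale.Agent.P006.Vau (b8)

namespace SLBM
open W1

/-- lattice sums of negative powers of the norm -/
theorem lat {σ : ℝ} (hσ : σ < 1) : ∃ C : ℝ, 0 < C ∧ ∀ (z : ℝ) (s : Finset O), 0 ≤ z →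
    (∀ m ∈ s, m ≠ 0 ∧ N m ≤ z) → ∑ m ∈ s, (z / N m) ^ σ ≤ C * z := by
  obtain ⟨r, r0, r1, hr⟩ : ∃ r : ℝ, 0 ≤ r ∧ r < 1 ∧ ∀ j : ℕ, ((2 : ℝ) ^ j) ^ σ / 2 ^ j ≤ r ^ j := by
    refine ⟨2 ^ (σ - 1), by positivity, Real.rpow_lt_one_of_one_lt_of_neg one_lt_two (by linarith),
      fun j => le_of_eq ?_⟩
    rw [← Real.rpow_natCast, ← Real.rpow_natCast, ← Real.rpow_mul zero_le_two,
      ← Real.rpow_mul zero_le_two, ← Real.rpow_sub two_pos]
    congr 1; ring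
  have : 0 < 1 - r := by linarith
  refine ⟨16 * (2 ^ σ + 1) * (1 - r)⁻¹, by positivity, fun z s hz hs => ?_⟩
  rw [← sum_fiberwise_of_maps_to (g := fun m => Nat.log 2 ⌊z / N m⌋₊)
    (t := s.image fun m => Nat.log 2 ⌊z / N m⌋₊) fun m hm => mem_image_of_mem _ hm]
  refine (sum_le_sum (g := fun j => 16 * (2 ^ σ + 1) * z * r ^ j) fun j _ => ?_).trans ?_
  · have key : ∀ m ∈ s.filter fun m => Nat.log 2 ⌊z / N m⌋₊ = j,
        2 ^ j ≤ z / N m ∧ z / N m ≤ 2 * 2 ^ j := fun m hm => by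
      obtain ⟨h1, rfl⟩ := mem_filter.1 hm
      have n1 := bas.b1.N_one_le m (hs m h1).1
      have q : 1 ≤ z / N m := (one_le_div (by linarith)).2 (hs m h1).2
      have q' : ⌊z / N m⌋₊ ≠ 0 := (Nat.floor_pos.2 q).ne'
      constructor
      · exact_mod_cast (Nat.le_floor_iff (by linarith)).1 (Nat.pow_log_le_self 2 q')
      · have := (Nat.floor_lt (by linarith)).1 (Nat.lt_pow_succ_log_self one_lt_two ⌊z / N m⌋₊)
        push_cast at this
        rw [pow_succ] at this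
        linarith
    have c := bas.b3.card_le (z / 2 ^ j) (s.filter fun m => Nat.log 2 ⌊z / N m⌋₊ = j) (by positivity)
      fun m hm => ⟨(hs m (mem_filter.1 hm).1).1, by
        have n1 := bas.b1.N_one_le m (hs m (mem_filter.1 hm).1).1
        have := (key m hm).1
        rw [le_div_iff₀ (by linarith)] at this
        rw [le_div_iff₀ (by positivity)]
        linarith⟩
    refine (sum_le_card_nsmul _ _ ((2 ^ σ + 1) * ((2 : ℝ) ^ j) ^ σ) fun m hm => ?_).trans ?_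
    · have p : (0 : ℝ) < ((2 : ℝ) ^ j) ^ σ := by positivity
      have p2 : (0 : ℝ) < 2 ^ σ := by positivity
      rcases le_total 0 σ with k | k
      · refine (Real.rpow_le_rpow (by linarith [(key m hm).1, show (0 : ℝ) < 2 ^ j by positivity])
          (key m hm).2 k).trans ?_
        rw [Real.mul_rpow zero_le_two (by positivity)]
        nlinarith
      · refine (Real.rpow_le_rpow_of_nonpos (by positivity) (key m hm).1 k).trans ?_
        nlinarith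
    · rw [nsmul_eq_mul]
      calc _ ≤ 16 * (z / 2 ^ j) * ((2 ^ σ + 1) * ((2 : ℝ) ^ j) ^ σ) := by gcongr
        _ = 16 * (2 ^ σ + 1) * z * (((2 : ℝ) ^ j) ^ σ / 2 ^ j) := by ring
        _ ≤ _ := by gcongr; exact hr j
  · rw [← mul_sum, mul_right_comm _ (1 - r)⁻¹ z, ← tsum_geometric_of_lt_one r0 r1]
    exact mul_le_mul_of_nonneg_left ((summable_geometric_of_lt_one r0 r1).sum_le_tsum _
      fun _ _ => by positivity) (by positivity)

theorem w6 : ∃ C : ℝ, 0 ≤ C ∧ ∀ (A : ℝ) (S : Finset O) (α : O → ℂ), 1 ≤ A →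
    (∀ a ∈ S, SP a ∧ N a ≤ A) → ∑ a ∈ S, ‖α a‖ * N a ^ (-1 / 6 : ℝ) ≤
      C * A ^ (1 / 3 : ℝ) * Real.sqrt (∑ a ∈ S, ‖α a‖ ^ 2) := by
  obtain ⟨C, C0, hC⟩ := lat (σ := 1 / 3) (by norm_num)
  refine ⟨Real.sqrt C, Real.sqrt_nonneg _, fun A S α hA hS => ?_⟩
  have A0 : 0 < A := by linarith
  refine (Real.sum_mul_le_sqrt_mul_sqrt S _ _).trans ?_
  rw [mul_comm]
  refine mul_le_mul_of_nonneg_right ?_ (Real.sqrt_nonneg _)
  have h := hC A S A0.le fun m hm => ⟨bas.b2.ne _ (hS m hm).1.1, (hS m hm).2⟩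
  have e : ∑ a ∈ S, (N a ^ (-1 / 6 : ℝ)) ^ 2 = A ^ (-1 / 3 : ℝ) * ∑ m ∈ S, (A / N m) ^ (1 / 3 : ℝ) := by
    rw [mul_sum]
    refine sum_congr rfl fun a ha => ?_
    have n0 := Z0.N_pos (bas.b2.ne _ (hS a ha).1.1)
    rw [Real.div_rpow A0.le n0.le, ← mul_div_assoc, ← Real.rpow_add A0, ← Real.rpow_natCast,
      ← Real.rpow_mul n0.le, div_eq_mul_inv _ (N a ^ _), ← Real.rpow_neg n0.le]
    norm_num
  have e2 : A ^ (-1 / 3 : ℝ) * (C * A) = C * (A ^ (1 / 3 : ℝ)) ^ 2 := by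
    rw [← Real.rpow_natCast, ← Real.rpow_mul A0.le, mul_left_comm, ← Real.rpow_add_one A0.ne']
    norm_num
  rw [← Real.sqrt_sq (Real.rpow_nonneg A0.le (1 / 3)), ← Real.sqrt_mul C0.le, ← e2, e]
  exact Real.sqrt_le_sqrt (mul_le_mul_of_nonneg_left h (Real.rpow_nonneg A0.le _))

theorem del_eq {a b : O} (ha : SP a) (hb : SP b) : del (a * b) = gt a * (gt b * cub a b) -
    if IsCoprime a b then ((cst * (N a ^ (-1 / 6 : ℝ) * N b ^ (-1 / 6 : ℝ)) : ℝ) : ℂ) else 0 := by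
  unfold del
  by_cases c : IsCoprime a b
  · rw [if_pos (squarefree_mul_iff.2 ⟨c.isRelPrime, ha.2, hb.2⟩), if_pos c, Z0.gt_mul ha.1 hb.1 c,
      bas.b1.N_mul, Real.mul_rpow (Vau.N0 a) (Vau.N0 b), mul_assoc]
  · rw [if_neg fun h => c (squarefree_mul_iff.1 h).1.isCoprime, if_neg c,
      bas.b6.zero _ _ (bas.b2.ne _ hb.1) c]
    simp

theorem slb (hS : SLStmt) : SLBStmt := by
  obtain ⟨C, C0, hC⟩ := hS
  obtain ⟨D, D0, hD⟩ := w6
  have c0 := Z1.cst_pos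
  refine ⟨Real.sqrt C + cst * D * D, by positivity, fun A B S T α β hA hB hS hT => ?_⟩
  have A0 : 0 < A := by linarith
  have B0 : 0 < B := by linarith
  set Q := A + B + (A * B) ^ (2 / 3 : ℝ) with hQ
  set a2 := Real.sqrt (∑ a ∈ S, ‖α a‖ ^ 2) with ha2
  set b2 := Real.sqrt (∑ b ∈ T, ‖β b‖ ^ 2) with hb2
  have e : ∑ a ∈ S, ∑ b ∈ T, α a * β b * del (a * b) =
      ∑ a ∈ S, α a * gt a * ∑ b ∈ T, β b * gt b * cub a b - ∑ a ∈ S, ∑ b ∈ T, α a * β b *
        if IsCoprime a b then ((cst * (N a ^ (-1 / 6 : ℝ) * N b ^ (-1 / 6 : ℝ)) : ℝ) : ℂ) else 0 := by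
    rw [← sum_sub_distrib]
    refine sum_congr rfl fun a ha => ?_
    rw [mul_sum, ← sum_sub_distrib]
    refine sum_congr rfl fun b hb => ?_
    rw [del_eq (hS a ha).1 (hT b hb).1]; ring
  have h1 : ‖∑ a ∈ S, α a * gt a * ∑ b ∈ T, β b * gt b * cub a b‖ ≤
      Real.sqrt C * Real.sqrt Q * a2 * b2 := by
    refine (norm_sum_le _ _).trans ?_
    rw [sum_congr rfl fun a ha => by
      rw [norm_mul, norm_mul, Z0.norm_gt (hS a ha).1.1 (hS a ha).1.2, mul_one]]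
    refine (Real.sum_mul_le_sqrt_mul_sqrt S _ _).trans ?_
    have k := hC A B A0 B0 S T (fun b => β b * gt b) hS hT
    have k0 : ∑ b ∈ T, ‖β b * gt b‖ ^ 2 = ∑ b ∈ T, ‖β b‖ ^ 2 := sum_congr rfl fun b hb => by
      rw [norm_mul, Z0.norm_gt (hT b hb).1.1 (hT b hb).1.2, mul_one]
    rw [k0] at k
    have k2 := Real.sqrt_le_sqrt k
    rw [Real.sqrt_mul (by positivity), Real.sqrt_mul C0] at k2
    calc _ ≤ a2 * (Real.sqrt C * Real.sqrt Q * b2) := mul_le_mul_of_nonneg_left k2 (Real.sqrt_nonneg _)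
      _ = _ := by ring
  have h2 : ‖∑ a ∈ S, ∑ b ∈ T, α a * β b *
      if IsCoprime a b then ((cst * (N a ^ (-1 / 6 : ℝ) * N b ^ (-1 / 6 : ℝ)) : ℝ) : ℂ) else 0‖ ≤
      cst * D * D * Real.sqrt Q * a2 * b2 := by
    have q : A ^ (1 / 3 : ℝ) * B ^ (1 / 3 : ℝ) ≤ Real.sqrt Q := by
      rw [← Real.mul_rpow A0.le B0.le]
      refine Real.le_sqrt_of_sq_le ?_
      rw [← Real.rpow_natCast, ← Real.rpow_mul (by positivity)]
      norm_num
      linarith
    calc _ ≤ ∑ a ∈ S, ∑ b ∈ T, cst * ((‖α a‖ * N a ^ (-1 / 6 : ℝ)) * (‖β b‖ * N b ^ (-1 / 6 : ℝ))) := by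
          refine (norm_sum_le _ _).trans (sum_le_sum fun a _ => (norm_sum_le _ _).trans
            (sum_le_sum fun b _ => ?_))
          have p1 := Real.rpow_nonneg (Vau.N0 a) (-1 / 6)
          have p2 := Real.rpow_nonneg (Vau.N0 b) (-1 / 6)
          split_ifs
          · rw [norm_mul, norm_mul, norm_real, Real.norm_of_nonneg (by positivity)]
            exact le_of_eq (by ring)
          · rw [mul_zero, norm_zero]; positivity
      _ = cst * ((∑ a ∈ S, ‖α a‖ * N a ^ (-1 / 6 : ℝ)) * ∑ b ∈ T, ‖β b‖ * N b ^ (-1 / 6 : ℝ)) := by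
          rw [sum_mul_sum, mul_sum]
          exact sum_congr rfl fun a _ => by rw [mul_sum]
      _ ≤ cst * ((D * A ^ (1 / 3 : ℝ) * a2) * (D * B ^ (1 / 3 : ℝ) * b2)) := by
          refine mul_le_mul_of_nonneg_left (mul_le_mul (hD A S α hA hS) (hD B T β hB hT)
            (sum_nonneg fun b _ => mul_nonneg (norm_nonneg _) (Real.rpow_nonneg (Vau.N0 b) _))
            (by positivity)) c0.le
      _ = cst * D * D * (A ^ (1 / 3 : ℝ) * B ^ (1 / 3 : ℝ)) * a2 * b2 := by ring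
      _ ≤ _ := by gcongr
  rw [e]
  refine (norm_sub_le _ _).trans ((add_le_add h1 h2).trans_eq (by ring))

/-- product of a triple -/
def pr (x : O × O × O) : O := x.1 * x.2.1 * x.2.2

theorem fib (S : Finset (O × O × O)) (hS : ∀ x ∈ S, SP x.1 ∧ SP x.2.1 ∧ SP x.2.2) {n : O} (hn : SP n) :
    (S.filter fun x => pr x = n).card ≤ 3 ^ (pf n).card := by
  have n0 := bas.b2.ne n hn.1
  let f : O × O × O → (pf n → Fin 3) := fun x p => if p.1 ∣ x.1 then 0 else if p.1 ∣ x.2.1 then 1 else 2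
  have k1 : ∀ x (p : pf n), p.1 ∣ x.1 ↔ f x p = 0 := fun x p => by
    simp only [f]; split_ifs <;> simp [*]
  have k2 : ∀ x, pr x = n → ∀ p : pf n, p.1 ∣ x.2.1 ↔ f x p = 1 := fun x e p => by
    have pp := ((b8.mem n p n0).1 p.2).1
    simp only [f]
    split_ifs with c1 c2
    · refine iff_of_false (fun c2 => pp.not_isUnit (hn.2 _ ?_)) (by decide)
      exact ((mul_dvd_mul c1 c2).trans (dvd_mul_right _ x.2.2)).trans (dvd_of_eq e)
    · simp [c2]
    · exact iff_of_false c2 (by decide)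
  have ext : ∀ a b : O, SP a → SP b → a ∣ n → b ∣ n → (∀ p : pf n, p.1 ∣ a ↔ p.1 ∣ b) → a = b := by
    intro a b s1 s2 d1 d2 h
    rw [SPLM.sp_eq s1, SPLM.sp_eq s2]
    congr 1
    ext p
    rw [b8.mem _ p (bas.b2.ne _ s1.1), b8.mem _ p (bas.b2.ne _ s2.1)]
    refine and_congr_right fun pp => and_congr_right fun pm => ?_
    by_cases c : p ∣ n
    · exact h ⟨p, (b8.mem n p n0).2 ⟨pp, pm, c⟩⟩
    · exact iff_of_false (fun h => c (h.trans d1)) (fun h => c (h.trans d2))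
  have := card_le_card_of_injOn (s := S.filter fun x => pr x = n)
    (t := univ) f (fun _ _ => mem_univ _) (by
      intro x hx y hy e
      obtain ⟨h1, e1⟩ := mem_filter.1 hx
      obtain ⟨h2, e2⟩ := mem_filter.1 hy
      have a1 : x.1 = y.1 := ext _ _ (hS x h1).1 (hS y h2).1
        (e1 ▸ ⟨x.2.1 * x.2.2, by rw [pr]; ring⟩) (e2 ▸ ⟨y.2.1 * y.2.2, by rw [pr]; ring⟩)
        fun p => by rw [k1, k1, e]
      have a2 : x.2.1 = y.2.1 := ext _ _ (hS x h1).2.1 (hS y h2).2.1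
        (e1 ▸ ⟨x.1 * x.2.2, by rw [pr]; ring⟩) (e2 ▸ ⟨y.1 * y.2.2, by rw [pr]; ring⟩)
        fun p => by rw [k2 x e1, k2 y e2, e]
      have a3 : x.2.2 = y.2.2 := by
        have := e1.trans e2.symm
        rw [pr, pr, a1, a2] at this
        exact mul_left_cancel₀ (mul_ne_zero (bas.b2.ne _ (hS y h2).1.1) (bas.b2.ne _ (hS y h2).2.1.1)) this
      exact Prod.ext a1 (Prod.ext a2 a3))
  simpa using this

theorem coll (A : ℝ) (S : Finset (O × O × O)) (α : O × O × O → ℂ)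
    (hS : ∀ x ∈ S, SP x.1 ∧ SP x.2.1 ∧ SP x.2.2 ∧ N (x.1 * x.2.1 * x.2.2) ≤ A) :
    ∃ (U : Finset O) (γ : O → ℂ), (∀ a ∈ U, SP a ∧ N a ≤ A) ∧
      ∑ a ∈ U, ‖γ a‖ ^ 2 ≤ ∑ x ∈ S,
        3 ^ (pf x.1).card * 3 ^ (pf x.2.1).card * 3 ^ (pf x.2.2).card * ‖α x‖ ^ 2 ∧
      ∀ H : O → ℂ, (∀ n, ¬ Squarefree n → H n = 0) →
        ∑ x ∈ S, α x * H (pr x) = ∑ a ∈ U, γ a * H a := by
  set S1 := S.filter fun x => Squarefree (pr x) with hS1
  have hU : ∀ a ∈ S1.image pr, SP a ∧ N a ≤ A := fun a ha => by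
    obtain ⟨x, hx, rfl⟩ := mem_image.1 ha
    obtain ⟨h1, h2⟩ := mem_filter.1 hx
    obtain ⟨a1, a2, a3, a4⟩ := hS x h1
    exact ⟨⟨bas.b2.mul _ _ (bas.b2.mul _ _ a1.1 a2.1) a3.1, h2⟩, a4⟩
  refine ⟨S1.image pr, fun a => ∑ x ∈ S1.filter fun x => pr x = a, α x, hU, ?_, fun H hH => ?_⟩
  · refine le_trans ?_ (sum_le_sum_of_subset_of_nonneg (filter_subset _ S : S1 ⊆ S)
      fun _ _ _ => by positivity)
    rw [← sum_fiberwise_of_maps_to (s := S1) (g := pr) fun x hx => mem_image_of_mem _ hx]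
    refine sum_le_sum fun a ha => ?_
    have c : (((S1.filter fun x => pr x = a).card : ℕ) : ℝ) ≤ 3 ^ (pf a).card := by
      exact_mod_cast fib S1 (fun x hx => let h := hS x (mem_filter.1 hx).1; ⟨h.1, h.2.1, h.2.2.1⟩)
        (hU a ha).1
    calc _ ≤ (∑ x ∈ S1.filter fun x => pr x = a, ‖α x‖) ^ 2 :=
          pow_le_pow_left₀ (norm_nonneg _) (norm_sum_le _ _) 2
      _ ≤ _ := sq_sum_le_card_mul_sum_sq
      _ ≤ 3 ^ (pf a).card * ∑ x ∈ S1.filter fun x => pr x = a, ‖α x‖ ^ 2 :=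
          mul_le_mul_of_nonneg_right c (sum_nonneg fun _ _ => sq_nonneg _)
      _ ≤ _ := by
          rw [mul_sum]
          refine sum_le_sum fun x hx => mul_le_mul_of_nonneg_right ?_ (sq_nonneg _)
          obtain ⟨h1, rfl⟩ := mem_filter.1 hx
          obtain ⟨a1, a2, a3, -⟩ := hS x (mem_filter.1 h1).1
          have n1 := bas.b2.ne _ a1.1
          have n2 := bas.b2.ne _ a2.1
          rw [← pow_add, ← pow_add, pr, b8.pf_mul _ _ (mul_ne_zero n1 n2) (bas.b2.ne _ a3.1),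
            b8.pf_mul _ _ n1 n2]
          exact pow_le_pow_right₀ (by norm_num)
            ((card_union_le _ _).trans (Nat.add_le_add_right (card_union_le _ _) _))
  · rw [← sum_filter_add_sum_filter_not S (fun x => Squarefree (pr x)),
      sum_eq_zero (s := S.filter fun x => ¬ Squarefree (pr x))
        fun x hx => by rw [hH _ (mem_filter.1 hx).2, mul_zero], add_zero,
      ← sum_fiberwise_of_maps_to (s := S1) (g := pr) fun x hx => mem_image_of_mem _ hx]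
    refine sum_congr rfl fun a _ => ?_
    rw [sum_mul]
    exact sum_congr rfl fun x hx => by rw [(mem_filter.1 hx).2]

end SLBM

theorem slbS : SLBStmt := SLBM.slb LAll.sl

open SLBM in
theorem sliS (h : SLBStmt) : SLIStmt := by
  obtain ⟨C, C0, hC⟩ := h
  refine ⟨C, C0, fun A B S T α β hA hB hS hT S' hS' T' hT' => ?_⟩
  obtain ⟨U, γ, u1, u2, u3⟩ := coll A S' α fun x hx => hS x (hS' hx)
  obtain ⟨V, δ, v1, v2, v3⟩ := coll B T' β fun x hx => hT x (hT' hx)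
  have d0 : ∀ n, ¬ Squarefree n → del n = 0 := fun n hn => if_neg hn
  have e : ∑ x ∈ S', ∑ y ∈ T', α x * β y * del (x.1 * x.2.1 * x.2.2 * (y.1 * y.2.1 * y.2.2)) =
      ∑ a ∈ U, ∑ b ∈ V, γ a * δ b * del (a * b) := by
    have e1 : ∀ a : O, ∑ y ∈ T', β y * del (a * pr y) = ∑ b ∈ V, δ b * del (a * b) := fun a =>
      v3 (fun b => del (a * b)) fun n hn => d0 _ fun k => hn k.of_mul_right
    have e2 := u3 (fun a => ∑ b ∈ V, δ b * del (a * b)) fun n hn =>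
      sum_eq_zero fun b _ => by rw [d0 _ fun k => hn k.of_mul_left, mul_zero]
    simp only [mul_assoc (γ _), ← mul_sum]
    rw [← e2]
    refine sum_congr rfl fun x _ => ?_
    rw [← e1, mul_sum]
    exact sum_congr rfl fun y _ => by rw [mul_assoc]; rfl
  rw [e]
  refine (hC A B U V γ δ hA hB u1 v1).trans ?_
  gcongr

end Vale.Agent.P006.M
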