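import Vale.Agent.P006.M
import Vale.Agent.P006.C5

/-! P006 main branch: cancellation in character sums over boxes. -/

noncomputable section
open Complex Finset Filter
open scoped Classical

namespace Vale.Agent.P006.M

open Vale.Agent.P026 W1
open Vale.Agent.P006.Vau (PS Lam mem_PS N0 N1 b8)

namespace SWM

theorem mono (b : O → ℂ) (φ : ℕ → ℝ) {V : ℝ} (h0 : ∀ k, 0 ≤ φ k ∧ φ k ≤ V) (h1 : Monotone φ) {x B : ℝ}
    (hx : 1 ≤ x) (h : ∀ y, 1 ≤ y → y ≤ x → ‖∑ n ∈ PS y, b n‖ ≤ B) :
    ‖∑ n ∈ PS x, b n * φ (Nn n)‖ ≤ 2 * B * V := by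
  have a := QG.abel_anti b (fun k => V - φ k) (fun k => sub_nonneg.2 (h0 k).2)
    (fun i j k => sub_le_sub_left (h1 k) V) hx h
  have c := h x hx le_rfl
  have e : ∑ n ∈ PS x, b n * φ (Nn n) =
      (∑ n ∈ PS x, b n) * V - ∑ n ∈ PS x, b n * (V - φ (Nn n) : ℝ) := by
    rw [sum_mul, ← sum_sub_distrib]
    exact sum_congr rfl fun n _ => by push_cast; ring
  have V0 := (h0 1).1.trans (h0 1).2
  rw [e]
  refine (norm_sub_le _ _).trans ?_
  rw [norm_mul, norm_real, Real.norm_of_nonneg V0]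
  nlinarith [(h0 1).1, (norm_nonneg _).trans c]

theorem gr (hG : GRStmt) (c : ℝ) (k : ℕ) {δ : ℝ} (h0 : 0 < δ) (h1 : δ ≤ 1) : ∀ᶠ X : ℝ in atTop,
    3 ≤ X ∧ 1 ≤ Real.log X ∧ 2 ≤ ww X ∧ (c * Real.log X) ^ k ≤ ww X ^ δ ∧ c ≤ X := by
  filter_upwards [hG (|c| + 2 * k + 1) δ h0] with X ⟨a1, a2, a3, _, a5, a6, _, _, a9, a10⟩
  have l1 : 1 ≤ Real.log X := by
    rw [Real.le_log_iff_exp_le (by linarith)]; linarith [Real.exp_one_lt_three]
  have l2 : ll X ≤ Real.log X := Real.log_le_self (by linarith)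
  have l3 : Real.log X ≤ X := Real.log_le_self (by linarith)
  have k0 : (0 : ℝ) ≤ k := k.cast_nonneg
  have c0 := abs_nonneg c
  refine ⟨a1, l1, a9, ?_, by linarith [le_abs_self c]⟩
  calc _ ≤ |c * Real.log X| ^ k := (le_abs_self _).trans (abs_pow _ _).le
    _ ≤ (Real.log X ^ 2) ^ k := pow_le_pow_left₀ (abs_nonneg _) (by
        rw [abs_mul, abs_of_nonneg (by linarith : 0 ≤ Real.log X)]; nlinarith) k
    _ ≤ Real.log X ^ (|c| + 2 * k + 1) := by
        rw [← pow_mul, ← Real.rpow_natCast]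
        exact Real.rpow_le_rpow_of_exponent_le l1 (by push_cast; linarith)
    _ ≤ LL X ^ (|c| + 2 * k + 1) := a5.trans (Real.rpow_le_rpow_of_exponent_le a10 (by linarith))
    _ ≤ _ := a6

end SWM

open SWM in
theorem sw1S (hG : GRStmt) : SW1Stmt := by
  obtain ⟨C, C0, hC⟩ := QG.rough
  have mem := (memS bas).1
  filter_upwards [gr hG (80 * C) 1 (δ := 1 / 300) (by norm_num) (by norm_num)] with X
    ⟨X3, l1, w2, gw, _⟩ t Y V y g h b ht Y1 Y2 V0 ⟨η, v1, v2, hη, m1, m2, hv, hg⟩ h0 hh hN hb _ bN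
  have Y3 : 1 < Y := (Real.one_lt_rpow (by linarith) (by norm_num)).trans_le Y1
  have b0 := bas.b2.ne b hb.1
  set c : O → ℂ := fun n => if n ≠ 1 ∧ Squarefree n ∧ Rough (ww X) n then
    η ^ (pf n).card * cub (h * b ^ 3) n * (N n : ℂ) ^ (t * I) else 0 with hc
  set B := C * (2 * Y) * ww X ^ (-(1 / 100) : ℝ) * (20 * Real.log X) with hB
  have p0 : ∀ z, 1 ≤ z → z ≤ 2 * Y → ‖∑ n ∈ PS z, c n‖ ≤ B := fun z z1 z2 => by
    have a := hC _ (mul_ne_zero h0 (pow_ne_zero 3 b0)) (QG.not_cube b0 hh) (fun k => η ^ k)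
      (fun k => by rcases hη with rfl | rfl <;> simp) t (ww X) z (by linarith) z1
    rw [hc, ← sum_filter]
    refine le_of_eq_of_le (congrArg norm (sum_congr ?_ fun _ _ => rfl)) (a.trans ?_)
    · ext n
      rw [QG.RS, mem_filter, mem_erase, mem_filter, Rough]
      tauto
    · have t0 := abs_nonneg t
      have n1 := bas.b1.N_one_le _ (mul_ne_zero h0 (pow_ne_zero 3 b0))
      have : Real.log (N (h * b ^ 3) * z * (|t| + 3)) ≤ 20 * Real.log X := by
        rw [← Nat.cast_ofNat (R := ℝ) (n := 20), ← Real.log_pow]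
        refine Real.log_le_log (by positivity) ?_
        rw [bas.b1.N_mul, bas.b1.N_pow]
        have := N0 b
        calc _ ≤ X ^ 10 * (X ^ 2) ^ 3 * (X * X) * (X * X) := by gcongr <;> nlinarith
          _ = _ := by ring
      have l0 : 0 ≤ Real.log (N (h * b ^ 3) * z * (|t| + 3)) :=
        Real.log_nonneg (by nlinarith [mul_le_mul n1 z1 zero_le_one (by linarith)])
      rw [hB]
      gcongr
  set φ : ℕ → ℝ := fun k => if Y ≤ k then (if (k : ℝ) < 2 * Y then v1 k else V) else 0 with hφ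
  set ψ : ℕ → ℝ := fun k => if (k : ℝ) < 2 * Y ∧ (k : ℝ) ≤ y then v2 (max k 1) else 0 with hψ
  have φ0 : ∀ k, 0 ≤ φ k ∧ φ k ≤ V := fun k => by
    simp only [hφ]
    split_ifs with k1 k2
    exacts [⟨(hv k (by linarith) k2).1, (hv k (by linarith) k2).2.1⟩, ⟨V0, le_rfl⟩, ⟨le_rfl, V0⟩]
  have φ1 : Monotone φ := fun i j k => by
    have k' : (i : ℝ) ≤ j := Nat.cast_le.2 k
    by_cases k1 : Y ≤ i
    · by_cases k2 : (j : ℝ) < 2 * Y
      · simp only [hφ, if_pos k1, if_pos (k1.trans k'), if_pos k2, if_pos (k'.trans_lt k2)]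
        exact m1 (show (1 : ℝ) ≤ i by linarith) (show (1 : ℝ) ≤ j by linarith) k'
      · refine (φ0 i).2.trans (le_of_eq ?_)
        simp only [hφ, if_pos (k1.trans k'), if_neg k2]
    · refine le_trans (le_of_eq ?_) (φ0 j).1
      simp only [hφ, if_neg k1]
  have ψ0 : ∀ k, 0 ≤ ψ k ∧ ψ k ≤ 1 := fun k => by
    simp only [hψ]
    split_ifs with k1
    exacts [(hv _ (le_max_right _ _) (max_lt k1.1 (by linarith))).2.2, ⟨le_rfl, zero_le_one⟩]
  have ψ1 : Antitone ψ := fun i j k => by
    have k' : (i : ℝ) ≤ j := Nat.cast_le.2 k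
    by_cases k1 : (j : ℝ) < 2 * Y ∧ (j : ℝ) ≤ y
    · simp only [hψ, if_pos k1, if_pos (And.intro (k'.trans_lt k1.1) (k'.trans k1.2))]
      exact m2 (Set.mem_Ici.2 (le_max_right _ _)) (Set.mem_Ici.2 (le_max_right _ _))
        (max_le_max k' le_rfl)
    · refine le_trans (le_of_eq ?_) (ψ0 i).1
      simp only [hψ, if_neg k1]
  have a := QG.abel_anti (fun n => c n * φ (Nn n)) ψ (fun k => (ψ0 k).1) ψ1 (x := 2 * Y) (by linarith)
    fun z z1 z2 => mono c φ φ0 φ1 z1 fun u u1 u2 => p0 u u1 (u2.trans z2)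
  have e : (∑ n ∈ SQ y, if IsCoprime n b then g n * cub h n else 0) =
      ∑ n ∈ PS (2 * Y), (if Prim n then c n * φ (Nn n) * ψ (Nn n) else 0) := by
    rw [← tsum_eq_sum (L := .unconditional O) (s := PS (2 * Y)) fun n hn => ?_,
      tsum_eq_sum (s := SQ y) fun n hn => ?_]
    · refine sum_congr rfl fun n hn => ?_
      obtain ⟨n1, n2⟩ := (mem _ _).1 hn
      rw [hg n n1, if_pos n1.1]
      simp only [hc, hφ, hψ, QG.cub_cube h n1.1, isCoprime_comm (x := b)]
      change _ = _ * ((if Y ≤ N n then if N n < 2 * Y then v1 (N n) else V else 0 : ℝ) : ℂ) *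
        ((if N n < 2 * Y ∧ N n ≤ y then v2 (max (N n) 1) else 0 : ℝ) : ℂ)
      rw [max_eq_left (N1 n1.1)]
      by_cases k1 : Y ≤ N n
      swap
      · simp [k1]
      have k0 : n ≠ 1 := by rintro rfl; rw [Vau.N_one] at k1; linarith
      by_cases k2 : N n < 2 * Y <;> by_cases k3 : Rough (ww X) n <;> by_cases k4 : IsCoprime n b <;>
        simp [k0, k1, k2, k3, k4, n1.2, n2]
      ring
    · split_ifs with k
      · by_cases k' : Squarefree n
        · have : ¬ (Nn n : ℝ) ≤ y := fun z => hn ((mem _ _).2 ⟨⟨k, k'⟩, z⟩)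
          simp [hψ, this]
        · simp [hc, k']
      · rfl
    · split_ifs with k
      · have : ¬ (Nn n : ℝ) < 2 * Y := fun z => hn (mem_PS.2 ⟨k, z.le⟩)
        simp [hψ, this]
      · rfl
  rw [e, sum_congr rfl fun n hn => if_pos (mem_PS.1 hn).1]
  have w0 : 0 < ww X := by linarith
  refine a.trans ((mul_le_of_le_one_right (by positivity) (ψ0 1).2).trans ?_)
  rw [pow_one] at gw
  calc _ = V * Y * (ww X ^ (-(1 / 100) : ℝ) * (80 * C * Real.log X)) := by rw [hB]; ring
    _ ≤ V * Y * (ww X ^ (-(1 / 100) : ℝ) * ww X ^ (1 / 300 : ℝ)) := by gcongr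
    _ = _ := by rw [← Real.rpow_add w0]; norm_num

open SWM in
theorem swS (hG : GRStmt) (_ : SPLITStmt) (_ : NRMStmt) (h1 : SW1Stmt) : SWStmt := by
  have mem := (memS bas).1
  filter_upwards [gr hG 32 6 (δ := 1 / 600) (by norm_num) (by norm_num), h1] with X
    ⟨X3, l1, w2, gw, X32⟩ hS t k g J h y ht hB lo hi h0 hh hN
  have X1 : 1 < X ^ (3 / 10 : ℝ) := Real.one_lt_rpow (by linarith) (by norm_num)
  obtain ⟨i, hi1, hi2⟩ := exists_max_image J k (nonempty_iff_ne_empty.2 fun e => by
    rw [e, sum_empty, pow_zero] at lo; linarith)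
  have big : X ^ (1 / 20 : ℝ) ≤ 2 ^ k i := by
    have a1 : ∑ j ∈ J, k j ≤ k i * 6 := (sum_le_card_nsmul _ _ _ hi2).trans (by
      rw [smul_eq_mul, mul_comm]; exact Nat.mul_le_mul_left _ (card_le_univ J))
    refine le_of_pow_le_pow_left₀ (n := 6) (by norm_num) (by positivity) ?_
    rw [← pow_mul, ← Real.rpow_natCast, ← Real.rpow_mul (by linarith)]
    exact (le_of_eq (by norm_num)).trans (lo.trans (pow_le_pow_right₀ one_le_two a1))
  have sJ : ∑ j ∈ J, k j = k i + ∑ j ∈ J.erase i, k j := (add_sum_erase J k hi1).symm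
  have Vl : ∀ j : Fin 6, 0 ≤ (if j = 5 then Real.log X else 1) ∧
      (if j = 5 then Real.log X else 1) ≤ Real.log X := fun j => by split_ifs <;> constructor <;> linarith
  have at1 : ∀ j n, SP n → ‖g j n‖ ≤ Real.log X ∧ (g j n ≠ 0 → Rough (ww X) n ∧ N n ≤ 2 * 2 ^ k j) :=
    fun j n hn => by
      obtain ⟨η, v1, v2, hη, -, -, hv, hg⟩ := (hB j).2
      rw [hg n hn]
      split_ifs with c
      · have p := N1 hn.1
        obtain ⟨a1, a2, a3, a4⟩ := hv _ p c.2.2
        refine ⟨?_, fun _ => ⟨c.1, c.2.2.le⟩⟩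
        rw [norm_mul, norm_mul, norm_cpow_eq_rpow_re_of_pos (by linarith), norm_real,
          Real.norm_of_nonneg (by positivity), norm_pow,
          show ‖η‖ = 1 by rcases hη with rfl | rfl <;> simp]
        simpa using (mul_le_of_le_one_right a1 a4).trans (a2.trans (Vl j).2)
      · exact ⟨by rw [norm_zero]; linarith, fun z => (z rfl).elim⟩
  set G : O → ℂ := fun n => if n ∈ SQ y then cub h n else 0 with hG'
  set T := Fintype.piFinset fun j : Fin 6 => if j ∈ J.erase i then PS (2 * X) else {1} with hT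
  have e : ∑ b ∈ SQ y, CV X g J b * cub h b = ∑ x ∈ T, (∏ j ∈ J.erase i, g j (x j)) *
      ∑ n ∈ PS (2 * X), g i n * G ((∏ j, x j) * n) := by
    simp only [CV, sum_mul, mul_sum]
    rw [sum_comm, ← sum_product' T]
    refine sum_nbij' (fun x => (Function.update x i 1, x i)) (fun p => Function.update p.1 i p.2)
      (fun x hx => ?_) (fun p hp => ?_) (fun x _ => by simp) (fun p hp => ?_) fun x _ => ?_
    · rw [Fintype.mem_piFinset] at hx
      refine mem_product.2 ⟨Fintype.mem_piFinset.2 fun j => ?_, by simpa [hi1] using hx i⟩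
      by_cases c : j = i
      · simp [c]
      · simpa [c] using hx j
    · obtain ⟨p1, p2⟩ := mem_product.1 hp
      refine Fintype.mem_piFinset.2 fun j => ?_
      by_cases c : j = i
      · simpa [c, hi1] using p2
      · simpa [c] using Fintype.mem_piFinset.1 p1 j
    · have := Fintype.mem_piFinset.1 (mem_product.1 hp).1 i
      simp only [mem_erase, ne_eq, not_true, false_and, if_false, mem_singleton] at this
      simp [← this]
    · simp only [ite_mul, zero_mul, sum_ite_eq, hG']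
      rw [prod_update_of_mem (mem_univ i), one_mul, ← erase_eq, prod_erase_mul _ _ (mem_univ i),
        ← mul_prod_erase J _ hi1, prod_congr (s₂ := J.erase i) (g := fun j => g j (x j))
          (f := fun j => g j (Function.update x i 1 j)) rfl fun j hj => by
          rw [Function.update_of_ne (mem_erase.1 hj).1]]
      split_ifs <;> ring
  set u : Fin 6 → O → ℝ := fun j n => if j ∈ J.erase i then (if SP n then ‖g j n‖ else 0) else 1
    with hu
  have u0 : ∀ j n, 0 ≤ u j n := fun j n => by simp only [hu]; split_ifs <;> positivity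
  have w0 : 0 < ww X := by linarith
  rw [e]
  refine (norm_sum_le_of_le _ (n := fun x => (∏ j, u j (x j)) *
    (Real.log X * 2 ^ k i * ww X ^ (-1 / 150 : ℝ))) fun x hx => ?_).trans ?_
  · have xp : ∀ j, Prim (x j) ∧ (j ∉ J.erase i → x j = 1) := fun j => by
      have := Fintype.mem_piFinset.1 hx j
      split_ifs at this with c
      · exact ⟨(mem_PS.1 this).1, fun z => (z c).elim⟩
      · rw [mem_singleton.1 this]; exact ⟨bas.b2.one, fun _ => rfl⟩
    have ap : Prim (∏ j, x j) := prod_induction _ Prim bas.b2.mul bas.b2.one fun j _ => (xp j).1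
    have a0 := bas.b2.ne _ ap
    have a1 := N1 ap
    have nn : 0 ≤ (∏ j, u j (x j)) * (Real.log X * 2 ^ k i * ww X ^ (-1 / 150 : ℝ)) :=
      mul_nonneg (prod_nonneg fun j _ => u0 _ _) (by positivity)
    by_cases sqf : Squarefree (∏ j, x j)
    swap
    · rw [sum_eq_zero fun n _ => by
        rw [hG']; simp only; rw [if_neg fun z => sqf ((mem _ _).1 z).1.2.of_mul_left, mul_zero]]
      simpa using nn
    have xs : ∀ j, SP (x j) := fun j => ⟨(xp j).1, sqf.squarefree_of_dvd (dvd_prod_of_mem _ (mem_univ j))⟩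
    by_cases z : ∏ j ∈ J.erase i, g j (x j) = 0
    · rw [z]; simpa using nn
    have gz := prod_ne_zero_iff.1 z
    have ea : ∏ j, x j = ∏ j ∈ J.erase i, x j :=
      (prod_subset (subset_univ _) fun j _ hj => (xp j).2 hj).symm
    have ro : Rough (ww X) (∏ j, x j) := fun p hp => by
      obtain ⟨p1, p2, p3⟩ := (b8.mem _ p a0).1 hp
      rw [ea] at p3
      obtain ⟨j, j1, j2⟩ := (p1.dvd_finsetProd_iff _).1 p3
      exact ((at1 j _ (xs j)).2 (gz j j1)).1 p ((b8.mem _ p (bas.b2.ne _ (xp j).1)).2 ⟨p1, p2, j2⟩)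
    have aN : N (∏ j, x j) ≤ X ^ 2 := by
      have : ∀ s : Finset (Fin 6), N (∏ j ∈ s, x j) = ∏ j ∈ s, N (x j) := fun s =>
        map_prod (⟨⟨N, Vau.N_one⟩, bas.b1.N_mul⟩ : O →* ℝ) x s
      rw [ea, this]
      refine (prod_le_prod (fun j _ => N0 _) fun j hj => ((at1 j _ (xs j)).2 (gz j hj)).2).trans ?_
      rw [prod_mul_distrib, prod_const, prod_pow_eq_pow_sum, sq]
      refine mul_le_mul (le_trans (pow_le_pow_right₀ one_le_two (n := 5) ?_) (by linarith))
        ((pow_le_pow_right₀ one_le_two (by omega)).trans hi) (by positivity) (by linarith)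
      have := card_le_univ J
      rw [card_erase_of_mem hi1]
      simp only [Fintype.card_fin] at this
      omega
    have kX : (2 : ℝ) ^ k i ≤ X := (pow_le_pow_right₀ one_le_two (by omega)).trans hi
    have key := hS t _ _ (y / N (∏ j, x j)) (g i) h _ ht big kX (Vl i).1 (hB i).2 h0 hh hN ⟨ap, sqf⟩ ro aN
    have e2 : ∑ n ∈ PS (2 * X), g i n * G ((∏ j, x j) * n) = cub h (∏ j, x j) *
        ∑ n ∈ SQ (y / N (∏ j, x j)), if IsCoprime n (∏ j, x j) then g i n * cub h n else 0 := by
      generalize ∏ j, x j = a at *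
      have m : ∀ n, Prim n → (a * n ∈ SQ y ↔ n ∈ SQ (y / N a) ∧ IsCoprime n a) := fun n hn => by
        rw [mem, mem, SP, SP, squarefree_mul_iff, bas.b1.N_mul, le_div_iff₀ (by linarith), mul_comm (N n),
          isRelPrime_iff_isCoprime, isCoprime_comm]
        exact ⟨fun z => ⟨⟨⟨hn, z.1.2.2.2⟩, z.2⟩, z.1.2.1⟩,
          fun z => ⟨⟨bas.b2.mul _ _ ap hn, z.2, sqf, z.1.1.2⟩, z.1.2⟩⟩
      have f1 := tsum_eq_sum (L := .unconditional O) (s := PS (2 * X))
        (f := fun n => if Prim n then g i n * G (a * n) else 0) fun n hn => by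
          split_ifs with c
          · by_contra q
            have s : SP n := ((mem _ _).1 ((m n c).1
              (by_contra fun s => right_ne_zero_of_mul q (if_neg s))).1).1
            exact hn (mem_PS.2 ⟨c, by linarith [((at1 i n s).2 (left_ne_zero_of_mul q)).2]⟩)
          · rfl
      have f2 := tsum_eq_sum (L := .unconditional O) (s := SQ (y / N a))
        (f := fun n => if Prim n then g i n * G (a * n) else 0) fun n hn => by
          split_ifs with c
          · rw [hG']; simp only; rw [if_neg fun s => hn ((m n c).1 s).1, mul_zero]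
          · rfl
      rw [mul_sum]
      refine (sum_congr rfl fun n hn => (if_pos (mem_PS.1 hn).1).symm).trans
        ((f1.symm.trans f2).trans (sum_congr rfl fun n hn => ?_))
      have c := ((mem _ _).1 hn).1.1
      simp only [hG', if_pos c, m n c, hn, true_and, bas.b6.mul_r _ _ _ a0 (bas.b2.ne n c)]
      split_ifs <;> ring
    rw [e2, norm_mul, norm_mul, norm_prod]
    refine mul_le_mul (le_of_eq ?_) ((mul_le_of_le_one_left (norm_nonneg _)
      (bas.b6.norm_le _ _)).trans (key.trans ?_)) (by positivity) (prod_nonneg fun j _ => u0 _ _)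
    · simp only [hu, xs, if_true]
      rw [prod_ite_mem, univ_inter]
    · gcongr
      exact (Vl i).2
  · rw [← sum_mul, hT, ← prod_univ_sum]
    have b1 : ∀ j, ∑ n ∈ (if j ∈ J.erase i then PS (2 * X) else {1}), u j n ≤
        if j ∈ J.erase i then 32 * Real.log X * 2 ^ k j else 1 := fun j => by
      simp only [hu]
      split_ifs with c
      · rw [← sum_filter_of_ne (p := fun n => N n ≤ 2 * 2 ^ k j) fun n _ z => by
          have s : SP n := by_contra fun s => z (if_neg s)
          exact ((at1 j n s).2 fun q => z (by simp [q])).2]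
        refine (sum_le_card_nsmul _ _ (Real.log X) fun n _ => ?_).trans ?_
        · split_ifs with s
          exacts [(at1 j n s).1, by linarith]
        · rw [nsmul_eq_mul]
          refine (mul_le_mul_of_nonneg_right (bas.b3.card_le (2 * 2 ^ k j) _ (by positivity)
            fun n hn => ⟨bas.b2.ne n (mem_PS.1 (mem_filter.1 hn).1).1, (mem_filter.1 hn).2⟩)
            (by linarith)).trans (le_of_eq (by ring))
      · simp
    refine (mul_le_mul_of_nonneg_right (prod_le_prod (fun j _ => sum_nonneg fun n _ => u0 _ _)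
      fun j _ => b1 j) (by positivity)).trans ?_
    rw [prod_ite_mem, univ_inter, prod_mul_distrib, prod_const, prod_pow_eq_pow_sum, sJ, pow_add]
    have b2 : (32 * Real.log X) ^ (J.erase i).card * Real.log X ≤ ww X ^ (1 / 600 : ℝ) := by
      refine le_trans ?_ gw
      have := card_le_univ J
      simp only [Fintype.card_fin] at this
      rw [pow_succ _ 5]
      exact mul_le_mul (pow_le_pow_right₀ (by linarith) (by rw [card_erase_of_mem hi1]; omega))
        (by linarith) (by linarith) (by positivity)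
    calc _ = 2 ^ k i * 2 ^ (∑ j ∈ J.erase i, k j) * ((32 * Real.log X) ^ (J.erase i).card *
          Real.log X * ww X ^ (-1 / 150 : ℝ)) := by ring
      _ ≤ 2 ^ k i * 2 ^ (∑ j ∈ J.erase i, k j) * (ww X ^ (1 / 600 : ℝ) * ww X ^ (-1 / 150 : ℝ)) := by
          gcongr
      _ = _ := by rw [← Real.rpow_add w0]; norm_num

end Vale.Agent.P006.M
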