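import Vale.Agent.P006.M.T2a

/-! P006 main branch: the type II range. -/

noncomputable section
open Complex Finset Filter
open scoped Classical ComplexConjugate

namespace Vale.Agent.P006.M
open Vale.Agent.P026 Vale.Agent.P006 D.D1M

namespace T2M

theorem cut (Z Z' : ℝ) (f : O → ℂ) : ∑ n ∈ SQ Z', (if Z < N n then f n else 0) =
    ∑ n ∈ SQ Z', f n - ∑ n ∈ SQ (min Z Z'), f n := by
  have : SQ (min Z Z') = (SQ Z').filter fun n => ¬ Z < N n := by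
    ext n; simp only [mem_filter, mSQ, le_min_iff, not_lt]; tauto
  rw [this, sum_filter, ← sum_sub_distrib]
  refine sum_congr rfl fun n _ => ?_
  split_ifs <;> simp

theorem shell {A : ℝ} (hA : 0 < A) (F : O → ℂ) (h : ∀ a, SP a → F a ≠ 0 → A ≤ N a) (m : ℕ) :
    ∑ a ∈ SQ (A * 2 ^ m), F a =
      ∑ i ∈ range (m + 1), ∑ a ∈ SQ (A * 2 ^ i), if A * 2 ^ i / 2 < N a then F a else 0 := by
  induction m with
  | zero =>
    rw [zero_add, sum_range_one]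
    refine sum_congr rfl fun a ha => ?_
    split_ifs with k
    · rfl
    · by_contra k2
      have := h a (mSQ.1 ha).1 k2
      exact k (by rw [pow_zero]; linarith)
  | succ m ih =>
    have : 0 < A * 2 ^ m := by positivity
    rw [sum_range_succ, ← ih, cut, min_eq_left (by rw [pow_succ]; linarith),
      show A * 2 ^ (m + 1) / 2 = A * 2 ^ m by ring]
    ring

theorem rneg {L x s : ℝ} (hL : 1 ≤ L) (n m : ℕ) (hx : L ^ n ≤ x) (hs : s ≤ 0) (h : n * s ≤ -m) :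
    x ^ s ≤ (L ^ m)⁻¹ := by
  have h0 : 0 < L := by linarith
  calc x ^ s ≤ (L ^ n) ^ s := Real.rpow_le_rpow_of_nonpos (by positivity) hx hs
    _ = L ^ (n * s) := by rw [← Real.rpow_natCast, ← Real.rpow_mul h0.le]
    _ ≤ L ^ (-(m : ℝ)) := Real.rpow_le_rpow_of_exponent_le hL h
    _ = _ := by rw [Real.rpow_neg h0.le, Real.rpow_natCast]

theorem atom {w Y V t : ℝ} {g : O → ℂ} (h : Atom w Y V t g) (hV : 0 ≤ V) {n : O} (hn : SP n) :
    ‖g n‖ ≤ V ∧ (g n ≠ 0 → Rough w n) := by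
  obtain ⟨η, v1, v2, hη, -, -, h1, h2⟩ := h
  rw [h2 n hn]
  split_ifs with k
  · refine ⟨?_, fun _ => k.1⟩
    have n1 := W1.bas.b1.N_one_le n (W1.bas.b2.ne n hn.1)
    obtain ⟨a1, a2, a3, a4⟩ := h1 _ n1 k.2.2
    have e : ‖η‖ = 1 := by rcases hη with rfl | rfl <;> simp
    rw [norm_mul, norm_mul, norm_pow, e, one_pow, one_mul,
      Complex.norm_cpow_eq_rpow_re_of_pos (by linarith), Complex.norm_real,
      Real.norm_of_nonneg (mul_nonneg a1 a3)]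
    simp only [mul_re, ofReal_re, I_re, ofReal_im, I_im, mul_zero, sub_zero, Real.rpow_zero,
      mul_one]
    nlinarith
  · simp [hV]

theorem rough {w : ℝ} {n : O} (hn : Prim n) (h : Rough w n) (p : O) (hp : Prime p) (hd : p ∣ n) :
    w < N p := by
  obtain ⟨u, hu, h1⟩ := W1.bas.b2.ex p ((W1.bas.b2.cop n hn).of_isCoprime_of_dvd_left hd)
  have := h (u * p) (((b8S W1.bas).mem n _ (W1.bas.b2.ne n hn)).2
    ⟨(associated_isUnit_mul_left_iff hu).2 (Associated.refl p) |>.symm.prime hp, h1,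
      (hu.mul_left_dvd).2 hd⟩)
  have e : N u = 1 := by
    have := (W1.bas.b1.unit_iff u).1 hu
    simp [N, this]
  rwa [W1.bas.b1.N_mul, e, one_mul] at this

theorem sq_nc {h : O} (h0 : h ≠ 0) (hh : ¬ D.IsCu h) : ¬ ∃ c, h ^ 2 = c ^ 3 := by
  rintro ⟨c, hc⟩
  have : h ^ 3 ∣ (c ^ 2) ^ 3 := ⟨h, by rw [← pow_mul, mul_comm 2 3, pow_mul, ← hc]; ring⟩
  obtain ⟨d, hd⟩ := (IsIntegrallyClosed.pow_dvd_pow_iff (n := 3) (by norm_num)).1 this
  refine hh ⟨d, mul_left_cancel₀ (pow_ne_zero 3 h0) ?_⟩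
  rw [← mul_pow, ← hd, ← pow_mul, mul_comm 2 3, pow_mul, ← hc]; ring

theorem numer {L w A B M Y : ℝ} (hL : 64 ≤ L) (hw : L ^ 30000 ≤ w) (hB : L ^ 100 ≤ B)
    (h1 : A * L ^ 300 ≤ B ^ 2) (h2 : B * L ^ 200 ≤ A) (m1 : A ≤ M) (m2 : M ≤ 64 * A) (y1 : B ≤ Y)
    (y2 : Y ≤ 64 * B) : 2 ≤ Y ∧ Y ≤ M ∧ 1 ≤ w ∧
    M ^ 2 * Y ≤ (L ^ 13)⁻¹ ^ 2 * ((M * Y) ^ (5 / 6 : ℝ)) ^ 2 ∧
    D.eta w (L ^ 100) (2 * w ^ (-1 / 200 : ℝ)) + (Y / M) ^ (1 / 3 : ℝ) + M ^ (-1 / 8 : ℝ) ≤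
      (L ^ 13)⁻¹ ^ 2 ∧ w ^ (-1 / 2 : ℝ) ≤ (L ^ 13)⁻¹ := by
  have L1 : 1 ≤ L := by linarith
  have L0 : 0 < L := by linarith
  have pw : ∀ {a b : ℕ}, a ≤ b → L ^ a ≤ L ^ b := fun h => pow_le_pow_right₀ L1 h
  have B1 : L ≤ B := by simpa using (pw (show 1 ≤ 100 by norm_num)).trans hB
  have B0 : 0 < B := by linarith
  have Y0 : 0 < Y := by linarith
  have hMY : Y * L ^ 199 ≤ M := by
    have : 0 < L ^ 199 := by positivity
    calc Y * L ^ 199 ≤ L * B * L ^ 199 := by gcongr; nlinarith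
      _ = B * L ^ 200 := by ring
      _ ≤ M := h2.trans m1
  have YM : Y ≤ M := le_trans (le_mul_of_one_le_right Y0.le (one_le_pow₀ L1)) hMY
  have M0 : 0 < M := by linarith
  have hM2 : M * L ^ 78 ≤ Y ^ 2 := by
    have A0 : 0 ≤ A := le_trans (by positivity) h2
    calc M * L ^ 78 ≤ L * A * L ^ 78 := by gcongr; nlinarith
      _ = A * L ^ 79 := by ring
      _ ≤ A * L ^ 300 := mul_le_mul_of_nonneg_left (pw (by norm_num)) A0
      _ ≤ B ^ 2 := h1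
      _ ≤ Y ^ 2 := by gcongr
  refine ⟨by linarith, YM, (one_le_pow₀ L1).trans hw, ?_, ?_,
    rneg L1 30000 13 hw (by norm_num) (by norm_num)⟩
  · rw [← pow_le_pow_iff_left₀ (by positivity) (by positivity) (show 3 ≠ 0 by norm_num), mul_pow _ _ 3,
      mul_pow _ _ 3, ← pow_mul ((M * Y) ^ (5 / 6 : ℝ)), ← Real.rpow_natCast ((M * Y) ^ (5 / 6 : ℝ)),
      ← Real.rpow_mul (by positivity), show (5 / 6 : ℝ) * ((2 * 3 : ℕ) : ℝ) = (5 : ℕ) by norm_num,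
      Real.rpow_natCast, show ((L ^ 13)⁻¹ ^ 2) ^ 3 = (L ^ 78)⁻¹ by field_simp, le_inv_mul_iff₀ (by positivity)]
    calc L ^ 78 * ((M ^ 2) ^ 3 * Y ^ 3) = M ^ 5 * Y ^ 3 * (M * L ^ 78) := by ring
      _ ≤ M ^ 5 * Y ^ 3 * Y ^ 2 := by gcongr
      _ = _ := by ring
  · have a1 := rneg L1 30000 27 hw (show (-1 / 3 : ℝ) ≤ 0 by norm_num) (by norm_num)
    have a2 := rneg L1 100 27 le_rfl (show (-1 / 3 : ℝ) ≤ 0 by norm_num) (by norm_num)
    have a3 := rneg L1 30000 127 hw (show (-1 / 200 : ℝ) ≤ 0 by norm_num) (by norm_num)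
    have a4 := rneg L1 30000 127 hw (show (-1 / 2 : ℝ) ≤ 0 by norm_num) (by norm_num)
    have a5 : (Y / M) ^ (1 / 3 : ℝ) ≤ (L ^ 27)⁻¹ := by
      have := rneg L1 199 27 (show L ^ 199 ≤ M / Y by rw [le_div_iff₀ Y0]; linarith)
        (show (-(1 / 3) : ℝ) ≤ 0 by norm_num) (by norm_num)
      rwa [Real.rpow_neg (by positivity), ← Real.inv_rpow (by positivity), inv_div] at this
    have a6 := rneg L1 216 27 (show L ^ 216 ≤ M by
      refine le_trans ?_ hMY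
      calc L ^ 216 ≤ L ^ 299 := pw (by norm_num)
        _ = L ^ 100 * L ^ 199 := by ring
        _ ≤ _ := by gcongr; linarith) (show (-1 / 8 : ℝ) ≤ 0 by norm_num) (by norm_num)
    have a7 : L ^ 100 * (2 * w ^ (-1 / 200 : ℝ) + w ^ (-1 / 2 : ℝ)) ≤ 3 * (L ^ 27)⁻¹ := by
      calc _ ≤ L ^ 100 * (3 * (L ^ 127)⁻¹) := by gcongr; linarith
        _ = _ := by field_simp
    have a8 : 7 * (L ^ 27)⁻¹ ≤ (L ^ 13)⁻¹ ^ 2 := by
      rw [show (L ^ 13)⁻¹ ^ 2 = L * (L ^ 27)⁻¹ by field_simp]; gcongr; linarith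
    unfold D.eta; linarith

theorem keyL {C : ℝ} (C0 : 0 ≤ C) (hC : ∀ (M Y w R δ θ : ℝ) (α b : O → ℂ) (S : Finset O),
    2 ≤ Y → Y ≤ M → 1 ≤ w → 1 ≤ R → 0 ≤ δ → 0 ≤ θ → D.Ro Y w b → D.SWH Y R δ b →
    (∀ a ∈ S, SP a ∧ M / 2 < N a ∧ N a ≤ M ∧ ‖α a‖ ≤ 1) →
    M ^ 2 * Y ≤ θ ^ 2 * ((M * Y) ^ (5 / 6 : ℝ)) ^ 2 →
    D.eta w R δ + (Y / M) ^ (1 / 3 : ℝ) + M ^ (-1 / 8 : ℝ) ≤ θ ^ 2 → w ^ (-1 / 2 : ℝ) ≤ θ →
    ‖∑ a ∈ S, ∑ n ∈ SQ Y, α a * b n * del (a * n)‖ ≤ C * θ * (M * Y) ^ (5 / 6 : ℝ))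
    {L w A B M Y X : ℝ} (α β : O → ℂ) (L64 : 64 ≤ L) (hw : L ^ 30000 ≤ w) (q0 : L ^ 100 ≤ B)
    (q1 : A * L ^ 300 ≤ B ^ 2) (q2 : B * L ^ 200 ≤ A) (m1 : A ≤ M) (m2 : M ≤ 64 * A) (y1 : B ≤ Y)
    (y2 : Y ≤ 64 * B) (X0 : 0 < X) (p2 : A * B ≤ 2 * X)
    (sa : ∀ n, SP n → N n ≤ 64 * A → ‖α n / ((L ^ 5 : ℝ) : ℂ)‖ ≤ 1)
    (sb : ∀ n, SP n → N n ≤ 64 * B → ‖β n / ((L ^ 5 : ℝ) : ℂ)‖ ≤ 1 ∧ (β n ≠ 0 → Rough w n))
    (sw : ∀ (h : O) (y : ℝ), h ≠ 0 → (¬ ∃ c, h = c ^ 3) → N h ≤ L ^ 200 →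
      ‖∑ b ∈ SQ y, β b * cub h b‖ ≤ B * w ^ (-1 / 200 : ℝ)) :
    ‖∑ a ∈ SQ M, if M / 2 < N a then ∑ b ∈ SQ Y,
      (if Y / 2 < N b then α a * β b * del (a * b) else 0) else 0‖ ≤
      8192 * C * (L ^ 3)⁻¹ * X ^ (5 / 6 : ℝ) := by
  have L1 : 1 ≤ L := by linarith
  have L0 : 0 < L := by linarith
  have L100 : 1 ≤ L ^ 100 := one_le_pow₀ L1
  obtain ⟨n1, n2, n3, n4, n5, n6⟩ := numer L64 hw q0 q1 q2 m1 m2 y1 y2
  have w0 : 0 < w := by linarith
  have Y0 : 0 < Y := by linarith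
  have M0 : 0 < M := by linarith
  set b : O → ℂ := fun n => if SP n ∧ Y / 2 < N n ∧ N n ≤ Y then β n / ((L ^ 5 : ℝ) : ℂ) else 0
    with hb
  have ro : D.Ro Y w b := ⟨fun n hn => by
    simp only [hb] at hn
    split_ifs at hn with h
    · exact ⟨h.1, h.2.1, h.2.2, rough h.1.1 ((sb n h.1 (h.2.2.trans y2)).2
        fun k => hn (by rw [k, zero_div]))⟩
    · exact (hn rfl).elim, fun n => by
    simp only [hb]
    split_ifs with h
    · exact (sb n h.1 (h.2.2.trans y2)).1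
    · simp⟩
  have swh : D.SWH Y (L ^ 100) (2 * w ^ (-1 / 200 : ℝ)) b := by
    intro h h0 hc hN y
    have e1 : (SQ Y).filter (fun n => N n ≤ y) = SQ (min y Y) := by
      ext n; simp only [mem_filter, mSQ, le_min_iff]; tauto
    have e2 : ∑ n ∈ SQ (min y Y), b n * conj (cub h n) = (∑ n ∈ SQ (min y Y),
        if Y / 2 < N n then β n * cub (h ^ 2) n else 0) / ((L ^ 5 : ℝ) : ℂ) := by
      rw [sum_div]
      refine sum_congr rfl fun n hn => ?_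
      obtain ⟨u1, u2⟩ := mSQ.1 hn
      simp only [hb, u1, u2.trans (min_le_right _ _), true_and, and_true]
      split_ifs
      · rw [W1.bas.b6.conj_eq, W1.bas.b6.pow_l _ _ _ (W1.bas.b2.cop n u1.1)]; ring
      · simp
    have hN2 : N (h ^ 2) ≤ L ^ 200 := by
      rw [W1.bas.b1.N_pow]
      exact (pow_le_pow_left₀ (N0 _) hN 2).trans_eq (by ring)
    have s := fun y => sw (h ^ 2) y (pow_ne_zero 2 h0) (sq_nc h0 hc) hN2
    rw [e1, e2, cut, norm_div, Complex.norm_real, Real.norm_of_nonneg (by positivity)]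
    refine (div_le_self (norm_nonneg _) (one_le_pow₀ L1)).trans ((norm_sub_le _ _).trans ?_)
    have z : B * w ^ (-1 / 200 : ℝ) ≤ Y * w ^ (-1 / 200 : ℝ) := by gcongr
    linarith [s (min y Y), s (min (Y / 2) (min y Y))]
  have hc := hC M Y w _ _ _ (fun a => α a / ((L ^ 5 : ℝ) : ℂ)) b
    ((SQ M).filter fun a => M / 2 < N a) n1 n2 n3 L100 (by positivity) (by positivity) ro swh
    (fun a ha => by
      obtain ⟨u1, u2⟩ := mem_filter.1 ha
      obtain ⟨u3, u4⟩ := mSQ.1 u1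
      exact ⟨u3, u2, u4, sa a u3 (u4.trans m2)⟩) n4 n5 n6
  have L5 : ((L ^ 5 : ℝ) : ℂ) ≠ 0 := by exact_mod_cast (by positivity : L ^ 5 ≠ 0)
  have e : (∑ a ∈ SQ M, if M / 2 < N a then ∑ b ∈ SQ Y,
      (if Y / 2 < N b then α a * β b * del (a * b) else 0) else 0) =
      ((L ^ 5 : ℝ) : ℂ) ^ 2 * ∑ a ∈ (SQ M).filter fun a => M / 2 < N a, ∑ n ∈ SQ Y,
        α a / ((L ^ 5 : ℝ) : ℂ) * b n * del (a * n) := by
    rw [← sum_filter, mul_sum]
    refine sum_congr rfl fun a _ => ?_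
    rw [mul_sum]
    refine sum_congr rfl fun n hn => ?_
    obtain ⟨u1, u2⟩ := mSQ.1 hn
    simp only [hb, u1, u2, true_and, and_true]
    split_ifs
    · field_simp
    · simp
  rw [e, norm_mul, norm_pow, Complex.norm_real, Real.norm_of_nonneg (by positivity)]
  refine (mul_le_mul_of_nonneg_left hc (by positivity)).trans ?_
  have z : (M * Y) ^ (5 / 6 : ℝ) ≤ 8192 * X ^ (5 / 6 : ℝ) := by
    have : M * Y ≤ 8192 * X := by
      calc M * Y ≤ 64 * A * (64 * B) := mul_le_mul m2 y2 (by linarith) (by linarith)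
        _ ≤ _ := by linarith
    refine (Real.rpow_le_rpow (by positivity) this (by norm_num)).trans ?_
    rw [Real.mul_rpow (by norm_num) X0.le]
    gcongr
    exact (Real.rpow_le_rpow_of_exponent_le (by norm_num) (by norm_num : (5 / 6 : ℝ) ≤ 1)).trans_eq
      (Real.rpow_one _)
  calc _ ≤ (L ^ 5) ^ 2 * (C * (L ^ 13)⁻¹ * (8192 * X ^ (5 / 6 : ℝ))) := by gcongr
    _ = _ := by field_simp

end T2M

open T2M

theorem t2S (hG : GRStmt) (hS : SPLITStmt) (hN : NRMStmt) (hW : SWStmt) (hV : D.VarStmt) : T2Stmt := by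
  obtain ⟨C, C0, hC⟩ := core hV
  filter_upwards [hG (30000 + 49 * 8192 * C) 1 one_pos, hS.2, hN, hW] with X gr sp nr sw
  intro t k g J ht hB p1 p2 p3 p4
  obtain ⟨X3, l2, lA, g1, g2, g3, g4, -, w2, L1⟩ := gr
  rw [Real.rpow_one] at g1 g2 g3 g4
  have A1 : (1 : ℝ) ≤ 30000 + 49 * 8192 * C := by linarith [show 0 ≤ 49 * 8192 * C by positivity]
  have lg : ll X ≤ Real.log X := by
    refine le_trans ?_ g1
    simpa using Real.rpow_le_rpow_of_exponent_le (show 1 ≤ ll X by linarith) A1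
  have gL : Real.log X ≤ LL X := by
    refine le_trans ?_ g2
    simpa using Real.rpow_le_rpow_of_exponent_le (show 1 ≤ Real.log X by linarith) A1
  have hw : LL X ^ 30000 ≤ ww X := by
    refine le_trans ?_ g3
    rw [← Real.rpow_natCast]
    exact Real.rpow_le_rpow_of_exponent_le L1 (by push_cast; linarith [show 0 ≤ 49 * 8192 * C by positivity])
  have wX : ww X ≤ X := by
    refine le_trans ?_ g4
    simpa using Real.rpow_le_rpow_of_exponent_le (show 1 ≤ ww X by linarith) A1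
  have X0 : 0 < X := by linarith
  have lX := Real.log_le_self X0.le
  have CL : 49 * 8192 * C ≤ LL X := by linarith
  have L64 : 64 ≤ LL X := by linarith [show 0 ≤ 49 * 8192 * C by positivity]
  have X128 : 128 ≤ X := by linarith [show 0 ≤ 49 * 8192 * C by positivity]
  set L := LL X
  set w := ww X
  have L0 : 0 < L := by linarith
  have nA := (nr t k g Jᶜ 0 hB).1
  have nB := (nr t k g J 0 hB).1
  have sw' := fun h y a b => sw t k g J h y ht hB a b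
  have eP : (2 : ℝ) ^ (∑ i, k i) = 2 ^ (∑ i ∈ Jᶜ, k i) * 2 ^ (∑ i ∈ J, k i) := by
    rw [← pow_add, sum_compl_add_sum]
  rw [eP] at p1 p2 p3 p4
  have A0 : (1 : ℝ) ≤ 2 ^ (∑ i ∈ Jᶜ, k i) := one_le_pow₀ (by norm_num)
  have B0 : (1 : ℝ) ≤ 2 ^ (∑ i ∈ J, k i) := one_le_pow₀ (by norm_num)
  generalize (2 : ℝ) ^ (∑ i ∈ Jᶜ, k i) = A at *
  generalize (2 : ℝ) ^ (∑ i ∈ J, k i) = B at *
  have P1 : 1 ≤ A * B := one_le_mul_of_one_le_of_one_le A0 B0
  have r1 : 1 ≤ (A * B) ^ (1 / 3 : ℝ) := Real.one_le_rpow P1 (by norm_num)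
  have L100 : 1 ≤ L ^ 100 := one_le_pow₀ L1
  have q0 : L ^ 100 ≤ B := le_trans (le_mul_of_one_le_left (by positivity) r1) p3
  have q1 : A * L ^ 300 ≤ B ^ 2 := by
    have := pow_le_pow_left₀ (by positivity) p3 3
    rw [mul_pow, ← Real.rpow_natCast, ← Real.rpow_mul (by positivity),
      show (1 / 3 : ℝ) * (3 : ℕ) = 1 by norm_num, Real.rpow_one] at this
    refine le_of_mul_le_mul_left (a := B) ?_ (by linarith)
    calc _ = A * B * (L ^ 100) ^ 3 := by ring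
      _ ≤ _ := this
      _ = _ := by ring
  have q2 : B * L ^ 200 ≤ A := by
    have := pow_le_pow_left₀ (by positivity) p4 2
    rw [← Real.rpow_natCast ((A * B) ^ (1 / 2 : ℝ)), ← Real.rpow_mul (by positivity),
      show (1 / 2 : ℝ) * (2 : ℕ) = 1 by norm_num, Real.rpow_one] at this
    refine le_of_mul_le_mul_left (a := B) ?_ (by linarith)
    calc _ = (B * L ^ 100) ^ 2 := by ring
      _ ≤ _ := this
      _ = _ := by ring
  have BA : B ≤ A := le_trans (le_mul_of_one_le_right (by linarith) (one_le_pow₀ L1)) q2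
  have BX : B ≤ X := by nlinarith
  have XB : X ^ (3 / 10 : ℝ) ≤ B := by
    refine le_trans ?_ ((le_mul_of_one_le_right (by positivity) L100).trans p3)
    refine le_trans ?_ (Real.rpow_le_rpow (by positivity) p1 (by norm_num))
    rw [← Real.rpow_mul X0.le]
    exact Real.rpow_le_rpow_of_exponent_le (by linarith) (by norm_num)
  have AX : 64 * A ≤ X ^ 2 := by nlinarith
  have hL : L ^ 200 ≤ X ^ 10 :=
    calc L ^ 200 ≤ L ^ 30000 := pow_le_pow_right₀ L1 (by norm_num)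
      _ ≤ X ^ 1 := by rw [pow_one]; exact hw.trans wX
      _ ≤ X ^ 10 := pow_le_pow_right₀ (by linarith) (by norm_num)
  have hV0 : ∀ i : Fin 6, 0 ≤ (if i = 5 then Real.log X else 1) := fun i => by
    split_ifs <;> linarith
  have sup : ∀ (I : Finset (Fin 6)) n, SP n → N n ≤ 64 * A →
      ‖CV X g I n / ((L ^ 5 : ℝ) : ℂ)‖ ≤ 1 ∧ (CV X g I n ≠ 0 → Rough w n) := fun I n hn h => by
    obtain ⟨s1, s2⟩ := sp g I _ (fun i n hn => (atom (hB i).2 (hV0 i) hn).1)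
      (fun i n hn => (atom (hB i).2 (hV0 i) hn).2) n hn (h.trans AX)
    refine ⟨?_, s2⟩
    rw [norm_div, Complex.norm_real, Real.norm_of_nonneg (by positivity), div_le_one (by positivity)]
    refine s1.trans ?_
    rw [prod_ite_eq', pow_succ _ 4]
    gcongr
    split_ifs <;> linarith
  have key : ∀ i ∈ range 7, ∀ j ∈ range 7,
      ‖∑ a ∈ SQ (A * 2 ^ i), if A * 2 ^ i / 2 < N a then ∑ b ∈ SQ (B * 2 ^ j),
        (if B * 2 ^ j / 2 < N b then CV X g Jᶜ a * CV X g J b * del (a * b) else 0) else 0‖ ≤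
      8192 * C * (L ^ 3)⁻¹ * X ^ (5 / 6 : ℝ) := by
    intro i hi j hj
    have t1 : ∀ i ∈ range 7, (1 : ℝ) ≤ 2 ^ i ∧ (2 : ℝ) ^ i ≤ 64 := fun i hi =>
      ⟨one_le_pow₀ (by norm_num), (pow_le_pow_right₀ (by norm_num) (Nat.lt_succ_iff.1 (mem_range.1 hi))).trans
        (by norm_num)⟩
    have m1 : A ≤ A * 2 ^ i := le_mul_of_one_le_right (by linarith) (t1 i hi).1
    have m2 : A * 2 ^ i ≤ 64 * A := (mul_le_mul_of_nonneg_left (t1 i hi).2 (zero_le_one.trans A0)).trans_eq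
      (mul_comm _ _)
    have y1 : B ≤ B * 2 ^ j := le_mul_of_one_le_right (by linarith) (t1 j hj).1
    have y2 : B * 2 ^ j ≤ 64 * B := (mul_le_mul_of_nonneg_left (t1 j hj).2 (zero_le_one.trans B0)).trans_eq
      (mul_comm _ _)
    exact keyL C0 hC _ _ L64 hw q0 q1 q2 m1 m2 y1 y2 X0 p2 (fun n hn h => (sup _ n hn h).1)
      (fun n hn h => sup _ n hn (h.trans (mul_le_mul_of_nonneg_left BA (by norm_num))))
      fun h y h0 hc hN => sw' h y XB BX h0 hc (hN.trans hL)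
  rw [hS.1 X (A * 2 ^ 6) (B * 2 ^ 6) g J del (by linarith) (fun n hn => if_neg hn)
    (fun a ha h => by linarith [(nA a ha h).2]) (fun a ha h => by linarith [(nB a ha h).2]),
    shell (by linarith) _ (fun a ha h => (nA a ha fun k => h (by simp [k])).1)]
  have e : ∀ i, (∑ a ∈ SQ (A * 2 ^ i), if A * 2 ^ i / 2 < N a then
      ∑ b ∈ SQ (B * 2 ^ 6), CV X g Jᶜ a * CV X g J b * del (a * b) else 0) =
      ∑ j ∈ range 7, ∑ a ∈ SQ (A * 2 ^ i), if A * 2 ^ i / 2 < N a then ∑ b ∈ SQ (B * 2 ^ j),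
        (if B * 2 ^ j / 2 < N b then CV X g Jᶜ a * CV X g J b * del (a * b) else 0) else 0 := fun i => by
    rw [sum_comm]
    refine sum_congr rfl fun a _ => ?_
    split_ifs
    · exact shell (by linarith) _ (fun b hb h => (nB b hb fun k => h (by simp [k])).1) 6
    · simp
  simp_rw [e]
  refine (norm_sum_le_of_le _ fun i hi => norm_sum_le_of_le _ fun j hj => key i hi j hj).trans ?_
  simp only [sum_const, card_range, nsmul_eq_mul]
  have x0 : 0 ≤ X ^ (5 / 6 : ℝ) := by positivity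
  rw [le_div_iff₀ L0]
  calc _ = 49 * 8192 * C * (L ^ 2)⁻¹ * X ^ (5 / 6 : ℝ) := by push_cast; field_simp; ring
    _ ≤ _ := mul_le_of_le_one_left x0 (by rw [mul_inv_le_iff₀ (by positivity)]; nlinarith)

end Vale.Agent.P006.M
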