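import Vale.Agent.P006.M

noncomputable section
open Complex MeasureTheory Filter Topology
open scoped Classical ComplexConjugate

namespace Vale.Agent.P006.M

namespace TRIM

lemma cs (a b c d : ℝ) (ha : 0 ≤ a) (hb : 0 ≤ b) (hc : 0 ≤ c) (hd : 0 ≤ d) :
    Real.sqrt a * Real.sqrt c + Real.sqrt b * Real.sqrt d ≤
      Real.sqrt (a + b) * Real.sqrt (c + d) := by
  rw [← Real.sqrt_mul (by linarith : 0 ≤ a + b)]
  refine Real.le_sqrt_of_sq_le ?_
  have h1 := Real.sq_sqrt ha
  have h2 := Real.sq_sqrt hb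
  have h3 := Real.sq_sqrt hc
  have h4 := Real.sq_sqrt hd
  rw [← h1, ← h2, ← h3, ← h4]
  simp only [Real.sqrt_sq (Real.sqrt_nonneg _)]
  nlinarith [sq_nonneg (Real.sqrt a * Real.sqrt d - Real.sqrt b * Real.sqrt c)]

variable {ι κ : Type}

lemma BF.sub {S S' : Finset ι} {T T' : Finset κ} {K : ι → κ → ℂ} {p : ι → ℝ} {q : κ → ℝ} {D : ℝ}
    (h : BF S T K p q D) (hS : S' ⊆ S) (hT : T' ⊆ T) : BF S' T' K p q D :=
  fun _ h1 _ h2 => h _ (h1.trans hS) _ (h2.trans hT)

lemma wk {S S' : Finset ι} {T T' : Finset κ} {K : ι → κ → ℂ} {p : ι → ℝ} {q : κ → ℝ} {D : ℝ}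
    (hp : ∀ x, 0 ≤ p x) (hq : ∀ y, 0 ≤ q y) (hD : 0 ≤ D)
    (h : BF S T K p q D) (hS : S' ⊆ S) (hT : T' ⊆ T) :
    ‖∑ x ∈ S', ∑ y ∈ T', K x y‖ ≤ D * Real.sqrt (∑ x ∈ S, p x) * Real.sqrt (∑ y ∈ T, q y) := by
  refine (h S' hS T' hT).trans ?_
  have h1 : ∑ x ∈ S', p x ≤ ∑ x ∈ S, p x :=
    Finset.sum_le_sum_of_subset_of_nonneg hS fun x _ _ => hp x
  have h2 : ∑ x ∈ T', q x ≤ ∑ x ∈ T, q x :=
    Finset.sum_le_sum_of_subset_of_nonneg hT fun x _ _ => hq x
  gcongr

lemma main (K : ι → κ → ℂ) (p : ι → ℝ) (q : κ → ℝ) (D : ℝ) (hp : ∀ x, 0 ≤ p x) (hq : ∀ y, 0 ≤ q y)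
    (hD : 0 ≤ D) (m : ℕ) : ∀ (S : Finset ι) (T : Finset κ) (i : ι → ℕ) (j : κ → ℕ),
    (∀ y ∈ T, j y ≤ 2 ^ m) → BF S T K p q D →
    ‖∑ x ∈ S, ∑ y ∈ T, if i x < j y then K x y else 0‖ ≤
      (m + 1) * D * Real.sqrt (∑ x ∈ S, p x) * Real.sqrt (∑ y ∈ T, q y) := by
  induction m with
  | zero =>
    intro S T i j hj h
    have e : (∑ x ∈ S, ∑ y ∈ T, if i x < j y then K x y else 0) =
        ∑ x ∈ S.filter (fun x => i x = 0), ∑ y ∈ T.filter (fun y => j y = 1), K x y := by
      rw [Finset.sum_filter]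
      refine Finset.sum_congr rfl fun x _ => ?_
      rw [Finset.sum_filter]
      split_ifs with hx
      · refine Finset.sum_congr rfl fun y hy => ?_
        have := hj y hy
        exact if_congr (by omega) rfl rfl
      · refine Finset.sum_eq_zero fun y hy => ?_
        have := hj y hy
        exact if_neg (by omega)
    rw [e]
    simpa using wk hp hq hD h (Finset.filter_subset _ _) (Finset.filter_subset _ _)
  | succ m ih =>
    intro S T i j hj h
    let S0 := S.filter fun x => i x < 2 ^ m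
    let S1 := S.filter fun x => ¬ i x < 2 ^ m
    let T0 := T.filter fun y => j y ≤ 2 ^ m
    let T1 := T.filter fun y => ¬ j y ≤ 2 ^ m
    have s0 : S0 ⊆ S := Finset.filter_subset _ _
    have s1 : S1 ⊆ S := Finset.filter_subset _ _
    have t0 : T0 ⊆ T := Finset.filter_subset _ _
    have t1 : T1 ⊆ T := Finset.filter_subset _ _
    have e : (∑ x ∈ S, ∑ y ∈ T, if i x < j y then K x y else 0) =
        (∑ x ∈ S0, ∑ y ∈ T0, if i x < j y then K x y else 0) +
        (∑ x ∈ S1, ∑ y ∈ T1, if i x - 2 ^ m < j y - 2 ^ m then K x y else 0) +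
        ∑ x ∈ S0, ∑ y ∈ T1, K x y := by
      rw [← Finset.sum_filter_add_sum_filter_not S (fun x => i x < 2 ^ m), add_right_comm,
        ← Finset.sum_add_distrib]
      congr 1
      · refine Finset.sum_congr rfl fun x hx => ?_
        have hx' := (Finset.mem_filter.1 hx).2
        rw [← Finset.sum_filter_add_sum_filter_not T (fun y => j y ≤ 2 ^ m)]
        congr 1
        refine Finset.sum_congr rfl fun y hy => ?_
        have hy' := (Finset.mem_filter.1 hy).2
        exact if_pos (by omega)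
      · refine Finset.sum_congr rfl fun x hx => ?_
        have hx' := (Finset.mem_filter.1 hx).2
        rw [← Finset.sum_filter_add_sum_filter_not T (fun y => j y ≤ 2 ^ m)]
        rw [Finset.sum_eq_zero (s := T.filter fun y => j y ≤ 2 ^ m), zero_add]
        · refine Finset.sum_congr rfl fun y hy => ?_
          have hy' := (Finset.mem_filter.1 hy).2
          exact if_congr (by omega) rfl rfl
        · intro y hy
          have hy' := (Finset.mem_filter.1 hy).2
          exact if_neg (by omega)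
    have a0 := ih S0 T0 i j (fun y hy => (Finset.mem_filter.1 hy).2) (BF.sub h s0 t0)
    have a1 := ih S1 T1 (fun x => i x - 2 ^ m) (fun y => j y - 2 ^ m) (fun y hy => by
      have := hj y (t1 hy)
      rw [pow_succ] at this
      omega) (BF.sub h s1 t1)
    have a2 := wk hp hq hD h s0 t1
    have b1 : ∑ x ∈ S0, p x + ∑ x ∈ S1, p x = ∑ x ∈ S, p x :=
      Finset.sum_filter_add_sum_filter_not _ _ _
    have b2 : ∑ x ∈ T0, q x + ∑ x ∈ T1, q x = ∑ x ∈ T, q x :=
      Finset.sum_filter_add_sum_filter_not _ _ _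
    have c := cs (∑ x ∈ S0, p x) (∑ x ∈ S1, p x) (∑ x ∈ T0, q x) (∑ x ∈ T1, q x)
      (Finset.sum_nonneg fun x _ => hp x) (Finset.sum_nonneg fun x _ => hp x)
      (Finset.sum_nonneg fun x _ => hq x) (Finset.sum_nonneg fun x _ => hq x)
    rw [b1, b2] at c
    have c2 := mul_le_mul_of_nonneg_left c (by positivity : 0 ≤ ((m : ℝ) + 1) * D)
    rw [e]
    refine (norm_add_le _ _).trans ((add_le_add (norm_add_le _ _) le_rfl).trans ?_)
    push_cast
    linarith

end TRIM

theorem triS : TRIStmt := by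
  intro ι κ S T K p q D i j m hp hq hD hj h S' hS T' hT
  exact TRIM.main K p q D hp hq hD m S' T' i j (fun y hy => hj y (hT hy)) (TRIM.BF.sub h hS hT)

end Vale.Agent.P006.M
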