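import Vale.Agent.P006.M.GR
import Vale.Agent.P006.M.SPL
import Vale.Agent.P006.M.HB
import Vale.Agent.P006.M.HL
import Vale.Agent.P006.M.RED
import Vale.Agent.P006.M.SLB
import Vale.Agent.P006.M.NRM
import Vale.Agent.P006.M.BAD
import Vale.Agent.P006.M.SW
import Vale.Agent.P006.M.T2
import Vale.Agent.P006.M.COMB
import Vale.Agent.P006.M.BOX
import Vale.Agent.P006.M.LO
import Vale.Agent.P006.M.HI
import Vale.Agent.P006.M.HA
import Vale.Agent.P006.M.HB1
import Vale.Agent.P006.M.HB2
import Vale.Agent.P006.M.RANK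
import Vale.Agent.P006.M.TRI

/-! P006 main branch: assembly. -/

namespace Vale.Agent.P006.M

theorem mainS (hV : D.VarStmt) (hI : TI1Stmt) : MAINStmt :=
  have g := grS
  have spl := splS g
  have nrm := nrmS g
  have sli := sliS slbS
  have rk := rankS g
  have t2 := t2S g spl nrm (swS g spl nrm (sw1S g)) hV
  have box := boxS g (badS g spl slbS nrm) t2 combS
  redS g spl hbS (loS g hlS box) (hiS g hlS (haS g hI) (hb1S g sli rk triS) (hb2S g sli rk triS))

end Vale.Agent.P006.M
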