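import Vale.Agent.P006.M
import Vale.Agent.P006.S2
import Vale.Agent.P026.M.LN

/-! P006: the smooth cutoff is an admissible weight. -/

noncomputable section
open Complex MeasureTheory Filter Topology
open scoped Classical ComplexConjugate

namespace Vale.Agent.P006.M

namespace WTM

def cW (σ T t : ℝ) : ℂ :=
  ((2 * Real.pi)⁻¹ : ℝ) * (cexp ((σ + t * I) ^ 2 / (4 * T ^ 2)) / (σ + t * I))

variable {σ T : ℝ}

lemma ne0 (hσ : 0 < σ) (t : ℝ) : (σ : ℂ) + t * I ≠ 0 := fun h => hσ.ne' (by simpa using congrArg re h)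

lemma cont (hσ : 0 < σ) : Continuous (cW σ T) :=
  continuous_const.mul (Continuous.div (by fun_prop) (by fun_prop) (ne0 hσ))

lemma nE (t : ℝ) : ‖cexp ((σ + t * I) ^ 2 / (4 * T ^ 2))‖ = Real.exp ((σ ^ 2 - t ^ 2) / (4 * T ^ 2)) := by
  rw [Complex.norm_exp, show (4 * (T : ℂ) ^ 2) = ((4 * T ^ 2 : ℝ) : ℂ) by push_cast; ring, div_ofReal_re]
  congr 2
  simp [sq]

lemma le1 (hσ : 0 < σ) (hσ1 : σ ≤ 1) (hT : 1 ≤ T) (t : ℝ) :
    ‖cW σ T t‖ ≤ Real.exp (-(t / T) ^ 2 / 4) / (σ + |t|) := by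
  have h1 : σ + |t| ≤ 2 * ‖(σ : ℂ) + t * I‖ := by
    have h2 : σ ≤ ‖(σ : ℂ) + t * I‖ := by simpa using re_le_norm ((σ : ℂ) + t * I)
    have h3 : |t| ≤ ‖(σ : ℂ) + t * I‖ := by simpa using abs_im_le_norm ((σ : ℂ) + t * I)
    linarith
  have h2 : Real.exp ((σ ^ 2 - t ^ 2) / (4 * T ^ 2)) ≤ 3 * Real.exp (-(t / T) ^ 2 / 4) := by
    have : (σ ^ 2 - t ^ 2) / (4 * T ^ 2) ≤ 1 + -(t / T) ^ 2 / 4 := by
      rw [div_le_iff₀ (by positivity)]
      field_simp
      nlinarith
    refine (Real.exp_le_exp.2 this).trans ?_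
    rw [Real.exp_add]
    gcongr
    exact Real.exp_one_lt_d9.le.trans (by norm_num)
  have h0 : 0 < σ + |t| := by positivity
  have h4 := norm_pos_iff.2 (ne0 hσ t)
  rw [cW, norm_mul, norm_div, nE, norm_real, Real.norm_of_nonneg (by positivity), ← mul_div_assoc,
    div_le_div_iff₀ h4 h0]
  calc _ ≤ (2 * 3)⁻¹ * (3 * Real.exp (-(t / T) ^ 2 / 4)) * (2 * ‖(σ : ℂ) + t * I‖) := by
        gcongr
        exact Real.pi_gt_three.le
    _ = _ := by ring

lemma le2 (hσ : 0 < σ) (hσ1 : σ ≤ 1) (hT : 1 ≤ T) (t : ℝ) : ‖cW σ T t‖ * (1 + |t|) ^ 8 ≤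
    σ⁻¹ * Real.exp 128 * T ^ 8 * Real.exp (-(8 * T ^ 2)⁻¹ * t ^ 2) := by
  have h0 : 0 < T := by linarith
  have h1 : 1 + |t| ≤ T * Real.exp |t / T| := by
    have := Real.add_one_le_exp |t / T|
    have e : |t| = T * |t / T| := by rw [abs_div, abs_of_pos h0]; field_simp
    nlinarith [abs_nonneg (t / T)]
  have h2 : ‖cW σ T t‖ ≤ σ⁻¹ * Real.exp (-(t / T) ^ 2 / 4) := by
    refine (le1 hσ hσ1 hT t).trans ?_
    rw [← div_eq_inv_mul]
    gcongr
    linarith [abs_nonneg t]
  calc _ ≤ σ⁻¹ * Real.exp (-(t / T) ^ 2 / 4) * (T * Real.exp |t / T|) ^ 8 := by gcongr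
    _ = σ⁻¹ * T ^ 8 * Real.exp (-(t / T) ^ 2 / 4 + (8 : ℕ) * |t / T|) := by
      rw [mul_pow, ← Real.exp_nat_mul, Real.exp_add]; ring
    _ ≤ σ⁻¹ * T ^ 8 * Real.exp (128 + -(8 * T ^ 2)⁻¹ * t ^ 2) := by
      refine mul_le_mul_of_nonneg_left (Real.exp_le_exp.2 ?_) (by positivity)
      rw [show -(8 * T ^ 2)⁻¹ * t ^ 2 = -(t / T) ^ 2 / 8 by field_simp]
      push_cast
      nlinarith [sq_abs (t / T), sq_nonneg (|t / T| - 32)]
    _ = _ := by rw [Real.exp_add]; ring

lemma int2 (hσ : 0 < σ) (hσ1 : σ ≤ 1) (hT : 1 ≤ T) :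
    Integrable (fun t => ‖cW σ T t‖ * (1 + |t|) ^ 8) ∧ Integrable (cW σ T) ∧
      ∫ t, ‖cW σ T t‖ * (1 + |t|) ^ 8 ≤ σ⁻¹ * Real.exp 128 * T ^ 8 * (6 * T) := by
  have hg := (integrable_exp_neg_mul_sq (b := (8 * T ^ 2)⁻¹) (by positivity)).const_mul
    (σ⁻¹ * Real.exp 128 * T ^ 8)
  have hc := cont (T := T) hσ
  have h1 : Integrable (fun t => ‖cW σ T t‖ * (1 + |t|) ^ 8) :=
    hg.mono' (by fun_prop) (.of_forall fun t => by
      rw [Real.norm_of_nonneg (by positivity)]; exact le2 hσ hσ1 hT t)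
  refine ⟨h1, h1.mono' hc.aestronglyMeasurable (.of_forall fun t => le_mul_of_one_le_right
    (norm_nonneg _) (one_le_pow₀ (by linarith [abs_nonneg t]))), ?_⟩
  refine (integral_mono h1 hg (le2 hσ hσ1 hT)).trans ?_
  rw [integral_const_mul, integral_gaussian]
  gcongr
  rw [Real.sqrt_le_iff, div_inv_eq_mul]
  exact ⟨by positivity, by nlinarith [Real.pi_lt_four, sq_nonneg T]⟩

lemma int1 (hσ : 0 < σ) (hσ1 : σ ≤ 1) (hT : 2 ≤ T) :
    ∫ t, ‖cW σ T t‖ ≤ 8 * (Real.log T - Real.log σ) := by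
  have h0 : 0 < T := by linarith
  have hd : ∀ u ∈ Set.Ici (0 : ℝ), HasDerivAt (fun u => Real.log ((σ + u) / (T + u)))
      ((T - σ) / ((σ + u) * (T + u))) u := fun u hu => by
    have hu : 0 ≤ u := hu
    have b1 : 0 < σ + u := by linarith
    have b2 : 0 < T + u := by linarith
    have b3 : HasDerivAt (fun u => (σ + u) / (T + u)) ((1 * (T + u) - (σ + u) * 1) / (T + u) ^ 2) u :=
      ((hasDerivAt_id u).const_add σ).div ((hasDerivAt_id u).const_add T) b2.ne'
    refine (b3.log (div_pos b1 b2).ne').congr_deriv ?_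
    field_simp
    ring
  have hp : ∀ u ∈ Set.Ioi (0 : ℝ), 0 ≤ (T - σ) / ((σ + u) * (T + u)) := fun u hu => by
    have hu : 0 < u := hu
    exact div_nonneg (by linarith) (by positivity)
  have hl : Tendsto (fun u => Real.log ((σ + u) / (T + u))) atTop (𝓝 0) := by
    have a1 : Tendsto (fun u : ℝ => 1 - (T - σ) / (T + u)) atTop (𝓝 (1 - 0)) :=
      tendsto_const_nhds.sub (tendsto_const_nhds.div_atTop (tendsto_atTop_add_const_left _ _ tendsto_id))
    have a2 := ((Real.continuousAt_log (x := 1 - 0) (by norm_num)).tendsto.comp a1)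
    simp only [sub_zero, Real.log_one] at a2
    refine a2.congr' ?_
    filter_upwards [eventually_gt_atTop 0] with u hu
    simp only [Function.comp]
    congr 1
    field_simp
    ring
  have hi := integrableOn_Ioi_deriv_of_nonneg' hd hp hl
  have hv := integral_Ioi_of_hasDerivAt_of_nonneg' hd hp hl
  have key : ∀ t : ℝ, ‖cW σ T t‖ ≤ 4 * ((T - σ) / ((σ + |t|) * (T + |t|))) := fun t => by
    refine (le1 hσ hσ1 (by linarith) t).trans ?_
    have a0 := abs_nonneg t
    have a1 : Real.exp (-(t / T) ^ 2 / 4) ≤ 2 * T / (T + |t|) := by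
      have := Real.add_one_le_exp ((t / T) ^ 2 / 4)
      have e : |t| = T * |t / T| := by rw [abs_div, abs_of_pos h0]; field_simp
      rw [neg_div, Real.exp_neg, inv_eq_one_div, div_le_div_iff₀ (by positivity) (by positivity), e]
      nlinarith [sq_abs (t / T), sq_nonneg (|t / T| - 1)]
    calc _ ≤ 2 * T / (T + |t|) / (σ + |t|) := by gcongr
      _ = 2 * T / ((σ + |t|) * (T + |t|)) := by field_simp
      _ ≤ 4 * (T - σ) / ((σ + |t|) * (T + |t|)) := by gcongr ?_ / _; linarith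
      _ = _ := by ring
  have hI : Integrable fun t : ℝ => (T - σ) / ((σ + |t|) * (T + |t|)) := by
    rw [← integrableOn_univ, ← Set.Iic_union_Ioi (a := 0), integrableOn_union]
    refine ⟨?_, hi.congr_fun (fun u hu => by simp only [abs_of_pos (show 0 < u from hu)])
      measurableSet_Ioi⟩
    rw [← Measure.map_neg_eq_self (volume : Measure ℝ)]
    have m : MeasurableEmbedding fun x : ℝ => -x := (Homeomorph.neg ℝ).measurableEmbedding
    rw [m.integrableOn_map_iff]
    simp only [Function.comp_def, abs_neg, Set.neg_preimage, Set.neg_Iic, neg_zero]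
    exact (integrableOn_Ici_iff_integrableOn_Ioi (by simp)).2 (hi.congr_fun
      (fun u hu => by simp only [abs_of_pos (show 0 < u from hu)]) measurableSet_Ioi)
  refine (integral_mono_of_nonneg (.of_forall fun _ => norm_nonneg _) (hI.const_mul 4)
    (.of_forall key)).trans (le_of_eq ?_)
  rw [integral_const_mul, integral_comp_abs (f := fun u => (T - σ) / ((σ + u) * (T + u))), hv,
    add_zero, add_zero, Real.log_div hσ.ne' h0.ne']
  ring

lemma rep (hσ : 0 < σ) (hT : 0 < T) {x : ℝ} (hx : 0 < x) :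
    ((S.Phi T x : ℝ) : ℂ) = ∫ t : ℝ, cW σ T t * (x : ℂ) ^ (-(σ : ℂ) - t * I) := by
  have hT' : (T : ℂ) ≠ 0 := ofReal_ne_zero.2 hT.ne'
  have e1 : ∀ t : ℝ, cW σ T t * (x : ℂ) ^ (-(σ : ℂ) - t * I) = ((2 * Real.pi)⁻¹ : ℝ) *
      ∫ v in Set.Ioi (Real.log x), cexp ((σ + t * I) ^ 2 / (4 * T ^ 2)) * cexp (-(σ + t * I) * v) := by
    intro t
    have := ne0 hσ t
    rw [integral_const_mul, integral_exp_mul_complex_Ioi (by simpa using hσ), P026.LNM.cp hx, cW,
      neg_div_neg_eq, show Real.log x * (-(σ : ℂ) - t * I) = -(σ + t * I) * Real.log x by ring]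
    ring
  have e2 : ∀ v : ℝ, ∫ t : ℝ, cexp ((σ + t * I) ^ 2 / (4 * T ^ 2)) * cexp (-(σ + t * I) * v) =
      ((2 * T * Real.sqrt Real.pi * Real.exp (-(T * v) ^ 2) : ℝ) : ℂ) := by
    intro v
    have h := integral_cexp_quadratic (b := -(((4 * T ^ 2)⁻¹ : ℝ) : ℂ))
      (by rw [neg_re, ofReal_re, neg_lt_zero]; positivity)
      (I * (σ / (2 * T ^ 2) - v)) (σ ^ 2 / (4 * T ^ 2) - σ * v)
    have e : ∀ t : ℝ, cexp ((σ + t * I) ^ 2 / (4 * T ^ 2)) * cexp (-(σ + t * I) * v) =
        cexp (-(((4 * T ^ 2)⁻¹ : ℝ) : ℂ) * (t : ℂ) ^ 2 + I * (σ / (2 * T ^ 2) - v) * t +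
          (σ ^ 2 / (4 * T ^ 2) - σ * v)) := fun t => by
      rw [← Complex.exp_add]
      congr 1
      push_cast
      linear_combination ((t : ℂ) ^ 2 / (4 * T ^ 2)) * I_sq
    simp only [e]
    rw [h, show ((Real.pi : ℂ) / -(-(((4 * T ^ 2)⁻¹ : ℝ) : ℂ))) = ((2 * T) ^ 2 * Real.pi : ℝ) by
      push_cast; field_simp; ring, P026.LNM.sq (by positivity), Real.sqrt_mul (by positivity),
      Real.sqrt_sq (by positivity)]
    push_cast
    congr 2
    field_simp
    linear_combination 4 * ((σ : ℂ) - 2 * T ^ 2 * v) ^ 2 * I_sq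
  simp only [e1]
  rw [integral_const_mul, integral_integral_swap]
  · simp only [e2]
    rw [integral_complex_ofReal, integral_const_mul, S.Phi, ← ofReal_mul]
    congr 1
    have := Real.sqrt_pos.2 Real.pi_pos
    rw [← mul_assoc]
    congr 1
    field_simp
    rw [Real.sq_sqrt Real.pi_pos.le]
  · have i1 := (integrable_exp_neg_mul_sq (b := (4 * T ^ 2)⁻¹) (by positivity)).const_mul
      (Real.exp (σ ^ 2 / (4 * T ^ 2)))
    have i2 := integrableOn_exp_mul_Ioi (a := -σ) (by linarith) (Real.log x)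
    refine (i1.mul_prod i2).mono' (Continuous.aestronglyMeasurable (by fun_prop))
      (.of_forall fun p => le_of_eq ?_)
    simp only [Function.uncurry, norm_mul, nE]
    rw [Complex.norm_exp, ← Real.exp_add (σ ^ 2 / _)]
    congr 2
    · ring
    · simp

lemma phi_le (hT : 0 < T) (x a : ℝ) (ha : ∀ v, Real.log x < v → a ≤ (T * v) ^ 2 / 2) :
    ‖((S.Phi T x : ℝ) : ℂ)‖ ≤ 2 * Real.exp (-a) := by
  have hp := Real.sqrt_pos.2 Real.pi_pos
  have i1 := (integrable_exp_neg_mul_sq (b := T ^ 2 / 2) (by positivity)).const_mul (Real.exp (-a))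
  have h1 : ∫ v in Set.Ioi (Real.log x), Real.exp (-(T * v) ^ 2) ≤
      Real.exp (-a) * Real.sqrt (Real.pi / (T ^ 2 / 2)) := by
    rw [← integral_gaussian, ← integral_const_mul]
    refine le_trans ?_ (setIntegral_le_integral (s := Set.Ioi (Real.log x)) i1
      (.of_forall fun v => by positivity))
    refine integral_mono_of_nonneg (.of_forall fun v => by positivity) i1.integrableOn
      ((ae_restrict_iff' measurableSet_Ioi).2 (.of_forall fun v hv => ?_))
    simp only [← Real.exp_add]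
    refine Real.exp_le_exp.2 ?_
    nlinarith [ha v hv]
  have h2 : Real.sqrt (Real.pi / (T ^ 2 / 2)) ≤ 2 * Real.sqrt Real.pi / T := by
    rw [Real.sqrt_le_iff, div_pow, mul_pow, Real.sq_sqrt Real.pi_pos.le]
    refine ⟨by positivity, ?_⟩
    rw [div_le_div_iff₀ (by positivity) (by positivity)]
    nlinarith [mul_pos Real.pi_pos (pow_pos hT 2)]
  rw [norm_real, S.Phi, Real.norm_of_nonneg (mul_nonneg (by positivity)
    (integral_nonneg fun v => by positivity))]
  calc _ ≤ T / Real.sqrt Real.pi * (Real.exp (-a) * (2 * Real.sqrt Real.pi / T)) := by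
        gcongr
        exact h1.trans (by gcongr)
    _ = _ := by field_simp

end WTM

open WTM in
theorem wtS (hG : GRStmt) : ∀ᶠ X : ℝ in atTop,
    Wt X 1000 (fun x => ((S.Phi (Real.log X ^ 100) x : ℝ) : ℂ)) := by
  filter_upwards [hG 1000 1 one_pos] with X g1
  obtain ⟨h3, h2, -, -, hL, -, -, -, -, -⟩ := g1
  have hl0 : 0 < Real.log X := Real.log_pos (by linarith)
  have hl : Real.exp 2 ≤ Real.log X := (Real.le_log_iff_exp_le hl0).1 h2
  have h7 : 7 ≤ Real.log X := by
    refine le_trans ?_ hl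
    rw [show (2 : ℝ) = 1 + 1 by norm_num, Real.exp_add]
    nlinarith [Real.exp_one_gt_d9]
  have hσ : 0 < (Real.log X)⁻¹ := by positivity
  have hσ1 : (Real.log X)⁻¹ ≤ 1 := inv_le_one_of_one_le₀ (by linarith)
  have hT : Real.log X ≤ Real.log X ^ 100 := le_self_pow₀ (by linarith) (by norm_num)
  obtain ⟨i1, i2, i3⟩ := int2 (T := Real.log X ^ 100) hσ hσ1 (by linarith)
  refine ⟨⟨cW (Real.log X)⁻¹ (Real.log X ^ 100), i2, i1, fun x hx => rep hσ (by positivity) hx,
    (int1 hσ hσ1 (by linarith)).trans ?_, i3.trans ?_⟩, fun x _ => ?_, fun x hx => ?_⟩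
  · rw [Real.log_pow, Real.log_inv]
    unfold ll at h2 ⊢
    push_cast
    linarith
  · rw [Real.rpow_one, show (1000 : ℝ) = (1000 : ℕ) by norm_num, Real.rpow_natCast] at hL
    refine le_trans ?_ hL
    have a1 : Real.exp 128 ≤ Real.log X ^ 64 := by
      rw [show (128 : ℝ) = (64 : ℕ) * 2 by norm_num, Real.exp_nat_mul]
      gcongr
    rw [inv_inv]
    have a2 : (1 : ℝ) ≤ Real.log X := by linarith
    have a3 : (6 : ℝ) ≤ Real.log X := by linarith
    generalize Real.log X = l at a1 a2 a3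
    have a4 : l ^ 966 ≤ l ^ 1000 := pow_le_pow_right₀ a2 (by norm_num)
    refine le_trans ?_ a4
    have a5 : l ^ 966 = l * l ^ 64 * (l ^ 100) ^ 8 * (l * l ^ 100) := by
      rw [← pow_mul, ← pow_succ', ← pow_succ', ← pow_add, ← pow_add]
    rw [a5]
    exact mul_le_mul (mul_le_mul_of_nonneg_right (mul_le_mul_of_nonneg_left a1 (by positivity))
      (by positivity)) (mul_le_mul_of_nonneg_right a3 (by positivity)) (by positivity) (by positivity)
  · have hp : 0 < Real.log X ^ 100 := pow_pos hl0 _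
    generalize Real.log X ^ 100 = T at hp
    refine (phi_le hp x 0 fun v _ => by positivity).trans ?_
    simp
    norm_num
  · have hx0 : 0 < x := by linarith
    have a1 : 1 / 2 ≤ Real.log x := by
      have := Real.log_le_log (by norm_num) hx
      linarith [Real.log_two_gt_d9]
    have a2 : 7 * Real.log X ≤ Real.log X ^ 100 := by
      refine le_trans ?_ (pow_le_pow_right₀ (by linarith : 1 ≤ Real.log X) (by norm_num : 2 ≤ 100))
      nlinarith
    refine (phi_le (by positivity) x (1 + 10 * Real.log X + 3 * Real.log x) fun v hv => ?_).trans ?_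
    · have a3 : 7 * Real.log X * Real.log x ≤ Real.log X ^ 100 * v := by gcongr
      have a4 : (7 * Real.log X * Real.log x) ^ 2 ≤ (Real.log X ^ 100 * v) ^ 2 := by gcongr
      have a5 : 7 * (1 / 2) ≤ Real.log X * Real.log x := by gcongr
      have a6 : Real.log X * (1 / 2) ≤ Real.log X * Real.log x := by gcongr
      have a7 : 7 * Real.log x ≤ Real.log X * Real.log x := by gcongr
      nlinarith
    · rw [Real.rpow_def_of_pos (by linarith), Real.rpow_def_of_pos hx0, ← Real.exp_add,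
        show -(1 + 10 * Real.log X + 3 * Real.log x) = -1 + (Real.log X * -10 + Real.log x * -3) by ring,
        Real.exp_add, ← mul_assoc]
      refine mul_le_of_le_one_left (by positivity) ?_
      rw [Real.exp_neg, ← div_eq_mul_inv, div_le_one (by positivity)]
      linarith [Real.exp_one_gt_d9]

end Vale.Agent.P006.M
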