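import Vale.Agent.P006.M

/-! P006 main branch, row GR. -/

noncomputable section
open Filter Topology

namespace Vale.Agent.P006.M

theorem GRM.ll_top : Tendsto ll atTop atTop := Real.tendsto_log_atTop.comp Real.tendsto_log_atTop

theorem grS : GRStmt := by
  intro A δ hδ
  have a0 := abs_nonneg A
  have a1 := le_abs_self A
  have e1 := Real.isLittleO_log_id_atTop.bound (show 0 < δ / (|A| + 1) by positivity)
  filter_upwards [eventually_ge_atTop 3, GRM.ll_top.eventually e1,
    GRM.ll_top.eventually_ge_atTop (120 + |A| + 120 * |A| / δ + |A| / δ ^ 2)] with X h3 h1 h2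
  have X0 : 0 < X := by linarith
  have L0 : 0 < Real.log X := Real.log_pos (by linarith)
  have p1 : 0 ≤ 120 * |A| / δ := by positivity
  have p2 : 0 ≤ |A| / δ ^ 2 := by positivity
  have eL : Real.log X = Real.exp (ll X) := (Real.exp_log L0).symm
  have f := Real.pow_div_factorial_le_exp (ll X) (by linarith) 5
  have g := Real.add_one_le_exp (ll X)
  rw [← eL] at f g
  simp only [Nat.factorial, Nat.succ_eq_add_one, Nat.reduceAdd, Nat.reduceMul, Nat.cast_ofNat] at f
  unfold ww LL
  set l := ll X with hl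
  set L := Real.log X with hL
  have l0 : 0 < l := by linarith
  have q1 : 120 * |A| ≤ l * δ := (div_le_iff₀ hδ).1 (by linarith)
  have q2 : |A| ≤ l * δ ^ 2 := (div_le_iff₀ (by positivity)).1 (by linarith)
  have l4 : 0 < l ^ 4 := by positivity
  refine ⟨h3, by linarith, by linarith, ?_, ?_, ?_, ?_, ?_, ?_, Real.one_le_exp (by positivity)⟩
  · rw [Real.rpow_def_of_pos l0, Real.rpow_def_of_pos L0]
    refine Real.exp_le_exp.2 ?_
    have lg : 0 ≤ Real.log l := Real.log_nonneg (by linarith)
    rw [Real.norm_eq_abs, abs_of_nonneg lg, id, Real.norm_eq_abs, abs_of_pos l0, div_mul_eq_mul_div,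
      le_div_iff₀ (by positivity)] at h1
    change _ ≤ l * δ
    nlinarith
  · rw [Real.rpow_def_of_pos L0, ← Real.exp_mul]
    refine Real.exp_le_exp.2 ?_
    change l * A ≤ _
    nlinarith [mul_pos l0 hδ]
  · rw [← Real.exp_mul, ← Real.exp_mul]
    refine Real.exp_le_exp.2 ?_
    rw [div_mul_eq_mul_div, le_div_iff₀ (by positivity)]
    nlinarith [mul_le_mul_of_nonneg_right f hδ.le, mul_le_mul_of_nonneg_left q1 l4.le,
      mul_le_mul_of_nonneg_left a1 l4.le]
  · rw [← Real.exp_mul, Real.rpow_def_of_pos X0]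
    refine Real.exp_le_exp.2 ?_
    rw [div_mul_eq_mul_div, div_le_iff₀ (by positivity), mul_assoc]
    refine mul_le_mul_of_nonneg_left ?_ L0.le
    nlinarith [mul_pos l0 hδ]
  · rw [Real.rpow_def_of_pos X0]
    refine Real.exp_le_exp.2 ?_
    have : A ≤ L * δ ^ 2 := by nlinarith [sq_nonneg δ]
    change _ ≤ L * -A
    nlinarith
  · refine le_trans ?_ (Real.add_one_le_exp _)
    have : 1 ≤ L / l ^ 2 := by
      rw [le_div_iff₀ (by positivity)]
      have : 120 ≤ l ^ 3 := le_trans (by linarith) (le_self_pow₀ (by linarith) three_ne_zero)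
      nlinarith [sq_nonneg l]
    linarith

end Vale.Agent.P006.M
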