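import Vale.Agent.P006.M

/-! Low part: atoms and pointwise bounds. -/

noncomputable section
open Complex MeasureTheory Filter Topology
open scoped Classical ComplexConjugate

namespace Vale.Agent.P006.M.LOM
open Vale.Agent.P026 Vale.Agent.P006 W1
open Vale.Agent.P006.Vau (PS Lam b8 mem_PS N1 N0 N_one)

theorem pw {x : ℝ} (hx : 0 < x) (w : ℂ) : (x : ℂ) ^ w = cexp (w * Real.log x) := by
  rw [cpow_def_of_ne_zero (by exact_mod_cast hx.ne'), ofReal_log hx.le, mul_comm]

theorem mu_pf {n : O} (hn : Prim n) : Squarefree n → mu n = (-1) ^ (pf n).card := by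
  refine bas.b2.ind1 (fun n => Squarefree n → mu n = (-1) ^ (pf n).card) ?_ ?_ n hn
  · intro _; simp [ZKM.mu_one, b8.pf_one]
  · intro p a hp h1 ha ih hs
    have a0 := bas.b2.ne a ha
    have nd : ¬ p ∣ a := fun h => hp.not_unit (hs p (mul_dvd_mul_left p h))
    have m : p ∉ pf a := fun h => nd ((b8.mem a p a0).1 h).2.2
    rw [ZKM.mu_prime_mul hp a0, if_neg nd, ih hs.of_mul_right, b8.pf_mul p a hp.ne_zero a0,
      Vau.pf_prime hp h1, ← Finset.insert_eq, Finset.card_insert_of_notMem m, pow_succ]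
    ring

theorem N_prod (x : Fin 6 → O) : N (∏ i, x i) = ∏ i, N (x i) := by
  simp only [Fin.prod_univ_six, bas.b1.N_mul]

theorem prim_prod {x : Fin 6 → O} (h : ∀ i, Prim (x i)) : Prim (∏ i, x i) :=
  Finset.prod_induction _ _ bas.b2.mul bas.b2.one fun i _ => h i

theorem del_le {n : O} (hn : Prim n) : ‖del n‖ ≤ 1 + cst := by
  have c := Z1.cst_pos
  unfold del
  split_ifs with h
  · refine (norm_sub_le _ _).trans ?_
    have := Real.rpow_le_one_of_one_le_of_nonpos (N1 hn) (show (-1 / 6 : ℝ) ≤ 0 by norm_num)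
    have p := Real.rpow_nonneg (N0 n) (-1 / 6 : ℝ)
    rw [Z0.norm_gt hn h, Complex.norm_real, Real.norm_of_nonneg (by positivity)]
    nlinarith
  · rw [norm_zero]; linarith

theorem N_le_one {n : O} (hn : Prim n) : N n ≤ 1 ↔ n = 1 := by
  refine ⟨fun h => ?_, by rintro rfl; rw [N_one]⟩
  have e : Nn n = 1 := by
    have : N n = 1 := le_antisymm h (N1 hn)
    unfold N at this
    exact_mod_cast this
  exact bas.b2.uniq _ _ hn bas.b2.one (associated_one_iff_isUnit.2 ((bas.b1.unit_iff n).2 e))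

/-- the shapes of a low factor -/
theorem shape {X : ℝ} {g : Fin 6 → O → ℂ} (hg : Raw X g) (i : Fin 6) :
    low X g i = aM X ∨ low X g i = aE ∨ ∃ j : ℕ, (j = 0 ∨ (j = 1 ∧ i = 5)) ∧
      low X g i = fun n => aL X j n * ((1 - hiW (X ^ (49 / 100 : ℝ)) (N n) : ℝ) : ℂ) := by
  by_cases c : i.val < 3 ∨ g i = aE
  · have e : low X g i = g i := funext fun n => if_pos c
    rw [e]
    rcases c with c | c
    · exact (hg.1 i c).imp id Or.inl
    · exact Or.inr (Or.inl c)
  · have e : low X g i = fun n => g i n * ((1 - hiW (X ^ (49 / 100 : ℝ)) (N n) : ℝ) : ℂ) :=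
      funext fun n => if_neg c
    rw [e]
    push Not at c
    have : i = 3 ∨ i = 4 ∨ i = 5 := by omega
    rcases this with rfl | rfl | rfl
    · exact Or.inr (Or.inr ⟨0, Or.inl rfl, by rw [hg.2.1.resolve_right c.2]⟩)
    · exact Or.inr (Or.inr ⟨0, Or.inl rfl, by rw [hg.2.2.1.resolve_right c.2]⟩)
    · exact Or.inr (Or.inr ⟨1, Or.inr ⟨rfl, rfl⟩, by rw [hg.2.2.2]⟩)

def VB (X : ℝ) (i : Fin 6) : ℝ := if i = 5 then 2 * X else 1

theorem VB1 {X : ℝ} (hX : 3 ≤ X) (i : Fin 6) : 1 ≤ VB X i := by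
  unfold VB; split_ifs <;> linarith

theorem low_le (hL : HLStmt) {X : ℝ} {g : Fin 6 → O → ℂ} (hg : Raw X g) (hX : 3 ≤ X)
    (h1 : 2 * X ^ (1 / 3 : ℝ) ≤ X ^ (491 / 1000 : ℝ))
    (h2 : Real.exp (-(1 / 1000 * Real.log X) ^ 2) ≤ X ^ (-10 : ℝ)) (i : Fin 6) {n : O} (hn : Prim n)
    (hN : N n ≤ 2 * X) :
    ‖low X g i n‖ ≤ VB X i ∧ (X ^ (491 / 1000 : ℝ) < N n → ‖low X g i n‖ ≤ VB X i * X ^ (-10 : ℝ)) := by
  have v1 := VB1 hX i
  have X0 : 0 < X := by linarith
  have p : 0 ≤ VB X i * X ^ (-10 : ℝ) := by positivity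
  have n1 := N1 hn
  rcases shape hg i with e | e | ⟨j, hj, e⟩ <;> rw [e]
  · refine ⟨?_, fun h => ?_⟩
    · unfold aM; split_ifs
      · exact (b8.mu_le n).trans v1
      · rw [norm_zero]; linarith
    · rw [aM, if_neg fun c => by linarith [c.2], norm_zero]; exact p
  · refine ⟨?_, fun h => ?_⟩
    · unfold aE; split_ifs
      · rw [norm_one]; exact v1
      · rw [norm_zero]; linarith
    · have : (1 : ℝ) ≤ X ^ (491 / 1000 : ℝ) := Real.one_le_rpow (by linarith) (by norm_num)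
      rw [aE, if_neg (by rintro rfl; rw [N_one] at h; linarith), norm_zero]; exact p
  · have y0 : 0 < X ^ (49 / 100 : ℝ) := by positivity
    obtain ⟨a1, a2, a3, -⟩ := (hL _ y0).2 (N n) (by linarith)
    have b1 : ‖aL X j n‖ ≤ VB X i := by
      unfold aL; split_ifs
      · rcases hj with rfl | ⟨rfl, rfl⟩
        · simpa using v1
        · have := Real.log_le_self (N0 n)
          rw [Complex.norm_real, pow_one, Real.norm_of_nonneg (Real.log_nonneg n1), VB, if_pos rfl]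
          linarith
      · rw [norm_zero]; linarith
    simp only [norm_mul, Complex.norm_real]
    rw [Real.norm_of_nonneg (by linarith)]
    refine ⟨(mul_le_of_le_one_right (norm_nonneg _) (by linarith)).trans b1, fun h => ?_⟩
    refine mul_le_mul b1 ?_ (by linarith) (by linarith)
    have c1 : X ^ (49 / 100 : ℝ) ≤ X ^ (491 / 1000 : ℝ) :=
      Real.rpow_le_rpow_of_exponent_le (by linarith) (by norm_num)
    refine (a3 (by linarith)).trans (le_trans (Real.exp_le_exp.2 ?_) h2)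
    have l0 : 0 ≤ Real.log X := Real.log_nonneg (by linarith)
    have c2 := Real.log_le_log (by positivity) h.le
    rw [Real.log_div (by linarith) y0.ne', Real.log_rpow X0, neg_le_neg_iff]
    rw [Real.log_rpow X0] at c2
    exact pow_le_pow_left₀ (by positivity) (by linarith) 2

/-- twisted shell of a low factor -/
def GG (X t : ℝ) (g : Fin 6 → O → ℂ) (k : Fin 6 → ℕ) (i : Fin 6) (n : O) : ℂ :=
  if Nat.log 2 (Nn n) = k i then
    low X g i n * (N n : ℂ) ^ (-((Real.log X)⁻¹ : ℝ) - t * I : ℂ) else 0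

theorem shell {n : O} (hn : Prim n) (k : ℕ) :
    Nat.log 2 (Nn n) = k ↔ (2 : ℝ) ^ k ≤ N n ∧ N n < 2 * 2 ^ k := by
  have n1 := N1 hn
  have n0 : Nn n ≠ 0 := by
    intro h; unfold N at n1; rw [h] at n1; norm_num at n1
  rw [Nat.log_eq_iff (Or.inr ⟨one_lt_two, n0⟩), pow_succ']
  unfold N
  exact_mod_cast Iff.rfl

theorem atom (hL : HLStmt) {X : ℝ} {g : Fin 6 → O → ℂ} (hg : Raw X g) (hX : 3 ≤ X) (t : ℝ)
    (k : Fin 6 → ℕ) (i : Fin 6) (hk : 2 * (2 : ℝ) ^ k i ≤ X) :
    Atom (ww X) (2 ^ k i) (if i = 5 then Real.log X else 1) (-t) (GG X t g k i) := by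
  have l1 : 1 ≤ Real.log X := by
    rw [Real.le_log_iff_exp_le (by linarith)]
    linarith [Real.exp_one_lt_d9]
  have V1 : (1 : ℝ) ≤ if i = 5 then Real.log X else 1 := by split_ifs <;> linarith
  set la : ℝ := (Real.log X)⁻¹ with hla
  have la0 : 0 ≤ la := by positivity
  have y0 : 0 < X ^ (49 / 100 : ℝ) := by positivity
  have main : ∀ (η : ℂ) (v1 v2 : ℝ → ℝ), (η = 1 ∨ η = -1) → MonotoneOn v1 (Set.Ici 1) →
      AntitoneOn v2 (Set.Ici 1) → (∀ x, 1 ≤ x → x ≤ X → 0 ≤ v1 x ∧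
        v1 x ≤ if i = 5 then Real.log X else 1) → (∀ x, 1 ≤ x → 0 ≤ v2 x ∧ v2 x ≤ 1) →
      (∀ n, SP n → low X g i n = if Rough (ww X) n then
        η ^ (pf n).card * ((v1 (N n) * v2 (N n) : ℝ) : ℂ) else 0) →
      Atom (ww X) (2 ^ k i) (if i = 5 then Real.log X else 1) (-t) (GG X t g k i) := by
    intro η v1 v2 a1 a2 a3 a4 a5 a6
    have r1 : ∀ x : ℝ, 1 ≤ x → 0 ≤ x ^ (-la) ∧ x ^ (-la) ≤ 1 := fun x hx =>
      ⟨by positivity, Real.rpow_le_one_of_one_le_of_nonpos hx (by linarith)⟩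
    refine ⟨η, v1, fun x => v2 x * x ^ (-la), a1, a2, fun x hx y hy hxy => ?_, fun x h1 h2 => ?_,
      fun n hn => ?_⟩
    · exact mul_le_mul (a3 hx hy hxy) (Real.rpow_le_rpow_of_nonpos (by linarith [hx.out]) hxy
        (by linarith)) (r1 y hy).1 (a5 x hx).1
    · exact ⟨(a4 x h1 (by linarith)).1, (a4 x h1 (by linarith)).2,
        mul_nonneg (a5 x h1).1 (r1 x h1).1, mul_le_one₀ (a5 x h1).2 (r1 x h1).1 (r1 x h1).2⟩
    · have n0 : 0 < N n := zero_lt_one.trans_le (N1 hn.1)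
      unfold GG
      rw [a6 n hn, ← hla]
      simp only [shell hn.1]
      by_cases c1 : Rough (ww X) n
      · by_cases c2 : (2 : ℝ) ^ k i ≤ N n ∧ N n < 2 * 2 ^ k i
        · rw [if_pos c2, if_pos c1, if_pos ⟨c1, c2⟩, sub_eq_add_neg,
            Complex.cpow_add _ _ (by exact_mod_cast n0.ne')]
          push_cast [Complex.ofReal_cpow n0.le]
          ring_nf
        · rw [if_neg c2, if_neg fun c => c2 c.2]
      · simp [c1]
  have ind : ∀ B : ℝ, AntitoneOn (fun x : ℝ => if x ≤ B then (1 : ℝ) else 0) (Set.Ici 1) :=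
    fun B x _ y _ hxy => by
      simp only
      split_ifs with c1 c2
      · exact le_rfl
      · exact absurd (hxy.trans c1) c2
      · exact zero_le_one
      · exact le_rfl
  have ind2 : ∀ B x : ℝ, 1 ≤ x → 0 ≤ (if x ≤ B then (1 : ℝ) else 0) ∧
      (if x ≤ B then (1 : ℝ) else 0) ≤ 1 := fun B x _ => by split_ifs <;> norm_num
  rcases shape hg i with e | e | ⟨j, hj, e⟩
  · refine main (-1) (fun _ => 1) _ (Or.inr rfl) monotoneOn_const (ind (2 * X ^ (1 / 3 : ℝ)))
      (fun _ _ _ => ⟨zero_le_one, V1⟩) (ind2 _) fun n hn => ?_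
    rw [e, aM, mu_pf hn.1 hn.2]
    generalize 2 * X ^ (1 / 3 : ℝ) = B
    by_cases c1 : Rough (ww X) n <;> by_cases c2 : N n ≤ B <;> simp [c1, c2]
  · refine main 1 (fun _ => 1) _ (Or.inl rfl) monotoneOn_const (ind 1)
      (fun _ _ _ => ⟨zero_le_one, V1⟩) (ind2 _) fun n hn => ?_
    rw [e, aE]
    simp only [N_le_one hn.1]
    by_cases c : n = 1
    · subst c
      simp [Rough, b8.pf_one]
    · simp [c]
  · refine main 1 (fun x => Real.log x ^ j) (fun x => 1 - hiW (X ^ (49 / 100 : ℝ)) x) (Or.inl rfl)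
      (fun x hx y _ hxy => pow_le_pow_left₀ (Real.log_nonneg hx)
        (Real.log_le_log (by linarith [hx.out]) hxy) j)
      (fun x hx y hy hxy => sub_le_sub_left ((hL _ y0).1 (by linarith [hx.out] : (0 : ℝ) < x)
        (by linarith [hy.out] : (0 : ℝ) < y) hxy) 1)
      (fun x h1 h2 => ⟨pow_nonneg (Real.log_nonneg h1) j, ?_⟩) (fun x h1 => ?_) fun n hn => ?_
    · rcases hj with rfl | ⟨rfl, rfl⟩
      · simpa using V1
      · rw [if_pos rfl, pow_one]; exact Real.log_le_log (by linarith) h2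
    · obtain ⟨a1, a2, -⟩ := (hL _ y0).2 x (by linarith)
      constructor <;> linarith
    · rw [e]
      simp only [aL]
      split_ifs <;> simp

end Vale.Agent.P006.M.LOM
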