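import Vale.Agent.P006.M
import Vale.Agent.P006.MI

/-! P006 main branch: the averaged type I bound. -/

noncomputable section
open Complex
open scoped Classical

namespace Vale.Agent.P006.M
open Vale.Agent.P026 Vale.Agent.P006

theorem ti1S (h : MI.TIEStmt) : TI1Stmt := by
  obtain ⟨C, C0, h⟩ := h
  refine ⟨C, C0, fun R Z t S Zf hR hZ hl hS => le_of_eq_of_le ?_ (h S R t Z Zf hR hZ hl hS)⟩
  refine Finset.sum_congr rfl fun r hr => congrArg _ (tsum_congr fun u => ?_)
  split_ifs with hu
  · have : Prim (r * u) := W1.bas.b2.mul _ _ (hS r hr).1.1 hu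
    simp only [MI.del, del, MI.wt, SP, this, true_and, mul_assoc]
    rw [mul_comm ((VV _ _ : ℝ) : ℂ)]
    rfl
  · rfl

end Vale.Agent.P006.M
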