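import Vale.Agent.P006.M
import Vale.Agent.P006.L.H16
import Vale.Agent.P026.M.W2a

/-! P006 main branch: tools for the high part. -/

noncomputable section
open Complex MeasureTheory Filter Topology
open scoped Classical ComplexConjugate

namespace Vale.Agent.P006.M.HB0
open Vale.Agent.P026 Vale.Agent.P006 H16

/-- a finite sum of integrals against one integrable weight -/
theorem isum {ι : Type} (s : Finset ι) {c : ℝ → ℂ} (hc : Integrable c) (k : ι → ℂ) (g : ι → ℝ → ℂ)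
    (hg : ∀ i ∈ s, Continuous (g i)) {M D : ℝ} (hb : ∀ i ∈ s, ∀ t, ‖g i t‖ ≤ M)
    (hD : ∀ t, ‖∑ i ∈ s, k i * g i t‖ ≤ D) :
    ‖∑ i ∈ s, k i * ∫ t, c t * g i t‖ ≤ D * ∫ t, ‖c t‖ := by
  have hi : ∀ i ∈ s, Integrable fun t => k i * (c t * g i t) := fun i h =>
    (hc.mul_bdd (hg i h).aestronglyMeasurable (Eventually.of_forall (hb i h))).const_mul _
  simp only [← integral_const_mul]
  rw [← integral_finset_sum _ hi]
  refine norm_integral_le_of_norm_le (hc.norm.const_mul D) (Eventually.of_forall fun t => ?_)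
  have : ∑ i ∈ s, k i * (c t * g i t) = c t * ∑ i ∈ s, k i * g i t := by
    rw [Finset.mul_sum]; exact Finset.sum_congr rfl fun i _ => by ring
  rw [this, norm_mul, mul_comm]
  exact mul_le_mul_of_nonneg_right (hD t) (norm_nonneg _)

theorem cpc {x : ℝ} (hx : 0 < x) (a : ℂ) : Continuous fun t : ℝ => (x : ℂ) ^ (a - t * I) :=
  Continuous.const_cpow (by fun_prop) (Or.inl (ofReal_ne_zero.2 hx.ne'))

theorem cpn {x : ℝ} (hx : 0 < x) (a t : ℝ) : ‖(x : ℂ) ^ ((a : ℂ) - t * I)‖ = x ^ a := by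
  rw [norm_cpow_eq_rpow_re_of_pos hx]; simp

def cV (t : ℝ) : ℂ := ((2 * √Real.pi : ℝ) : ℂ)⁻¹ * cexp (-(1 / 4) * t ^ 2)

theorem cV_int : Integrable cV := (integrable_cexp_neg_mul_sq (b := 1 / 4) (by simp)).const_mul _

/-- Mellin formula on the imaginary axis -/
theorem vvm {Z x : ℝ} (hZ : 0 < Z) (hx : 0 < x) :
    (VV Z x : ℂ) = ∫ t : ℝ, cV t * ((x / Z : ℝ) : ℂ) ^ (((0 : ℝ) : ℂ) - t * I) := by
  have h := W2.ln.mel 1 (x / Z) 0 0 one_pos (div_pos hx hZ)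
  have e : VV 1 (x / Z) = VV Z x := by simp [VV]
  simp only [neg_zero, cpow_zero, one_mul, sub_zero, e, ofReal_one, one_cpow, mul_one] at h
  rw [h, ← integral_const_mul]
  congr 1
  ext t
  rw [cV, ofReal_inv, mul_assoc]
  congr 3
  · rw [ofReal_zero, zero_add, mul_pow, I_sq]; ring
  · simp

def pr (x : O × O × O) : O := x.1 * x.2.1 * x.2.2
def w3 (x : O × O × O) : ℝ := 3 ^ (pf x.1).card * 3 ^ (pf x.2.1).card * 3 ^ (pf x.2.2).card
def Ok (A : ℝ) (x : O × O × O) : Prop := SP x.1 ∧ SP x.2.1 ∧ SP x.2.2 ∧ N (x.1 * x.2.1 * x.2.2) ≤ A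

theorem pr1 {A : ℝ} {x : O × O × O} (h : Ok A x) : 1 ≤ N (pr x) := by
  rw [pr, W1.bas.b1.N_mul, W1.bas.b1.N_mul]
  exact one_le_mul_of_one_le_of_one_le (one_le_mul_of_one_le_of_one_le (N1 h.1.1) (N1 h.2.1.1)) (N1 h.2.2.1.1)

theorem w3_nn (x : O × O × O) : 0 ≤ w3 x := by unfold w3; positivity

/-- the truncated bilinear bound -/
theorem trunc (SLI : SLIStmt) (TRI : TRIStmt) : ∃ C : ℝ, 0 ≤ C ∧ ∀ (Y A B : ℝ) (m : ℕ)
    (S T : Finset (O × O × O)) (α β : O × O × O → ℂ), 0 ≤ Y → Y + 1 ≤ 2 ^ m → 1 ≤ A → 1 ≤ B →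
    (∀ x ∈ S, Ok A x) → (∀ y ∈ T, Ok B y) →
    BF S T (fun x y => α x * β y * if N (pr x * pr y) ≤ Y then del (pr x * pr y) else 0)
      (fun x => w3 x * ‖α x‖ ^ 2) (fun y => w3 y * ‖β y‖ ^ 2)
      ((m + 1) * (C * √(A + B + (A * B) ^ (2 / 3 : ℝ)))) := by
  obtain ⟨C, hC, h⟩ := SLI
  refine ⟨C, hC, fun Y A B m S T α β hY hm hA hB hS hT S' hS' T' hT' => ?_⟩
  have key := TRI _ _ S T _ _ _ _ (fun x => Nn (pr x)) (fun y => ⌊Y / N (pr y)⌋₊ + 1) m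
    (fun x => mul_nonneg (w3_nn x) (sq_nonneg ‖α x‖)) (fun y => mul_nonneg (w3_nn y) (sq_nonneg ‖β y‖))
    (by positivity) (fun y hy => by
      have a := pr1 (hT y hy)
      have b : ((⌊Y / N (pr y)⌋₊ : ℕ) : ℝ) ≤ Y := (Nat.floor_le (by positivity)).trans (div_le_self hY a)
      have : ((⌊Y / N (pr y)⌋₊ + 1 : ℕ) : ℝ) ≤ ((2 ^ m : ℕ) : ℝ) := by push_cast; linarith
      exact_mod_cast this) (h A B S T α β hA hB hS hT) S' hS' T' hT'
  refine le_of_eq_of_le ?_ key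
  congr 1
  refine Finset.sum_congr rfl fun x _ => Finset.sum_congr rfl fun y hy => ?_
  have a := pr1 (hT y (hT' hy))
  have : N (pr x * pr y) ≤ Y ↔ Nn (pr x) < ⌊Y / N (pr y)⌋₊ + 1 := by
    rw [Nat.lt_add_one_iff, Nat.le_floor_iff (by positivity), le_div_iff₀ (by linarith), W1.bas.b1.N_mul]
    rfl
  simp only [this, mul_ite, mul_zero]
  rfl

/-- removing the smooth weight -/
theorem wt {X K D : ℝ} {Φ : ℝ → ℂ} (hX : 3 ≤ X) (hΦ : Wt X K Φ) {ι κ : Type} (S : Finset ι) (T : Finset κ)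
    (f : ι → O) (g : κ → O) (hf : ∀ x ∈ S, 1 ≤ N (f x)) (hg : ∀ y ∈ T, 1 ≤ N (g y)) (k : ι → κ → ℂ)
    (hD : ∀ (a : ι → ℂ) (b : κ → ℂ), (∀ x, ‖a x‖ ≤ 1) → (∀ y, ‖b y‖ ≤ 1) →
      ‖∑ x ∈ S, ∑ y ∈ T, a x * b y * k x y‖ ≤ D) :
    ‖∑ x ∈ S, ∑ y ∈ T, k x y * Φ (N (f x * g y) / X)‖ ≤ 3 * D * (K * ll X) := by
  obtain ⟨c, hc, -, hr, hl, -⟩ := hΦ.rep
  have X0 : 0 < X := by linarith
  have l0 : 0 < Real.log X := Real.log_pos (by linarith)
  set l := (Real.log X)⁻¹ with hl'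
  have lp : 0 < l := inv_pos.2 l0
  have D0 : 0 ≤ D := (norm_nonneg _).trans (hD 0 0 (by simp) (by simp))
  have e3 : X⁻¹ ^ (-l) ≤ 3 := by
    rw [Real.inv_rpow X0.le, Real.rpow_neg X0.le, inv_inv, Real.rpow_def_of_pos X0, hl', mul_inv_cancel₀ l0.ne']
    linarith [Real.exp_one_lt_d9]
  have n1 : ∀ (n : O) (t : ℝ), ‖(if 1 ≤ N n then (N n : ℂ) ^ (((-l : ℝ) : ℂ) - t * I) else 0)‖ ≤ 1 := fun n t => by
    split_ifs with h
    · rw [cpn (by linarith)]; exact Real.rpow_le_one_of_one_le_of_nonpos h (by linarith)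
    · simp
  have sp : ∀ z ∈ S ×ˢ T, ∀ t : ℝ, ((N (f z.1 * g z.2) / X : ℝ) : ℂ) ^ (((-l : ℝ) : ℂ) - t * I) =
      ((X⁻¹ : ℝ) : ℂ) ^ (((-l : ℝ) : ℂ) - t * I) *
        ((if 1 ≤ N (f z.1) then (N (f z.1) : ℂ) ^ (((-l : ℝ) : ℂ) - t * I) else 0) *
        (if 1 ≤ N (g z.2) then (N (g z.2) : ℂ) ^ (((-l : ℝ) : ℂ) - t * I) else 0)) := fun z hz t => by
    obtain ⟨h1, h2⟩ := Finset.mem_product.1 hz
    rw [if_pos (hf _ h1), if_pos (hg _ h2), W1.bas.b1.N_mul, div_eq_inv_mul, ofReal_mul,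
      mul_cpow_ofReal_nonneg (by positivity) (mul_nonneg (N0 _) (N0 _)), ofReal_mul,
      mul_cpow_ofReal_nonneg (N0 _) (N0 _)]
  have p0 : ∀ z ∈ S ×ˢ T, 0 < N (f z.1 * g z.2) / X := fun z hz => by
    obtain ⟨h1, h2⟩ := Finset.mem_product.1 hz
    have := hf _ h1
    have := hg _ h2
    rw [W1.bas.b1.N_mul]; positivity
  rw [← Finset.sum_product']
  have key := isum (S ×ˢ T) hc (fun z => k z.1 z.2)
    (fun z t => ((N (f z.1 * g z.2) / X : ℝ) : ℂ) ^ (((-l : ℝ) : ℂ) - t * I)) (fun z hz => cpc (p0 z hz) _)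
    (M := 3) (D := 3 * D) (fun z hz t => by
      rw [sp z hz, norm_mul, norm_mul, cpn (by positivity)]
      calc _ ≤ (3 : ℝ) * (1 * 1) := by gcongr <;> exact n1 _ _
        _ = 3 := by norm_num) (fun t => by
      have := hD (fun x => if 1 ≤ N (f x) then (N (f x) : ℂ) ^ (((-l : ℝ) : ℂ) - t * I) else 0)
        (fun y => if 1 ≤ N (g y) then (N (g y) : ℂ) ^ (((-l : ℝ) : ℂ) - t * I) else 0)
        (fun _ => n1 _ _) (fun _ => n1 _ _)
      rw [← Finset.sum_product'] at this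
      rw [Finset.sum_congr rfl fun z hz => by rw [sp z hz, mul_left_comm, mul_comm (k z.1 z.2)],
        ← Finset.mul_sum, norm_mul, cpn (by positivity)]
      gcongr)
  refine (le_of_eq ?_).trans (key.trans (by gcongr))
  congr 1
  refine Finset.sum_congr rfl fun z hz => ?_
  rw [hr _ (p0 z hz), ofReal_neg]

/-- bilinear bound for `FF` -/
theorem gen (SLI : SLIStmt) (TRI : TRIStmt) : ∃ C : ℝ, 0 ≤ C ∧ ∀ (X K A B : ℝ) (Φ : ℝ → ℂ) (m : ℕ)
    (S T : Finset (O × O × O)) (α β : O × O × O → ℂ), 3 ≤ X → Wt X K Φ → 2 * X + 1 ≤ 2 ^ m → 1 ≤ A → 1 ≤ B →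
    (∀ x ∈ S, Ok A x) → (∀ y ∈ T, Ok B y) → (∀ x, ‖α x‖ ≤ 1) → (∀ y, ‖β y‖ ≤ 1) →
    ‖∑ x ∈ S, ∑ y ∈ T, α x * β y * FF X Φ (pr x * pr y)‖ ≤
      3 * ((m + 1) * (C * √(A + B + (A * B) ^ (2 / 3 : ℝ))) * √(∑ x ∈ S, w3 x) * √(∑ y ∈ T, w3 y)) *
        (K * ll X) := by
  obtain ⟨C, hC, h⟩ := trunc SLI TRI
  refine ⟨C, hC, fun X K A B Φ m S T α β hX hΦ hm hA hB hS hT hα hβ => ?_⟩
  refine le_of_eq_of_le ?_ (wt hX hΦ S T pr pr (fun x hx => pr1 (hS x hx)) (fun y hy => pr1 (hT y hy))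
    (fun x y => α x * β y * if N (pr x * pr y) ≤ 2 * X then del (pr x * pr y) else 0) fun a b ha hb => ?_)
  · congr 1
    refine Finset.sum_congr rfl fun x _ => Finset.sum_congr rfl fun y _ => ?_
    unfold FF
    split_ifs <;> ring
  · have key := h (2 * X) A B m S T (fun x => a x * α x) (fun y => b y * β y) (by linarith) hm hA hB hS hT
      S subset_rfl T subset_rfl
    have sq : ∀ (u v : O × O × O → ℂ) (U : Finset (O × O × O)), (∀ x, ‖u x‖ ≤ 1) → (∀ x, ‖v x‖ ≤ 1) →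
        √(∑ x ∈ U, w3 x * ‖u x * v x‖ ^ 2) ≤ √(∑ x ∈ U, w3 x) := fun u v U hu hv =>
      Real.sqrt_le_sqrt (Finset.sum_le_sum fun x _ => mul_le_of_le_one_right (w3_nn x)
        (pow_le_one₀ (norm_nonneg _) (by
          rw [norm_mul]; exact mul_le_one₀ (hu x) (norm_nonneg _) (hv x))))
    refine le_of_eq_of_le ?_ (key.trans ?_)
    · congr 1
      exact Finset.sum_congr rfl fun x _ => Finset.sum_congr rfl fun y _ => by ring
    · exact mul_le_mul (mul_le_mul_of_nonneg_left (sq _ _ _ ha hα) (by positivity)) (sq _ _ _ hb hβ)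
        (Real.sqrt_nonneg _) (by positivity)

theorem pf1 : pf 1 = ∅ := by
  unfold pf
  split_ifs with h
  · ext p
    simp only [Set.Finite.mem_toFinset, Set.mem_setOf_eq, Finset.notMem_empty, iff_false]
    exact fun q => q.1.not_dvd_one q.2.2
  · rfl

theorem sp1 : SP 1 := ⟨W1.bas.b2.one, squarefree_one⟩

theorem del_le {n : O} (h : Prim n) : ‖del n‖ ≤ 1 + cst := by
  have := Z1.cst_pos
  unfold del
  split_ifs with s
  · refine (norm_sub_le _ _).trans ?_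
    rw [Z0.norm_gt h s, norm_real, Real.norm_of_nonneg (by have := N0 n; positivity)]
    gcongr
    exact mul_le_of_le_one_right this.le (Real.rpow_le_one_of_one_le_of_nonpos (N1 h) (by norm_num))
  · rw [norm_zero]; positivity

/-- the log-normal weight away from its centre -/
theorem vv_le {Z x d : ℝ} (hd : 0 ≤ d) (h : Real.log (x / Z) ≤ -d ∨ d ≤ Real.log (x / Z)) :
    VV Z x ≤ Real.exp (-d ^ 2) := by
  refine Real.exp_le_exp.2 ?_
  rcases h with h | h <;> nlinarith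

end Vale.Agent.P006.M.HB0
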