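import Vale.Agent.P006.M
import Vale.Agent.P006.Mer
import Vale.Agent.P026.M.W2a

/-! P006 main branch: separation of variables and a harmonic sum. -/

noncomputable section
open Complex MeasureTheory Filter Topology Finset
open scoped Classical ComplexConjugate

namespace Vale.Agent.P006.M.H2
open Vale.Agent.P026 Vale.Agent.P006

theorem mSQ {X : ℝ} {n : O} : n ∈ SQ X ↔ SP n ∧ N n ≤ X := (memS W1.bas).1 X n
theorem Np {n : O} (h : SP n) : 1 ≤ N n := Vau.N1 h.1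

theorem hsum : ∃ C : ℝ, 0 ≤ C ∧ ∀ Y : ℝ, 2 ≤ Y →
    ∑ n ∈ SQ Y, (3 : ℝ) ^ (pf n).card / N n ≤ C * Real.log Y ^ 3 := by
  obtain ⟨C, hC0, hC⟩ := Mer.mertens
  have l2 : 0 < Real.log 2 := Real.log_pos (by norm_num)
  refine ⟨Real.exp (3 * C) / Real.log 2 ^ 3, by positivity, fun Y hY => ?_⟩
  have lY : 0 < Real.log Y := Real.log_pos (by linarith)
  set P := Mer.PP Y with hP
  have h1 : ∑ n ∈ SQ Y, (3 : ℝ) ^ (pf n).card / N n ≤ ∑ T ∈ P.powerset, ∏ p ∈ T, (3 / N p) := by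
    have e : ∀ n ∈ SQ Y, (3 : ℝ) ^ (pf n).card / N n = ∏ p ∈ pf n, (3 / N p) := fun n hn => by
      obtain ⟨⟨a, b⟩, _⟩ := mSQ.1 hn
      rw [prod_div_distrib, prod_const, ← Mer.N_sqf a b]
    rw [sum_congr rfl e, ← sum_image (s := SQ Y) (g := pf) (f := fun T => ∏ p ∈ T, (3 / N p)) fun n hn m hm e => by
      rw [Mer.sqf_eq (mSQ.1 hn).1.1 (mSQ.1 hn).1.2, Mer.sqf_eq (mSQ.1 hm).1.1 (mSQ.1 hm).1.2, e]]
    refine sum_le_sum_of_subset_of_nonneg (fun T hT => ?_) fun T _ _ =>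
      prod_nonneg fun p _ => div_nonneg (by norm_num) (Vau.N0 p)
    obtain ⟨n, hn, rfl⟩ := mem_image.1 hT
    obtain ⟨⟨a, b⟩, c⟩ := mSQ.1 hn
    refine mem_powerset.2 fun p hp => ?_
    have n0 := W1.bas.b2.ne n a
    obtain ⟨e1, e2, e3⟩ := (Vau.b8.mem n p n0).1 hp
    exact Mer.mem_PP.2 ⟨e1, e2, (Vau.N_dvd n0 e3).trans c⟩
  rw [← prod_one_add] at h1
  have h2 : ∏ p ∈ P, (1 + 3 / N p) ≤ Real.exp (∑ p ∈ P, 3 / N p) := by
    rw [Real.exp_sum]
    exact prod_le_prod (fun p _ => by have := Vau.N0 p; positivity)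
      fun p _ => by linarith [Real.add_one_le_exp (3 / N p)]
  have h3 := hC 2 Y P le_rfl hY fun p hp => by
    obtain ⟨a, b, c⟩ := Mer.mem_PP.1 hp
    exact ⟨a, b, Mer.N2 a, c⟩
  have h4 : ∑ p ∈ P, 3 / N p ≤ 3 * Real.log (Real.log Y / Real.log 2) + 3 * C := by
    simp only [div_eq_mul_inv (3 : ℝ), ← mul_sum]; linarith
  refine h1.trans (h2.trans ((Real.exp_le_exp.2 h4).trans_eq ?_))
  rw [Real.exp_add, show (3 : ℝ) * Real.log (Real.log Y / Real.log 2) =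
    ((3 : ℕ) : ℝ) * Real.log (Real.log Y / Real.log 2) by norm_num, Real.exp_nat_mul,
    Real.exp_log (by positivity)]
  field_simp

/-- bound uniform over unimodular twists -/
def UB {ι κ : Type} (S : Finset ι) (T : Finset κ) (H : ι → κ → ℂ) (D : ℝ) : Prop :=
  ∀ (a : ι → ℂ) (b : κ → ℂ), (∀ x ∈ S, ‖a x‖ ≤ 1) → (∀ y ∈ T, ‖b y‖ ≤ 1) →
    ‖∑ x ∈ S, ∑ y ∈ T, a x * b y * H x y‖ ≤ D

theorem sep {ι κ : Type} {S : Finset ι} {T : Finset κ} {H : ι → κ → ℂ} {D : ℝ} (h : UB S T H D)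
    (G : ι → κ → ℂ) (c : ℝ → ℂ) (a : ℝ → ι → ℂ) (b : ℝ → κ → ℂ) (hc : Integrable c)
    (ha : ∀ x ∈ S, Continuous (fun t => a t x) ∧ ∀ t, ‖a t x‖ ≤ 1)
    (hb : ∀ y ∈ T, Continuous (fun t => b t y) ∧ ∀ t, ‖b t y‖ ≤ 1)
    (hG : ∀ x ∈ S, ∀ y ∈ T, G x y = ∫ t, c t * (a t x * b t y)) :
    UB S T (fun x y => G x y * H x y) ((∫ t, ‖c t‖) * D) := by
  intro a' b' ha' hb'
  have hi : ∀ x ∈ S, ∀ y ∈ T, Integrable fun t => c t * (a' x * a t x * (b' y * b t y) * H x y) := by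
    intro x hx y hy
    have h1 : Integrable fun t => c t * (a t x * b t y) := by
      refine hc.mul_bdd (c := 1) ((ha x hx).1.mul (hb y hy).1).aestronglyMeasurable
        (Eventually.of_forall fun t => ?_)
      rw [norm_mul]
      exact mul_le_one₀ ((ha x hx).2 t) (norm_nonneg _) ((hb y hy).2 t)
    refine (h1.mul_const (a' x * b' y * H x y)).congr (Eventually.of_forall fun t => ?_)
    ring
  have e : ∑ x ∈ S, ∑ y ∈ T, a' x * b' y * (G x y * H x y) =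
      ∫ t, c t * ∑ x ∈ S, ∑ y ∈ T, a' x * a t x * (b' y * b t y) * H x y := by
    simp only [mul_sum]
    rw [integral_finsetSum _ fun x hx => integrable_finsetSum _ fun y hy => hi x hx y hy]
    refine sum_congr rfl fun x hx => ?_
    rw [integral_finsetSum _ fun y hy => hi x hx y hy]
    refine sum_congr rfl fun y hy => ?_
    rw [hG x hx y hy, ← mul_assoc, mul_comm (a' x * b' y), mul_assoc, ← integral_mul_const]
    congr 1; funext t; ring
  rw [e, ← integral_mul_const]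
  refine norm_integral_le_of_norm_le (hc.norm.mul_const D) (Eventually.of_forall fun t => ?_)
  rw [norm_mul]
  refine mul_le_mul_of_nonneg_left (h (fun x => a' x * a t x) (fun y => b' y * b t y) (fun x hx => ?_)
    fun y hy => ?_) (norm_nonneg _)
  · rw [norm_mul]; exact mul_le_one₀ (ha' x hx) (norm_nonneg _) ((ha x hx).2 t)
  · rw [norm_mul]; exact mul_le_one₀ (hb' y hy) (norm_nonneg _) ((hb y hy).2 t)

theorem cpw {x : ℝ} (hx : 1 ≤ x) (σ : ℝ) (hσ : 0 ≤ σ) :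
    Continuous (fun t : ℝ => (x : ℂ) ^ (-(σ : ℂ) - t * I)) ∧ ∀ t : ℝ, ‖(x : ℂ) ^ (-(σ : ℂ) - t * I)‖ ≤ 1 := by
  have x0 : 0 < x := by linarith
  refine ⟨?_, fun t => ?_⟩
  · exact Continuous.const_cpow (by fun_prop) (Or.inl (by exact_mod_cast x0.ne'))
  · rw [norm_cpow_eq_rpow_re_of_pos x0]
    simp only [sub_re, neg_re, ofReal_re, mul_re, I_re, mul_zero, ofReal_im, I_im, mul_one, sub_self, sub_zero]
    exact Real.rpow_le_one_of_one_le_of_nonpos hx (by linarith)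

/-- separation of an admissible weight -/
theorem ubPhi {ι κ : Type} {S : Finset ι} {T : Finset κ} {H : ι → κ → ℂ} {D X K : ℝ} {Φ : ℝ → ℂ}
    (h : UB S T H D) (hD : 0 ≤ D) (hX : 3 ≤ X) (hW : Wt X K Φ) (p : ι → ℝ) (q : κ → ℝ) (hp : ∀ x ∈ S, 1 ≤ p x)
    (hq : ∀ y ∈ T, 1 ≤ q y) : UB S T (fun x y => Φ (p x * q y / X) * H x y) (3 * (K * ll X) * D) := by
  obtain ⟨c, hc, -, hrep, hb, -⟩ := hW.rep
  have X0 : 0 < X := by linarith
  have lX : 0 < Real.log X := Real.log_pos (by linarith)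
  set σ : ℝ := (Real.log X)⁻¹ with hσ
  have σ0 : 0 ≤ σ := by positivity
  have nX : ∀ t : ℝ, ‖(X : ℂ) ^ ((σ : ℂ) + t * I)‖ = Real.exp 1 := fun t => by
    rw [norm_cpow_eq_rpow_re_of_pos X0]
    simp only [add_re, ofReal_re, mul_re, I_re, mul_zero, ofReal_im, I_im, mul_one, sub_self, add_zero]
    rw [Real.rpow_def_of_pos X0, hσ, mul_inv_cancel₀ lX.ne']
  have cX : Continuous fun t : ℝ => (X : ℂ) ^ ((σ : ℂ) + t * I) :=
    Continuous.const_cpow (by fun_prop) (Or.inl (by exact_mod_cast X0.ne'))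
  have hc' : Integrable fun t : ℝ => c t * (X : ℂ) ^ ((σ : ℂ) + t * I) :=
    hc.mul_bdd (c := Real.exp 1) cX.aestronglyMeasurable (Eventually.of_forall fun t => (nX t).le)
  have h1 := sep h (fun x y => Φ (p x * q y / X)) (fun t => c t * (X : ℂ) ^ ((σ : ℂ) + t * I))
    (fun t x => (p x : ℂ) ^ (-(σ : ℂ) - t * I)) (fun t y => (q y : ℂ) ^ (-(σ : ℂ) - t * I)) hc'
    (fun x hx => cpw (hp x hx) σ σ0) (fun y hy => cpw (hq y hy) σ σ0) (fun x hx y hy => by
      have p0 : 0 < p x := by linarith [hp x hx]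
      have q0 : 0 < q y := by linarith [hq y hy]
      rw [hrep _ (by positivity)]
      congr 1; funext t
      have e1 : ((p x * q y / X : ℝ) : ℂ) = ((p x * q y : ℝ) : ℂ) * ((X⁻¹ : ℝ) : ℂ) := by
        push_cast; ring
      rw [e1, mul_cpow_ofReal_nonneg (by positivity) (by positivity), ofReal_mul,
        mul_cpow_ofReal_nonneg p0.le q0.le, ofReal_inv X, inv_cpow _ _ (by
          rw [arg_ofReal_of_nonneg X0.le]; exact Real.pi_pos.ne), ← cpow_neg]
      have : -(-(σ : ℂ) - t * I) = σ + t * I := by ring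
      rw [this]; ring)
  intro a b ha hb'
  refine (h1 a b ha hb').trans (mul_le_mul_of_nonneg_right ?_ hD)
  simp only [norm_mul, nX]
  rw [integral_mul_const]
  have h0 : 0 ≤ ∫ t, ‖c t‖ := integral_nonneg fun t => norm_nonneg _
  have := Real.exp_one_lt_d9
  nlinarith

/-- separation of the log-normal weight -/
theorem ubVV {ι κ : Type} {S : Finset ι} {T : Finset κ} {H : ι → κ → ℂ} {D Z : ℝ}
    (h : UB S T H D) (hZ : 0 < Z) (p : ι → ℝ) (q : κ → ℝ) (hp : ∀ x ∈ S, 1 ≤ p x)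
    (hq : ∀ y ∈ T, 1 ≤ q y) : UB S T (fun x y => ((VV Z (p x * q y) : ℝ) : ℂ) * H x y) D := by
  set c : ℝ → ℂ := fun t => ((2 * Real.sqrt Real.pi : ℝ) : ℂ)⁻¹ * (cexp ((t * I) ^ 2 / 4) * (Z : ℂ) ^ ((t : ℂ) * I)) with hc
  have sp : 0 < Real.sqrt Real.pi := Real.sqrt_pos.2 Real.pi_pos
  have nc : ∀ t, ‖c t‖ = (2 * Real.sqrt Real.pi)⁻¹ * Real.exp (-(1 / 4) * t ^ 2) := fun t => by
    rw [hc]
    simp only [norm_mul, norm_inv, norm_real, norm_exp]
    rw [norm_cpow_eq_rpow_re_of_pos hZ]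
    have e1 : ((t * I : ℂ) ^ 2 / 4).re = -(1 / 4) * t ^ 2 := by
      have : ((t * I : ℂ) ^ 2 / 4) = ((-(1 / 4) * t ^ 2 : ℝ) : ℂ) := by
        rw [mul_pow, I_sq]; push_cast; ring
      rw [this, ofReal_re]
    rw [e1]
    simp [abs_of_pos sp]
  have cc : Continuous c := by
    refine continuous_const.mul (Continuous.mul (by fun_prop) ?_)
    exact Continuous.const_cpow (by fun_prop) (Or.inl (by exact_mod_cast hZ.ne'))
  have hi : Integrable c := by
    refine ((integrable_exp_neg_mul_sq (by norm_num : (0 : ℝ) < 1 / 4)).const_mul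
      (2 * Real.sqrt Real.pi)⁻¹).mono' cc.aestronglyMeasurable (Eventually.of_forall fun t => (nc t).le)
  have hI : ∫ t, ‖c t‖ = 1 := by
    simp only [nc]
    rw [integral_const_mul, integral_gaussian, show Real.pi / (1 / 4) = 2 ^ 2 * Real.pi by ring,
      Real.sqrt_mul (by norm_num), Real.sqrt_sq (by norm_num)]
    field_simp
  have h1 := sep h (fun x y => ((VV Z (p x * q y) : ℝ) : ℂ)) c
    (fun t x => (p x : ℂ) ^ (-((0 : ℝ) : ℂ) - t * I)) (fun t y => (q y : ℂ) ^ (-((0 : ℝ) : ℂ) - t * I)) hi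
    (fun x hx => cpw (hp x hx) 0 le_rfl) (fun y hy => cpw (hq y hy) 0 le_rfl) (fun x hx y hy => by
      have p0 : 0 < p x := by linarith [hp x hx]
      have q0 : 0 < q y := by linarith [hq y hy]
      have := W2.ln.mel Z (p x * q y) 0 0 hZ (by positivity)
      simp only [neg_zero, cpow_zero, one_mul, ofReal_zero, zero_add, sub_zero] at this
      rw [this, ← integral_const_mul]
      congr 1; funext t
      rw [hc, ofReal_mul (p x), mul_cpow_ofReal_nonneg p0.le q0.le]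
      simp only [ofReal_zero, neg_zero, zero_sub, ofReal_inv]
      ring)
  rwa [hI, one_mul] at h1

end Vale.Agent.P006.M.H2
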