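import Vale.Agent.P006.M.H2a

/-! P006 main branch: canonical splitting of smooth squarefree elements. -/

noncomputable section
open Complex Finset
open scoped Classical

namespace Vale.Agent.P006.M.H2
open Vale.Agent.P026 Vale.Agent.P006

def tp (ι : O → ℕ) (s : Finset O) (c : ℕ) : ℝ := ∏ p ∈ s.filter (fun p => c ≤ ι p), N p
def cc (ι : O → ℕ) (Y : ℝ) (s : Finset O) : ℕ := if h : ∃ c, tp ι s (c + 1) < Y then Nat.find h else 0
def II (ι : O → ℕ) (e : O) : ℕ := (pf e).sup fun p => ι p + 1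
def Cl (ι : O → ℕ) (Y : ℝ) (e : O) : Prop := Y ≤ N e ∧ ∀ p ∈ pf e, cc ι Y (pf e) ≤ ι p

theorem ex (ι : O → ℕ) {Y : ℝ} (hY : 1 < Y) (s : Finset O) : ∃ c, tp ι s (c + 1) < Y := by
  refine ⟨s.sup ι, ?_⟩
  rw [tp, filter_eq_empty_iff.2 fun p hp => by have := le_sup (f := ι) hp; omega, prod_empty]
  exact hY

theorem cc_eq (ι : O → ℕ) {Y : ℝ} (hY : 1 < Y) (s : Finset O) (c : ℕ) :
    cc ι Y s = c ↔ tp ι s (c + 1) < Y ∧ ∀ c' < c, Y ≤ tp ι s (c' + 1) := by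
  rw [cc, dif_pos (ex ι hY s), Nat.find_eq_iff]
  simp only [not_lt]

theorem pmono {s t : Finset O} (h : s ⊆ t) (h1 : ∀ p ∈ t, 1 ≤ N p) : ∏ p ∈ s, N p ≤ ∏ p ∈ t, N p := by
  rw [← prod_sdiff h]
  have a : 1 ≤ ∏ p ∈ t \ s, N p := prod_induction _ (fun x : ℝ => 1 ≤ x) (fun a b ha hb => one_le_mul_of_one_le_of_one_le ha hb) le_rfl
    fun p hp => h1 p (mem_sdiff.1 hp).1
  have b : 0 ≤ ∏ p ∈ s, N p := prod_nonneg fun p _ => Vau.N0 p
  nlinarith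

theorem key (ι : O → ℕ) {Y : ℝ} (hY : 1 < Y) {s1 s2 : Finset O} (h1 : ∀ p ∈ s1 ∪ s2, 1 ≤ N p)
    (ha : ∀ p ∈ s1, ι p < cc ι Y s2) (hb : ∀ p ∈ s2, cc ι Y s2 ≤ ι p) (hN : Y ≤ ∏ p ∈ s2, N p) :
    cc ι Y (s1 ∪ s2) = cc ι Y s2 ∧ (s1 ∪ s2).filter (fun p => cc ι Y s2 ≤ ι p) = s2 := by
  obtain ⟨k1, -⟩ := (cc_eq ι hY s2 _).1 rfl
  refine ⟨(cc_eq ι hY _ _).2 ⟨?_, fun c' hc' => hN.trans ?_⟩, ?_⟩
  · refine lt_of_eq_of_lt ?_ k1
    unfold tp
    congr 1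
    ext p
    simp only [mem_filter, mem_union]
    constructor
    · rintro ⟨h | h, h'⟩
      · have := ha p h; omega
      · exact ⟨h, h'⟩
    · rintro ⟨h, h'⟩; exact ⟨Or.inr h, h'⟩
  · refine pmono (fun p hp => mem_filter.2 ⟨mem_union_right _ hp, ?_⟩) fun p hp => h1 p (mem_filter.1 hp).1
    have := hb p hp; omega
  · ext p
    simp only [mem_filter, mem_union]
    constructor
    · rintro ⟨h | h, h'⟩
      · have := ha p h; omega
      · exact h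
    · intro h; exact ⟨Or.inr h, hb p h⟩

theorem pf_prod {s : Finset O} (hs : ∀ p ∈ s, Prime p ∧ Prim p) :
    Prim (∏ p ∈ s, p) ∧ pf (∏ p ∈ s, p) = s := by
  have h1 : Prim (∏ p ∈ s, p) :=
    prod_induction _ Prim (fun a b => W1.bas.b2.mul a b) W1.bas.b2.one fun p hp => (hs p hp).2
  refine ⟨h1, ?_⟩
  ext q
  rw [Vau.b8.mem _ _ (W1.bas.b2.ne _ h1)]
  constructor
  · rintro ⟨a, b, c⟩
    obtain ⟨p, hp, d⟩ := (a.dvd_finsetProd_iff _).1 c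
    rw [W1.bas.b2.uniq q p b (hs p hp).2 (a.associated_of_dvd (hs p hp).1 d)]
    exact hp
  · intro h
    exact ⟨(hs q h).1, (hs q h).2, dvd_prod_of_mem _ h⟩

theorem pfp {e p : O} (he : Prim e) (hp : p ∈ pf e) : Prime p ∧ Prim p ∧ p ∣ e :=
  (Vau.b8.mem e p (W1.bas.b2.ne e he)).1 hp

theorem split (ι : O → ℕ) {Y : ℝ} (hY : 1 < Y) (X w : ℝ) (F : O → ℂ) :
    ∑ e ∈ SQ X, (if Smo w e ∧ Y ≤ N e then F e else 0) = ∑ e1 ∈ SQ X, ∑ e2 ∈ SQ X,
      if Smo w e1 ∧ Smo w e2 ∧ Cl ι Y e2 ∧ II ι e1 < cc ι Y (pf e2) + 1 ∧ e1 * e2 ∈ SQ X then F (e1 * e2) else 0 := by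
  rw [← sum_product', ← sum_filter, ← sum_filter]
  symm
  have gen : ∀ x ∈ (SQ X ×ˢ SQ X).filter (fun x : O × O => Smo w x.1 ∧ Smo w x.2 ∧ Cl ι Y x.2 ∧
      II ι x.1 < cc ι Y (pf x.2) + 1 ∧ x.1 * x.2 ∈ SQ X),
      (pf (x.1 * x.2)).filter (fun p => cc ι Y (pf (x.1 * x.2)) ≤ ι p) = pf x.2 := by
    intro x hx
    obtain ⟨h0, -, -, h3, h4, -⟩ := mem_filter.1 hx
    obtain ⟨m1, m2⟩ := mem_product.1 h0
    have p1 := (mSQ.1 m1).1
    have p2 := (mSQ.1 m2).1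
    rw [Vau.b8.pf_mul _ _ (W1.bas.b2.ne _ p1.1) (W1.bas.b2.ne _ p2.1)]
    obtain ⟨k1, k2⟩ := key ι hY (s1 := pf x.1) (s2 := pf x.2) (fun p hp => by
        rcases mem_union.1 hp with h | h
        · exact Vau.N1 (pfp p1.1 h).2.1
        · exact Vau.N1 (pfp p2.1 h).2.1)
      (fun p hp => by have := le_sup (f := fun p => ι p + 1) hp; unfold II at h4; omega)
      h3.2 (by rw [← Mer.N_sqf p2.1 p2.2]; exact h3.1)
    rw [k1, k2]
  refine sum_bij (fun x _ => x.1 * x.2) (fun x hx => ?_) (fun x hx y hy e => ?_) (fun e he => ?_) fun _ _ => rfl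
  · obtain ⟨h0, h1, h2, h3, -, h5⟩ := mem_filter.1 hx
    obtain ⟨m1, m2⟩ := mem_product.1 h0
    have p1 := (mSQ.1 m1).1
    have p2 := (mSQ.1 m2).1
    refine mem_filter.2 ⟨h5, fun p hp => ?_, h3.1.trans (Vau.N_dvd (W1.bas.b2.ne _ (mSQ.1 h5).1.1) (dvd_mul_left _ _))⟩
    rw [Vau.b8.pf_mul _ _ (W1.bas.b2.ne _ p1.1) (W1.bas.b2.ne _ p2.1)] at hp
    rcases mem_union.1 hp with h | h
    · exact h1 p h
    · exact h2 p h
  · have a := gen x hx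
    have b := gen y hy
    have p2 := (mSQ.1 (mem_product.1 (mem_filter.1 hx).1).2).1
    have q2 := (mSQ.1 (mem_product.1 (mem_filter.1 hy).1).2).1
    rw [e, b] at a
    have e2 : x.2 = y.2 := by rw [Mer.sqf_eq p2.1 p2.2, Mer.sqf_eq q2.1 q2.2, a]
    rw [e2] at e
    exact Prod.ext (mul_right_cancel₀ (W1.bas.b2.ne _ q2.1) e) e2
  · obtain ⟨h0, h1, h2⟩ := mem_filter.1 he
    obtain ⟨⟨a, b⟩, c⟩ := mSQ.1 h0
    set k := cc ι Y (pf e) with hk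
    set s2 := (pf e).filter (fun p => k ≤ ι p) with hs2
    set s1 := (pf e).filter (fun p => ¬ k ≤ ι p) with hs1
    obtain ⟨u1, v1⟩ := pf_prod (s := s1) fun p hp => ⟨(pfp a (mem_filter.1 hp).1).1, (pfp a (mem_filter.1 hp).1).2.1⟩
    obtain ⟨u2, v2⟩ := pf_prod (s := s2) fun p hp => ⟨(pfp a (mem_filter.1 hp).1).1, (pfp a (mem_filter.1 hp).1).2.1⟩
    have e0 : (∏ p ∈ s1, p) * ∏ p ∈ s2, p = e := by
      rw [mul_comm, prod_filter_mul_prod_filter_not, ← Mer.sqf_eq a b]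
    have d1 : (∏ p ∈ s1, p) ∣ e := ⟨_, e0.symm⟩
    have d2 : (∏ p ∈ s2, p) ∣ e := ⟨_, by rw [mul_comm]; exact e0.symm⟩
    have n0 := W1.bas.b2.ne e a
    obtain ⟨k1, k2⟩ := (cc_eq ι hY (pf e) k).1 rfl
    have hN : Y ≤ ∏ p ∈ s2, N p := by
      rcases Nat.eq_zero_or_pos k with h | h
      · rw [hs2, h, filter_true_of_mem fun p _ => Nat.zero_le _, ← Mer.N_sqf a b]; exact h2
      · have := k2 (k - 1) (by omega)
        rwa [Nat.sub_add_cancel h] at this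
    have c2 : cc ι Y s2 = k := by
      refine (cc_eq ι hY _ _).2 ⟨lt_of_eq_of_lt ?_ k1, fun c' hc' => hN.trans_eq ?_⟩
      · unfold tp
        congr 1
        ext p
        simp only [hs2, mem_filter]
        constructor
        · rintro ⟨⟨h, -⟩, h'⟩; exact ⟨h, h'⟩
        · rintro ⟨h, h'⟩; exact ⟨⟨h, by omega⟩, h'⟩
      · unfold tp
        rw [filter_true_of_mem fun p hp => by have := (mem_filter.1 hp).2; omega]
    refine ⟨(∏ p ∈ s1, p, ∏ p ∈ s2, p), mem_filter.2 ⟨mem_product.2 ⟨mSQ.2 ⟨⟨u1, b.squarefree_of_dvd d1⟩,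
      (Vau.N_dvd n0 d1).trans c⟩, mSQ.2 ⟨⟨u2, b.squarefree_of_dvd d2⟩, (Vau.N_dvd n0 d2).trans c⟩⟩,
      fun p hp => ?_, fun p hp => ?_, ⟨?_, fun p hp => ?_⟩, ?_, by rw [e0]; exact h0⟩, e0⟩
    · rw [v1] at hp; exact h1 p (mem_filter.1 hp).1
    · rw [v2] at hp; exact h1 p (mem_filter.1 hp).1
    · rw [Mer.N_sqf u2 (b.squarefree_of_dvd d2), v2]; exact hN
    · simp only [v2] at hp ⊢
      rw [c2]; exact (mem_filter.1 hp).2
    · simp only [II, v1, v2, c2]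
      refine Nat.lt_succ_of_le (Finset.sup_le fun p hp => ?_)
      have := (mem_filter.1 hp).2
      omega

theorem clb (ι : O → ℕ) {Y w : ℝ} (hY : 1 < Y) (hw : 1 ≤ w) (m : ℕ)
    (hi : ∀ p q, Prime p → Prim p → N p ≤ w → Prime q → Prim q → N q ≤ w → ι p = ι q → p = q)
    (hm : ∀ p, Prime p → Prim p → N p ≤ w → ι p < m) {e : O} (he : SP e) (h1 : Smo w e) (h2 : Cl ι Y e) :
    N e ≤ Y * w ∧ cc ι Y (pf e) + 1 ≤ m := by
  obtain ⟨k1, -⟩ := (cc_eq ι hY (pf e) _).1 rfl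
  set k := cc ι Y (pf e) with hk
  constructor
  · rw [Mer.N_sqf he.1 he.2, ← prod_filter_mul_prod_filter_not (pf e) (fun p => k + 1 ≤ ι p)]
    have a : ∏ p ∈ (pf e).filter (fun p => ¬ k + 1 ≤ ι p), N p ≤ w := by
      have hc : ((pf e).filter (fun p => ¬ k + 1 ≤ ι p)).card ≤ 1 := by
        refine card_le_one.2 fun p hp q hq => ?_
        obtain ⟨p1, p2⟩ := mem_filter.1 hp
        obtain ⟨q1, q2⟩ := mem_filter.1 hq
        have := h2.2 p p1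
        have := h2.2 q q1
        exact hi p q (pfp he.1 p1).1 (pfp he.1 p1).2.1 (h1 p p1) (pfp he.1 q1).1 (pfp he.1 q1).2.1 (h1 q q1)
          (by omega)
      rcases card_le_one_iff_subset_singleton.1 hc with ⟨p, hp⟩
      rcases subset_singleton_iff.1 hp with h | h
      · rw [h, prod_empty]; exact hw
      · have : p ∈ (pf e).filter (fun p => ¬ k + 1 ≤ ι p) := by rw [h]; exact mem_singleton_self p
        rw [h, prod_singleton]; exact h1 p (mem_filter.1 this).1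
    exact mul_le_mul k1.le a (prod_nonneg fun p _ => Vau.N0 p) (by linarith)
  · have hne : (pf e).Nonempty := by
      by_contra hn
      have := h2.1
      rw [Mer.N_sqf he.1 he.2, not_nonempty_iff_eq_empty.1 hn, prod_empty] at this
      linarith
    obtain ⟨p, hp⟩ := hne
    have a := h2.2 p hp
    have b := hm p (pfp he.1 hp).1 (pfp he.1 hp).2.1 (h1 p hp)
    omega

theorem idx {w : ℝ} (hw : 1 ≤ w) : ∃ (ι : O → ℕ) (m : ℕ), (m : ℝ) ≤ 16 * w ∧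
    (∀ p q, Prime p → Prim p → N p ≤ w → Prime q → Prim q → N q ≤ w → ι p = ι q → p = q) ∧
    ∀ p, Prime p → Prim p → N p ≤ w → ι p < m := by
  set P := Mer.PP w
  refine ⟨fun p => if h : p ∈ P then (P.equivFin ⟨p, h⟩ : ℕ) else 0, P.card, ?_, fun p q a b c d e f g => ?_,
    fun p a b c => ?_⟩
  · exact W1.bas.b3.card_le w P (by linarith) fun p hp =>
      ⟨(Mer.mem_PP.1 hp).1.ne_zero, (Mer.mem_PP.1 hp).2.2⟩
  · have hp : p ∈ P := Mer.mem_PP.2 ⟨a, b, c⟩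
    have hq : q ∈ P := Mer.mem_PP.2 ⟨d, e, f⟩
    simp only [dif_pos hp, dif_pos hq] at g
    exact congrArg Subtype.val (P.equivFin.injective (Fin.ext g))
  · have hp : p ∈ P := Mer.mem_PP.2 ⟨a, b, c⟩
    simp only [dif_pos hp]
    exact Fin.is_lt _

end Vale.Agent.P006.M.H2
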