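import Vale.Agent.P006.M
import Vale.Agent.P026.M.LN

/-! P006 main branch: one inner sum of the type I part. -/

noncomputable section
open Complex MeasureTheory Filter Topology
open scoped Classical ComplexConjugate

namespace Vale.Agent.P006.M.HAM
open Vale.Agent.P026 Vale.Agent.P006
open Vale.Agent.P026.W1 (bas)
open Vale.Agent.P006.Vau (N1 N0)

theorem ln : LN := lnS bas

theorem cntO : Countable O := by
  have h : Function.Injective fun a : O => (a.re, a.im) := fun a b h => by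
    simp only [Prod.mk.injEq] at h
    exact QuadraticAlgebra.ext h.1 h.2
  exact h.countable

/-- bound for `del` -/
def cd : ℝ := 1 + cst

theorem cd_pos : 0 < cd := by have := Z1.cst_pos; unfold cd; linarith

theorem del_le {n : O} (h : Prim n) : ‖del n‖ ≤ cd := by
  unfold del
  have hc := Z1.cst_pos
  split_ifs with hs
  · refine (norm_sub_le _ _).trans ?_
    rw [Z0.norm_gt h hs, Complex.norm_real, Real.norm_eq_abs, abs_of_nonneg (by have := N0 n; positivity)]
    have : N n ^ (-1 / 6 : ℝ) ≤ 1 := Real.rpow_le_one_of_one_le_of_nonpos (N1 h) (by norm_num)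
    unfold cd; nlinarith
  · simpa using cd_pos.le

theorem del_zero {a b : O} (h : ¬ Squarefree a ∨ ¬ Squarefree b) : del (a * b) = 0 := by
  unfold del
  rw [if_neg]
  intro hs
  rcases h with h | h
  · exact h hs.of_mul_left
  · exact h hs.of_mul_right

theorem VV0 (Y x : ℝ) : 0 ≤ VV Y x := (Real.exp_pos _).le
theorem VV1 (Y x : ℝ) : VV Y x ≤ 1 := Real.exp_le_one_iff.2 (by nlinarith [sq_nonneg (Real.log (x / Y))])

/-- the weight on primary elements -/
def wV (Y : ℝ) (u : O) : ℝ := if Prim u then VV Y (N u) else 0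

theorem wV_summ {Y : ℝ} (hY : 0 < Y) : Summable (wV Y) := by
  obtain ⟨C, hC⟩ := ln.sum 0
  refine Summable.of_nonneg_of_le (fun u => ?_) (fun u => ?_) (hC Y hY).1
  · unfold wV; split_ifs; exacts [VV0 _ _, le_rfl]
  · unfold wV
    by_cases h : Prim u
    · simp [h, bas.b2.ne u h]
    · simp only [h, if_false]; split_ifs
      · exact le_rfl
      · have := VV0 Y (N u); have := N0 u; positivity

/-- the smoothed sum -/
def SS (r : O) (Y t : ℝ) : ℂ :=
  ∑' u : O, if Prim u then del (r * u) * (VV Y (N u) : ℝ) * (N u : ℂ) ^ (t * I) else 0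

theorem ss_term {r : O} (hr : Prim r) (Y t : ℝ) (u : O) :
    ‖(if Prim u then del (r * u) * (VV Y (N u) : ℝ) * (N u : ℂ) ^ (t * I) else 0 : ℂ)‖ ≤ cd * wV Y u := by
  unfold wV
  split_ifs with h
  · have h1 := N1 h
    rw [norm_mul, norm_mul, Complex.norm_cpow_eq_rpow_re_of_pos (by linarith), Complex.norm_real,
      Real.norm_of_nonneg (VV0 _ _)]
    simp only [mul_re, ofReal_re, I_re, mul_zero, ofReal_im, I_im, mul_one, sub_self, Real.rpow_zero]
    exact mul_le_mul_of_nonneg_right (del_le (bas.b2.mul _ _ hr h)) (VV0 _ _)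
  · simp

theorem ss_cont {r : O} (hr : Prim r) {Y : ℝ} (hY : 0 < Y) : Continuous fun t => SS r Y t := by
  refine continuous_tsum (fun u => ?_) ((wV_summ hY).mul_left cd) fun u t => ss_term hr Y t u
  by_cases h : Prim u
  · simp only [h, if_true]
    have h1 := N1 h
    refine continuous_const.mul (Continuous.const_cpow (by fun_prop) (Or.inl ?_))
    exact ofReal_ne_zero.2 (by linarith)
  · simp only [h, if_false]; exact continuous_const

theorem ss_le {r : O} (hr : Prim r) {Y : ℝ} (hY : 0 < Y) (t : ℝ) : ‖SS r Y t‖ ≤ cd * ∑' u, wV Y u := by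
  rw [← tsum_mul_left]
  exact tsum_of_norm_bounded ((wV_summ hY).mul_left cd).hasSum (ss_term hr Y t)

theorem ss_int {r : O} (hr : Prim r) {Y : ℝ} (hY : 0 < Y) {c : ℝ → ℂ} (hc : Integrable c) :
    Integrable fun t => ‖c t‖ * ‖SS r Y (-t)‖ :=
  hc.norm.mul_bdd (c := cd * ∑' u, wV Y u)
    ((ss_cont hr hY).comp continuous_neg).norm.aestronglyMeasurable
    (Eventually.of_forall fun t => by rw [norm_norm]; exact ss_le hr hY _)

theorem pw {a y Y δ : ℝ} (ha : 0 < a) (hy : 0 < y) (hY : 0 < Y) (t : ℝ) :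
    ((VV Y y : ℝ) : ℂ) * ((a * y : ℝ) : ℂ) ^ (-(δ : ℂ) - t * I) =
      (a : ℂ) ^ (-(δ : ℂ) - t * I) * ((Y ^ (-δ) * Real.exp (δ ^ 2 / 4) : ℝ) : ℂ) *
        (((VV (Y * Real.exp (-δ / 2)) y : ℝ) : ℂ) * (y : ℂ) ^ (((-t : ℝ) : ℂ) * I)) := by
  have hy' : (y : ℂ) ≠ 0 := ofReal_ne_zero.2 hy.ne'
  have h1 : (y : ℂ) ^ (-(δ : ℂ) - t * I) = ((y ^ (-δ) : ℝ) : ℂ) * (y : ℂ) ^ (((-t : ℝ) : ℂ) * I) := by
    rw [ofReal_cpow hy.le, ← cpow_add _ _ hy']
    congr 1; push_cast; ring
  have h2 := congrArg (fun x : ℝ => (x : ℂ)) (ln.shift Y y δ hY hy)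
  rw [ofReal_mul a y, mul_cpow_ofReal_nonneg ha.le hy.le, h1]
  simp only [ofReal_mul] at h2 ⊢
  linear_combination ((a : ℂ) ^ (-(δ : ℂ) - t * I) * (y : ℂ) ^ (((-t : ℝ) : ℂ) * I)) * h2

/-- the full sum through the Mellin representation -/
theorem full {X Y : ℝ} (hX : 3 ≤ X) (hY : 1 ≤ Y) {r : O} (hr : Prim r) {Φ c : ℝ → ℂ} (hc : Integrable c)
    (hΦ : ∀ x : ℝ, 0 < x → Φ x = ∫ t : ℝ, c t * (x : ℂ) ^ (-((Real.log X)⁻¹ : ℝ) - t * I : ℂ)) :
    ‖∑' u : O, (if Prim u then del (r * u) * (VV Y (N u) : ℝ) * Φ (N (r * u) / X) else 0 : ℂ)‖ ≤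
      9 * ∫ t, ‖c t‖ * ‖SS r (Y * Real.exp (-(Real.log X)⁻¹ / 2)) (-t)‖ := by
  haveI := cntO
  set δ : ℝ := (Real.log X)⁻¹ with hδ
  have hl : 1 ≤ Real.log X := by
    rw [Real.le_log_iff_exp_le (by linarith)]; linarith [Real.exp_one_lt_d9]
  have hδ0 : 0 < δ := by positivity
  have hδ1 : δ ≤ 1 := inv_le_one_of_one_le₀ hl
  have hX0 : 0 < X := by linarith
  have hr1 := N1 hr
  set a : ℝ := N r / X with ha
  have ha0 : 0 < a := by positivity
  set Y' := Y * Real.exp (-δ / 2) with hY'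
  have hY0 : 0 < Y' := by positivity
  set κ : ℝ → ℂ := fun t => (a : ℂ) ^ (-(δ : ℂ) - t * I) * ((Y ^ (-δ) * Real.exp (δ ^ 2 / 4) : ℝ) : ℂ) with hκ
  have hκc : Continuous κ :=
    (Continuous.const_cpow (by fun_prop) (Or.inl (ofReal_ne_zero.2 ha0.ne'))).mul continuous_const
  have hκ9 : ∀ t, ‖κ t‖ ≤ 9 := fun t => by
    simp only [hκ]
    rw [norm_mul, Complex.norm_cpow_eq_rpow_re_of_pos ha0, Complex.norm_real, Real.norm_of_nonneg (by positivity)]
    have e : (-(δ : ℂ) - t * I).re = -δ := by simp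
    rw [e, ← mul_assoc, ← Real.mul_rpow ha0.le (by linarith)]
    have h1 : (a * Y) ^ (-δ) ≤ X⁻¹ ^ (-δ) := by
      refine Real.rpow_le_rpow_of_nonpos (by positivity) ?_ (by linarith)
      rw [ha, div_mul_eq_mul_div, le_div_iff₀ hX0, inv_mul_cancel₀ hX0.ne']; nlinarith
    have h2 : X⁻¹ ^ (-δ) = Real.exp 1 := by
      rw [Real.rpow_def_of_pos (by positivity), Real.log_inv, hδ]
      congr 1; field_simp
    have h3 : Real.exp (δ ^ 2 / 4) ≤ Real.exp 1 := Real.exp_le_exp.2 (by nlinarith)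
    have h4 := Real.exp_one_lt_d9
    have h5 := Real.exp_pos 1
    rw [h2] at h1
    calc _ ≤ Real.exp 1 * Real.exp 1 := mul_le_mul h1 h3 (by positivity) h5.le
      _ ≤ 9 := by nlinarith
  set g : O → ℝ → ℂ := fun u t =>
    if Prim u then del (r * u) * (VV Y' (N u) : ℝ) * (N u : ℂ) ^ (((-t : ℝ) : ℂ) * I) else 0 with hg
  have hgc : ∀ u, Continuous (g u) := fun u => by
    by_cases h : Prim u
    · simp only [hg, h, if_true]
      have h1 := N1 h
      refine continuous_const.mul (Continuous.const_cpow (by fun_prop) (Or.inl ?_))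
      exact ofReal_ne_zero.2 (by linarith)
    · simp only [hg, h, if_false]; exact continuous_const
  have hgl : ∀ u t, ‖κ t * g u t‖ ≤ 9 * (cd * wV Y' u) := fun u t => by
    rw [norm_mul]
    exact mul_le_mul (hκ9 t) (ss_term hr Y' (-t) u) (norm_nonneg _) (by norm_num)
  have hi : ∀ u, Integrable fun t => c t * (κ t * g u t) := fun u =>
    hc.mul_bdd (hκc.mul (hgc u)).aestronglyMeasurable (Eventually.of_forall (hgl u))
  have hs : Summable fun u => ∫ t, ‖c t * (κ t * g u t)‖ := by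
    refine Summable.of_nonneg_of_le (fun u => integral_nonneg fun t => norm_nonneg _) (fun u => ?_)
      ((((wV_summ hY0).mul_left cd).mul_left 9).mul_left (∫ t, ‖c t‖))
    rw [← integral_mul_const]
    refine integral_mono (hi u).norm (hc.norm.mul_const _) fun t => ?_
    simp only [norm_mul (c t)]
    exact mul_le_mul_of_nonneg_left (hgl u t) (norm_nonneg _)
  have key := integral_tsum_of_summable_integral_norm hi hs
  have e1 : ∀ u, (if Prim u then del (r * u) * (VV Y (N u) : ℝ) * Φ (N (r * u) / X) else 0 : ℂ) =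
      ∫ t, c t * (κ t * g u t) := fun u => by
    by_cases h : Prim u
    · have h1 := N1 h
      have e : N (r * u) / X = a * N u := by rw [bas.b1.N_mul, ha]; ring
      simp only [hg, h, if_true, hκ]
      rw [hΦ _ (by rw [e]; positivity), e, ← integral_const_mul]
      refine integral_congr_ae (Eventually.of_forall fun t => ?_)
      have := pw (δ := δ) ha0 (show 0 < N u by linarith) (show 0 < Y by linarith) t
      simp only []
      linear_combination (del (r * u) * c t) * this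
    · simp [hg, h]
  rw [tsum_congr e1, key, ← integral_const_mul]
  refine norm_integral_le_of_norm_le ((ss_int hr hY0 hc).const_mul 9) (Eventually.of_forall fun t => ?_)
  rw [tsum_mul_left, tsum_mul_left, norm_mul, norm_mul]
  have : ‖κ t‖ * ‖SS r Y' (-t)‖ ≤ 9 * ‖SS r Y' (-t)‖ := mul_le_mul_of_nonneg_right (hκ9 t) (norm_nonneg _)
  have h0 := norm_nonneg (c t)
  change ‖c t‖ * (‖κ t‖ * ‖SS r Y' (-t)‖) ≤ _
  nlinarith

/-- the constant of the tail -/
def zt : ℝ := ∑' u : O, N u ^ (-3 : ℝ)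

theorem zt0 : 0 ≤ zt := tsum_nonneg fun u => Real.rpow_nonneg (N0 u) _

/-- removal of the cutoff -/
theorem cut {X Y K : ℝ} (hX : 3 ≤ X) (hY : 0 < Y) {r : O} (hr : Prim r) {Φ : ℝ → ℂ} (hW : Wt X K Φ) :
    ‖∑ u ∈ SQ (2 * X), ((VV Y (N u) : ℝ) : ℂ) * FF X Φ (r * u)‖ ≤
    ‖∑' u : O, (if Prim u then del (r * u) * (VV Y (N u) : ℝ) * Φ (N (r * u) / X) else 0 : ℂ)‖ +
      cd * X ^ (-7 : ℝ) * zt := by
  have hX0 : 0 < X := by linarith
  have hr1 := N1 hr
  have hc := cd_pos
  set T : O → ℂ := fun u => if Prim u then del (r * u) * (VV Y (N u) : ℝ) * Φ (N (r * u) / X) else 0 with hT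
  set g : O → ℂ := fun u => if u ∈ SQ (2 * X) then ((VV Y (N u) : ℝ) : ℂ) * FF X Φ (r * u) else 0 with hg
  have hpos : ∀ u, Prim u → 0 < N (r * u) / X := fun u h => by
    have := N1 (bas.b2.mul _ _ hr h); positivity
  have h1 : HasSum g (∑ u ∈ SQ (2 * X), ((VV Y (N u) : ℝ) : ℂ) * FF X Φ (r * u)) := by
    have : HasSum g (∑ u ∈ SQ (2 * X), g u) := hasSum_sum_of_ne_finset_zero fun u hu => by simp [hg, hu]
    rwa [Finset.sum_congr rfl fun u hu => if_pos hu] at this
  have h2 : Summable T := by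
    refine Summable.of_norm_bounded (((wV_summ hY).mul_left cd).mul_right K) fun u => ?_
    simp only [hT, wV]
    split_ifs with h
    · rw [norm_mul, norm_mul, Complex.norm_real, Real.norm_of_nonneg (VV0 _ _)]
      have := VV0 Y (N u)
      exact mul_le_mul (mul_le_mul_of_nonneg_right (del_le (bas.b2.mul _ _ hr h)) this)
        (hW.le _ (hpos u h)) (norm_nonneg _) (by positivity)
    · simp
  have h3 := (h1.sub h2.hasSum).norm_le_of_bounded
    ((bas.b3.summ 3 (by norm_num)).hasSum.mul_left (cd * X ^ (-7 : ℝ))) fun u => by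
      have hb : 0 ≤ cd * X ^ (-7 : ℝ) * N u ^ (-3 : ℝ) := by have := N0 u; positivity
      by_cases h : Prim u
      · have hu1 := N1 h
        by_cases h5 : N (r * u) ≤ 2 * X
        · by_cases h6 : u ∈ SQ (2 * X)
          · have : g u - T u = 0 := by simp only [hg, hT, h, h6, if_true, FF, h5]; ring
            rwa [this, norm_zero]
          · have hs : ¬ Squarefree u := fun hs => h6 (((memS bas).1 _ _).2 ⟨⟨h, hs⟩, by
              rw [bas.b1.N_mul] at h5; nlinarith⟩)
            have : g u - T u = 0 := by simp [hg, hT, h6, del_zero (Or.inr hs)]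
            rwa [this, norm_zero]
        · have e : g u - T u = -(del (r * u) * (VV Y (N u) : ℝ) * Φ (N (r * u) / X)) := by
            simp [hg, hT, h, FF, h5]
          push Not at h5
          have h7 := hW.tail (N (r * u) / X) (by rw [le_div_iff₀ hX0]; linarith)
          have h8 : (N (r * u) / X) ^ (-3 : ℝ) ≤ (N u / X) ^ (-3 : ℝ) := by
            refine Real.rpow_le_rpow_of_nonpos (by positivity) ?_ (by norm_num)
            rw [bas.b1.N_mul]; gcongr; nlinarith
          have h9 : X ^ (-10 : ℝ) * (N u / X) ^ (-3 : ℝ) = X ^ (-7 : ℝ) * N u ^ (-3 : ℝ) := by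
            rw [Real.div_rpow (N0 u) hX0.le, show (-7 : ℝ) = -10 - -3 by norm_num, Real.rpow_sub hX0]; ring
          have h10 : ‖Φ (N (r * u) / X)‖ ≤ X ^ (-7 : ℝ) * N u ^ (-3 : ℝ) := by
            rw [← h9]; exact h7.trans (mul_le_mul_of_nonneg_left h8 (by positivity))
          rw [e, norm_neg, norm_mul, norm_mul, Complex.norm_real, Real.norm_of_nonneg (VV0 _ _), mul_assoc cd]
          refine mul_le_mul ?_ h10 (norm_nonneg _) hc.le
          have := del_le (bas.b2.mul _ _ hr h)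
          have := VV1 Y (N u); have := VV0 Y (N u); have := norm_nonneg (del (r * u))
          nlinarith
      · have h6 : u ∉ SQ (2 * X) := fun h6 => h (((memS bas).1 _ _).1 h6).1.1
        have : g u - T u = 0 := by simp [hg, hT, h, h6]
        rwa [this, norm_zero]
  have h4 := norm_le_insert' (∑ u ∈ SQ (2 * X), ((VV Y (N u) : ℝ) : ℂ) * FF X Φ (r * u)) (∑' u, T u)
  exact h4.trans (by unfold zt; linarith)

/-- far from the scale the weight is tiny -/
theorem far {X Y K : ℝ} (hX : 3 ≤ X) (hY : 0 < Y) {r : O} (hr : Prim r) {Φ : ℝ → ℂ} (hW : Wt X K Φ)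
    (h : X ^ (1001 / 1000 : ℝ) ≤ N r * Y) :
    ‖∑ u ∈ SQ (2 * X), ((VV Y (N u) : ℝ) : ℂ) * FF X Φ (r * u)‖ ≤
      32 * cd * K * (Real.exp (8000 ^ 2 / 4) * 2 ^ (8000 : ℝ)) * X ^ (-7 : ℝ) := by
  have hX0 : 0 < X := by linarith
  have hr1 := N1 hr
  have hc := cd_pos
  have hK : 0 ≤ K := (norm_nonneg _).trans (hW.le 1 one_pos)
  set D : ℝ := Real.exp (8000 ^ 2 / 4) * 2 ^ (8000 : ℝ) with hD
  have hD0 : 0 < D := by positivity
  have h1 : ∀ u ∈ SQ (2 * X), ‖((VV Y (N u) : ℝ) : ℂ) * FF X Φ (r * u)‖ ≤ D * X ^ (-8 : ℝ) * (cd * K) := by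
    intro u hu
    have hu' := (((memS bas).1 _ _).1 hu).1.1
    have hu1 := N1 hu'
    unfold FF
    split_ifs with h5
    · rw [norm_mul, norm_mul, Complex.norm_real, Real.norm_of_nonneg (VV0 _ _)]
      have h6 := N1 (bas.b2.mul _ _ hr hu')
      refine mul_le_mul ?_ (mul_le_mul (del_le (bas.b2.mul _ _ hr hu')) (hW.le _ (by positivity))
        (norm_nonneg _) hc.le) (by positivity) (by positivity)
      refine (ln.le 8000 (N u) Y (by linarith) hY).trans' (le_of_eq ?_) |>.trans ?_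
      · unfold VV
        rw [← inv_div (N u) Y, Real.log_inv]; ring_nf
      · have e : X ^ (1001 / 1000 : ℝ) = X * X ^ (1 / 1000 : ℝ) := by
          rw [show (1001 / 1000 : ℝ) = 1 + 1 / 1000 by norm_num, Real.rpow_add hX0, Real.rpow_one]
        have hp : 0 < X ^ (1 / 1000 : ℝ) := by positivity
        have h7 : N u / Y ≤ 2 * X ^ (-(1 / 1000) : ℝ) := by
          rw [Real.rpow_neg hX0.le, ← div_eq_mul_inv, div_le_div_iff₀ hY hp]
          rw [bas.b1.N_mul] at h5
          rw [e] at h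
          have : X * (N u * X ^ (1 / 1000 : ℝ)) ≤ X * (2 * Y) := by nlinarith
          exact le_of_mul_le_mul_left this hX0
        have h8 : (N u / Y) ^ (8000 : ℝ) ≤ 2 ^ (8000 : ℝ) * X ^ (-8 : ℝ) := by
          refine (Real.rpow_le_rpow (by positivity) h7 (by norm_num)).trans (le_of_eq ?_)
          rw [Real.mul_rpow (by norm_num) (by positivity), ← Real.rpow_mul hX0.le]; norm_num
        rw [hD, mul_assoc]
        exact mul_le_mul_of_nonneg_left h8 (Real.exp_pos _).le
    · simp only [mul_zero, norm_zero]; positivity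
  have h2 := bas.b3.card_le (2 * X) (SQ (2 * X)) (by linarith) fun a ha =>
    ⟨bas.b2.ne _ (((memS bas).1 _ _).1 ha).1.1, (((memS bas).1 _ _).1 ha).2⟩
  refine (norm_sum_le _ _).trans ((Finset.sum_le_card_nsmul _ _ _ h1).trans ?_)
  rw [nsmul_eq_mul]
  have e : X ^ (-7 : ℝ) = X * X ^ (-8 : ℝ) := by
    rw [show (-7 : ℝ) = 1 + -8 by norm_num, Real.rpow_add hX0, Real.rpow_one]
  rw [e]
  calc _ ≤ 16 * (2 * X) * (D * X ^ (-8 : ℝ) * (cd * K)) := mul_le_mul_of_nonneg_right h2 (by positivity)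
    _ = _ := by ring

end Vale.Agent.P006.M.HAM
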