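import Vale.Agent.P006.M
import Vale.Agent.P006.Mer

/-! P006 main branch, row RANK. -/

noncomputable section
open Complex MeasureTheory Filter Topology Finset
open scoped Classical

namespace Vale.Agent.P006.M
open Vale.Agent.P026 Vale.Agent.P006

namespace RANKM

/-- Euler product bound -/
theorem eul (s P : Finset O) (g : O → ℝ) (hg : ∀ p ∈ P, 0 ≤ g p)
    (hs : ∀ n ∈ s, SP n ∧ pf n ⊆ P) :
    ∑ n ∈ s, ∏ p ∈ pf n, g p ≤ Real.exp (∑ p ∈ P, g p) := by
  have h1 : ∑ n ∈ s, ∏ p ∈ pf n, g p ≤ ∑ T ∈ P.powerset, ∏ p ∈ T, g p := by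
    rw [← sum_image (s := s) (g := pf) (f := fun T => ∏ p ∈ T, g p) fun n hn m hm e => by
      rw [Mer.sqf_eq (hs n hn).1.1 (hs n hn).1.2, Mer.sqf_eq (hs m hm).1.1 (hs m hm).1.2, e]]
    refine sum_le_sum_of_subset_of_nonneg (fun T hT => ?_) fun T hT _ =>
      prod_nonneg fun p hp => hg p (mem_powerset.1 hT hp)
    obtain ⟨n, hn, rfl⟩ := mem_image.1 hT
    exact mem_powerset.2 (hs n hn).2
  refine h1.trans ?_
  rw [← prod_one_add, Real.exp_sum]
  exact prod_le_prod (fun p hp => by linarith [hg p hp]) fun p _ => by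
    linarith [Real.add_one_le_exp (g p)]

theorem rk : ∃ C : ℝ, 0 ≤ C ∧ ∀ (w E : ℝ) (s : Finset O), 2 ≤ w → 0 < E →
    (∀ e ∈ s, SP e ∧ Smo w e ∧ E ≤ N e ∧ N e ≤ 2 * E) →
    ∑ e ∈ s, (3 : ℝ) ^ (pf e).card ≤ 2 * E * E ^ (-(20000 / Real.log w)) *
      Real.exp (3 * Real.exp 20000 * (Real.log (Real.log w / Real.log 2) + C)) := by
  obtain ⟨C, hC0, hC⟩ := Mer.mertens
  refine ⟨C, hC0, fun w E s hw hE hs => ?_⟩
  have lw : 0 < Real.log w := Real.log_pos (by linarith)
  set σ := 20000 / Real.log w with hσ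
  have hσ0 : 0 ≤ σ := by positivity
  have mP : ∀ p ∈ Mer.PP w, Prime p ∧ Prim p ∧ 2 ≤ N p ∧ N p ≤ w := fun p hp => by
    obtain ⟨a, b, c⟩ := Mer.mem_PP.1 hp
    exact ⟨a, b, Mer.N2 a, c⟩
  have h1 := eul s (Mer.PP w) (fun p => 3 * (N p ^ σ / N p))
    (fun p hp => by have := Vau.N0 p; positivity) (fun n hn => by
      obtain ⟨a, b, -, -⟩ := hs n hn
      refine ⟨a, fun p hp => ?_⟩
      obtain ⟨e1, e2, -⟩ := (Vau.b8.mem n p (W1.bas.b2.ne n a.1)).1 hp
      exact Mer.mem_PP.2 ⟨e1, e2, b p hp⟩)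
  have h2 : ∑ p ∈ Mer.PP w, 3 * (N p ^ σ / N p) ≤
      3 * Real.exp 20000 * (Real.log (Real.log w / Real.log 2) + C) := by
    refine le_trans ?_ (mul_le_mul_of_nonneg_left (hC 2 w _ le_rfl hw mP) (by positivity))
    rw [mul_sum]
    refine sum_le_sum fun p hp => ?_
    obtain ⟨-, -, c, d⟩ := mP p hp
    have : N p ^ σ ≤ Real.exp 20000 := by
      refine (Real.rpow_le_rpow (by linarith) d hσ0).trans_eq ?_
      rw [Real.rpow_def_of_pos (by linarith), hσ]
      congr 1; field_simp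
    rw [div_eq_mul_inv, mul_assoc]
    exact mul_le_mul_of_nonneg_left (mul_le_mul_of_nonneg_right this (by positivity)) (by norm_num)
  have h3 : ∀ e ∈ s, (3 : ℝ) ^ (pf e).card ≤
      2 * E * E ^ (-σ) * ∏ p ∈ pf e, 3 * (N p ^ σ / N p) := by
    intro e he
    obtain ⟨a, -, c, d⟩ := hs e he
    have hN : 0 < N e := by linarith
    rw [prod_mul_distrib, prod_const, prod_div_distrib,
      Real.finsetProd_rpow _ _ (fun p _ => Vau.N0 p), ← Mer.N_sqf a.1 a.2, Real.rpow_neg hE.le]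
    have e1 : E ^ σ ≤ N e ^ σ := Real.rpow_le_rpow hE.le c hσ0
    have e2 : 0 < E ^ σ := by positivity
    have e3 : 1 ≤ 2 * E * (E ^ σ)⁻¹ * (N e ^ σ / N e) := by
      have : 2 * E * (E ^ σ)⁻¹ * (N e ^ σ / N e) = (2 * E / N e) * (N e ^ σ / E ^ σ) := by
        field_simp
      rw [this]
      exact one_le_mul_of_one_le_of_one_le ((one_le_div hN).2 d) ((one_le_div e2).2 e1)
    have e4 : (0 : ℝ) ≤ 3 ^ (pf e).card := by positivity
    nlinarith
  refine (sum_le_sum h3).trans ?_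
  rw [← mul_sum]
  exact mul_le_mul_of_nonneg_left (h1.trans (Real.exp_le_exp.2 h2)) (by positivity)

end RANKM

theorem rankS (hG : GRStmt) : RANKStmt := by
  constructor
  · obtain ⟨C, hC0, hC⟩ := RANKM.rk
    set K := 3 * Real.exp 20000 with hK
    have hK0 : 0 ≤ K := by positivity
    filter_upwards [hG (K * (1 + C) + 1) 1 one_pos] with X hX E s hE hs
    obtain ⟨h3, h2, hA, -, -, -, -, -, hw, -⟩ := hX
    have hX0 : 0 < X := by linarith
    have hL : 0 < Real.log X := Real.log_pos (by linarith)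
    have hE1 : 1 ≤ X ^ (9 / 1000 : ℝ) := Real.one_le_rpow (by linarith) (by norm_num)
    have hE0 : 0 < E := by linarith
    refine (hC (ww X) E s hw hE0 hs).trans ?_
    have lw : Real.log (ww X) = Real.log X / ll X ^ 2 := by rw [ww, Real.log_exp]
    have l0 : 0 < ll X := by linarith
    have e1 : E ^ (-(20000 / Real.log (ww X))) ≤ Real.exp (-(180 * ll X ^ 2)) := by
      refine (Real.rpow_le_rpow_of_nonpos (by linarith) hE (by rw [lw]; exact neg_nonpos.2 (by positivity))).trans_eq ?_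
      rw [← Real.rpow_mul hX0.le, Real.rpow_def_of_pos hX0, lw]
      congr 1; field_simp; ring
    have e2 : Real.log (Real.log (ww X) / Real.log 2) ≤ ll X := by
      have l2 := Real.log_two_gt_d9
      rw [lw]
      refine Real.log_le_log (by positivity) ?_
      rw [div_div]
      refine div_le_self hL.le ?_
      nlinarith
    have e3 : Real.exp (K * (Real.log (Real.log (ww X) / Real.log 2) + C)) ≤
        Real.exp (K * (ll X + C)) :=
      Real.exp_le_exp.2 (mul_le_mul_of_nonneg_left (by linarith) hK0)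
    have e4 : LL X ^ 100 = Real.exp (100 * ll X ^ 2) := by
      rw [LL, ← Real.exp_nat_mul]; norm_num
    have e5 : 2 * (Real.exp (-(180 * ll X ^ 2)) * Real.exp (K * (ll X + C))) ≤
        (Real.exp (100 * ll X ^ 2))⁻¹ := by
      rw [← Real.exp_add, ← Real.exp_neg]
      have a1 : (2 : ℝ) ≤ Real.exp 1 := by linarith [Real.add_one_le_exp (1 : ℝ)]
      refine (mul_le_mul_of_nonneg_right a1 (Real.exp_pos _).le).trans ?_
      rw [← Real.exp_add]
      refine Real.exp_le_exp.2 ?_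
      have b1 : ll X * (K * (1 + C) + 1) ≤ ll X * ll X := mul_le_mul_of_nonneg_left hA l0.le
      have b2 : 0 ≤ K * C := by positivity
      have b3 : K * C ≤ ll X * (K * C) := le_mul_of_one_le_left b2 (by linarith)
      nlinarith
    rw [e4, div_eq_mul_inv E]
    calc _ ≤ 2 * E * Real.exp (-(180 * ll X ^ 2)) * Real.exp (K * (ll X + C)) := by gcongr
      _ = E * (2 * (Real.exp (-(180 * ll X ^ 2)) * Real.exp (K * (ll X + C)))) := by ring
      _ ≤ _ := mul_le_mul_of_nonneg_left e5 hE0.le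
  · obtain ⟨C, hC0, hC⟩ := Mer.rough 3 (by norm_num)
    have l2 := Real.log_two_gt_d9
    have l2' := Real.log_two_lt_d9
    refine ⟨2 * C / Real.log 2 ^ 3, by positivity, fun Y hY => ?_⟩
    have h := hC 2 (2 * Y) (SQ Y) le_rfl (by linarith) fun n hn => by
      obtain ⟨a, b⟩ := ((memS W1.bas).1 Y n).1 hn
      refine ⟨a.1, a.2, by linarith, fun p hp => Mer.N2 ?_⟩
      exact ((Vau.b8.mem n p (W1.bas.b2.ne n a.1)).1 hp).1
    refine h.trans ?_
    have lY : 0 ≤ Real.log Y := Real.log_nonneg hY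
    have e : Real.log (2 * Y) = Real.log 2 + Real.log Y := Real.log_mul (by norm_num) (by linarith)
    have e0 : 0 < Real.log (2 * Y) := by linarith
    rw [show (3 : ℝ) = ((3 : ℕ) : ℝ) by norm_num, Real.rpow_natCast]
    have : C * (2 * Y / Real.log (2 * Y)) * (Real.log (2 * Y) / Real.log 2) ^ 3 =
        2 * C / Real.log 2 ^ 3 * Y * Real.log (2 * Y) ^ 2 := by field_simp
    rw [this]
    refine mul_le_mul_of_nonneg_left ?_ (by positivity)
    calc Real.log (2 * Y) ^ 2 ≤ (1 + Real.log Y) ^ 2 := by gcongr; linarith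
      _ ≤ _ := pow_le_pow_right₀ (by linarith) (by norm_num)

end Vale.Agent.P006.M
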