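import Vale.Agent.P006.M
import Vale.Agent.P006.D.V
import Vale.Agent.P006.D.D2
import Vale.Agent.P006.D.NC

/-! P006 main branch: one bilinear shell from the variance bound. -/

noncomputable section
open Complex Finset
open scoped Classical ComplexConjugate

namespace Vale.Agent.P006.M.T2M
open Vale.Agent.P026 Vale.Agent.P006 D D.D1M D.VM

theorem neg6 {x Y : ℝ} (hY : 0 < Y) (h : Y / 2 < x) : x ^ (-1 / 6 : ℝ) ≤ 2 * Y ^ (-1 / 6 : ℝ) := by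
  calc x ^ (-1 / 6 : ℝ) ≤ (Y / 2) ^ (-1 / 6 : ℝ) :=
        Real.rpow_le_rpow_of_nonpos (by positivity) h.le (by norm_num)
    _ = Y ^ (-1 / 6 : ℝ) / 2 ^ (-1 / 6 : ℝ) := Real.div_rpow hY.le (by norm_num) _
    _ ≤ 2 * Y ^ (-1 / 6 : ℝ) := by
      rw [div_le_iff₀ (by positivity)]
      have : (2 : ℝ) ^ (-1 : ℝ) ≤ 2 ^ (-1 / 6 : ℝ) :=
        Real.rpow_le_rpow_of_exponent_le (by norm_num) (by norm_num)
      rw [Real.rpow_neg_one] at this
      have h3 := Real.rpow_nonneg hY.le (-1 / 6 : ℝ)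
      nlinarith

theorem term {a n : O} (ha : SP a) (hn : SP n) (z : ℂ) : z * del (a * n) =
    gt a * (z * gt n * cub a n - (K.cstar : ℂ) * conj (tau a) * (z * ((N n ^ (-1 / 6 : ℝ) : ℝ) : ℂ))) +
      ((cst * N a ^ (-1 / 6 : ℝ) : ℝ) : ℂ) *
        (if ¬ IsCoprime a n then z * ((N n ^ (-1 / 6 : ℝ) : ℝ) : ℂ) else 0) := by
  have g : gt a * conj (gt a) = 1 := by
    rw [Complex.mul_conj', Z0.norm_gt ha.1 ha.2]; simp
  have e : gt a * conj (tau a) = ((N a ^ (-1 / 6 : ℝ) : ℝ) : ℂ) := by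
    unfold tau
    rw [D2M.cc_eq ha, map_mul, Complex.conj_ofReal, ← mul_assoc, g, one_mul]
  have ec : K.cstar = cst := rfl
  rw [ec]
  unfold del
  by_cases h : IsCoprime a n
  · rw [if_pos (squarefree_mul_iff.2 ⟨h.isRelPrime, ha.2, hn.2⟩), if_neg (not_not.2 h),
      Z0.gt_mul ha.1 hn.1 h, W1.bas.b1.N_mul, Real.mul_rpow (N0 _) (N0 _)]
    push_cast
    linear_combination (cst : ℂ) * z * ((N n ^ (-1 / 6 : ℝ) : ℝ) : ℂ) * e
  · rw [if_neg (fun k => h (squarefree_mul_iff.1 k).1.isCoprime), if_pos h,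
      W1.bas.b6.zero a n (W1.bas.b2.ne n hn.1) h]
    push_cast
    linear_combination (cst : ℂ) * z * ((N n ^ (-1 / 6 : ℝ) : ℝ) : ℂ) * e

theorem pairs : ∃ K : ℝ, 0 ≤ K ∧ ∀ (M Y w : ℝ) (S T : Finset O), 0 ≤ M → 0 ≤ Y → 1 ≤ w →
    (∀ a ∈ S, a ≠ 0 ∧ N a ≤ M) → (∀ n ∈ T, Prim n ∧ N n ≤ Y ∧ ∀ p, Prime p → p ∣ n → w < N p) →
    ∑ a ∈ S, ∑ n ∈ T, (if ¬ IsCoprime a n then (1 : ℝ) else 0) ≤ K * M * Y * w ^ (-1 / 2 : ℝ) := by
  obtain ⟨K, K0, hK⟩ := NCM.tail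
  refine ⟨256 * K, by positivity, fun M Y w S T hM hY hw hS hT => ?_⟩
  set P := T.biUnion pf
  have mP : ∀ p ∈ P, Prime p ∧ w < N p := fun p hp => by
    obtain ⟨n, hn, h1⟩ := mem_biUnion.1 hp
    have := ((b8S W1.bas).mem n p (W1.bas.b2.ne n (hT n hn).1)).1 h1
    exact ⟨this.1, (hT n hn).2.2 p this.1 this.2.2⟩
  calc _ ≤ ∑ a ∈ S, ∑ n ∈ T, ∑ p ∈ P, (if p ∣ a then (1 : ℝ) else 0) * (if p ∣ n then 1 else 0) := by
        refine sum_le_sum fun a _ => sum_le_sum fun n hn => ?_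
        have nn : ∀ p ∈ P, 0 ≤ (if p ∣ a then (1 : ℝ) else 0) * (if p ∣ n then 1 else 0) :=
          fun p _ => by positivity
        split_ifs with h
        · exact sum_nonneg nn
        · obtain ⟨p, hp, hpa⟩ := NCM.ex (hT n hn).1 h
          refine le_trans ?_ (single_le_sum nn (mem_biUnion.2 ⟨n, hn, hp⟩))
          rw [if_pos hpa, if_pos (((b8S W1.bas).mem n p (W1.bas.b2.ne n (hT n hn).1)).1 hp).2.2, one_mul]
    _ = ∑ p ∈ P, ((S.filter (p ∣ ·)).card : ℝ) * (T.filter (p ∣ ·)).card := by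
        simp_rw [sum_comm (s := T)]
        rw [sum_comm]
        refine sum_congr rfl fun p _ => ?_
        rw [← sum_mul_sum, sum_boole, sum_boole]
    _ ≤ ∑ p ∈ P, 256 * M * Y * ((N p)⁻¹ * (N p)⁻¹) := by
        refine sum_le_sum fun p hp => ?_
        have p0 := (mP p hp).1.ne_zero
        have h1 := NCM.cnt hM hS p0
        have h2 := NCM.cnt hY (fun n hn => ⟨W1.bas.b2.ne n (hT n hn).1, (hT n hn).2.1⟩) p0
        refine (mul_le_mul h1 h2 (by positivity) ((Nat.cast_nonneg _).trans h1)).trans_eq (by ring)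
    _ ≤ _ := by
        rw [← mul_sum]
        refine (mul_le_mul_of_nonneg_left (hK w P hw fun p hp => (mP p hp).2)
          (by positivity)).trans_eq (by ring)

theorem core (hV : VarStmt) : ∃ C : ℝ, 0 ≤ C ∧ ∀ (M Y w R δ θ : ℝ) (α b : O → ℂ) (S : Finset O),
    2 ≤ Y → Y ≤ M → 1 ≤ w → 1 ≤ R → 0 ≤ δ → 0 ≤ θ → Ro Y w b → SWH Y R δ b →
    (∀ a ∈ S, SP a ∧ M / 2 < N a ∧ N a ≤ M ∧ ‖α a‖ ≤ 1) →
    M ^ 2 * Y ≤ θ ^ 2 * ((M * Y) ^ (5 / 6 : ℝ)) ^ 2 →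
    eta w R δ + (Y / M) ^ (1 / 3 : ℝ) + M ^ (-1 / 8 : ℝ) ≤ θ ^ 2 → w ^ (-1 / 2 : ℝ) ≤ θ →
    ‖∑ a ∈ S, ∑ n ∈ SQ Y, α a * b n * del (a * n)‖ ≤ C * θ * (M * Y) ^ (5 / 6 : ℝ) := by
  obtain ⟨C, C0, hV⟩ := hV
  obtain ⟨H, K0, hK⟩ := pairs
  have c0 : 0 ≤ cst := by
    unfold cst
    have := Real.Gamma_pos_of_pos (show (0 : ℝ) < 2 / 3 by norm_num)
    positivity
  refine ⟨Real.sqrt (272 * C) + 4 * cst * H, by positivity,
    fun M Y w R δ θ α b S hY hYM hw hR hδ hθ hb hs hS h1 h2 h3 => ?_⟩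
  have hY0 : 0 < Y := by linarith
  have hM : 0 < M := by linarith
  have hv := hV M Y w R δ b S hY hYM hw hR hδ hb hs fun a ha =>
    ⟨(hS a ha).1.1, (hS a ha).2.1, (hS a ha).2.2.1⟩
  have cS : (S.card : ℝ) ≤ 16 * M := W1.bas.b3.card_le M _ hM.le fun a ha =>
    ⟨W1.bas.b2.ne a (hS a ha).1.1, (hS a ha).2.2.1⟩
  have cY : ((SQ Y).card : ℝ) ≤ 16 * Y := W1.bas.b3.card_le Y _ hY0.le fun a ha =>
    ⟨W1.bas.b2.ne a (mSQ.1 ha).1.1, (mSQ.1 ha).2⟩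
  have hnb : nb Y b ≤ 16 * Y := by
    refine le_trans ?_ cY
    unfold nb
    rw [card_eq_sum_ones]; push_cast
    exact sum_le_sum fun n _ => pow_le_one₀ (norm_nonneg _) (hb.le n)
  set T := (SQ Y).filter (b · ≠ 0)
  set u := fun a => ‖cg Y b a - (K.cstar : ℂ) * conj (tau a) * Sb Y b‖
  have k1 : ∀ a ∈ S, ‖∑ n ∈ SQ Y, α a * b n * del (a * n)‖ ≤ u a +
      4 * cst * (M ^ (-1 / 6 : ℝ) * Y ^ (-1 / 6 : ℝ)) *
        ∑ n ∈ T, (if ¬ IsCoprime a n then (1 : ℝ) else 0) := by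
    intro a ha
    obtain ⟨a1, a2, -, a4⟩ := hS a ha
    have e : ∑ n ∈ SQ Y, α a * b n * del (a * n) = α a * (gt a * (cg Y b a - (K.cstar : ℂ) * conj (tau a) * Sb Y b) +
        ((cst * N a ^ (-1 / 6 : ℝ) : ℝ) : ℂ) * ∑ n ∈ SQ Y,
          (if ¬ IsCoprime a n then b n * ((N n ^ (-1 / 6 : ℝ) : ℝ) : ℂ) else 0)) := by
      unfold cg Sb
      rw [mul_sum, mul_sum, ← sum_sub_distrib, mul_sum, ← sum_add_distrib, mul_sum]
      refine sum_congr rfl fun n hn => ?_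
      rw [mul_assoc, term a1 (mSQ.1 hn).1]
    rw [e, norm_mul]
    refine (mul_le_of_le_one_left (norm_nonneg _) a4).trans ((norm_add_le _ _).trans (add_le_add ?_ ?_))
    · rw [norm_mul, Z0.norm_gt a1.1 a1.2, one_mul]
    · have q : ‖∑ n ∈ SQ Y, (if ¬ IsCoprime a n then b n * ((N n ^ (-1 / 6 : ℝ) : ℝ) : ℂ) else 0)‖ ≤
          2 * Y ^ (-1 / 6 : ℝ) * ∑ n ∈ T, (if ¬ IsCoprime a n then (1 : ℝ) else 0) := by
        rw [mul_sum, sum_filter]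
        refine norm_sum_le_of_le _ fun n _ => ?_
        by_cases hb0 : b n = 0
        · simp [hb0]
        · rw [if_pos hb0]
          by_cases hc : IsCoprime a n
          · simp [hc]
          · rw [if_pos hc, if_pos hc, mul_one, norm_mul, Complex.norm_real,
              Real.norm_of_nonneg (Real.rpow_nonneg (N0 _) _)]
            exact (mul_le_of_le_one_left (Real.rpow_nonneg (N0 _) _) (hb.le n)).trans
              (neg6 hY0 (hb.supp n hb0).2.1)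
      rw [norm_mul, Complex.norm_real, Real.norm_of_nonneg (mul_nonneg c0 (Real.rpow_nonneg (N0 _) _))]
      refine (mul_le_mul (mul_le_mul_of_nonneg_left (neg6 hM a2) c0) q (norm_nonneg _)
        (by positivity)).trans_eq (by ring)
  have k2 := hK M Y w S T hM.le hY0.le hw (fun a ha => ⟨W1.bas.b2.ne a (hS a ha).1.1, (hS a ha).2.2.1⟩)
    fun n hn => have := hb.supp n (mem_filter.1 hn).2; ⟨this.1.1, this.2.2.1, this.2.2.2⟩
  have hMY : 0 < M * Y := by positivity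
  have e5 : M ^ (-1 / 6 : ℝ) * Y ^ (-1 / 6 : ℝ) * (M * Y) = (M * Y) ^ (5 / 6 : ℝ) := by
    rw [← Real.mul_rpow hM.le hY0.le, ← Real.rpow_add_one hMY.ne']; norm_num
  have e6 : (M * Y) ^ (2 / 3 : ℝ) * (M * Y) = ((M * Y) ^ (5 / 6 : ℝ)) ^ 2 := by
    rw [← Real.rpow_add_one hMY.ne', ← Real.rpow_natCast, ← Real.rpow_mul hMY.le]; norm_num
  have Q0 : 0 ≤ (M * Y) ^ (5 / 6 : ℝ) := by positivity
  have Q1 : 0 ≤ (M * Y) ^ (2 / 3 : ℝ) := by positivity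
  have k3 : ∑ a ∈ S, u a ≤ Real.sqrt (272 * C) * θ * (M * Y) ^ (5 / 6 : ℝ) := by
    refine le_of_sq_le_sq ?_ (by positivity) |>.trans le_rfl
    refine (sq_sum_le_card_mul_sum_sq (s := S) (f := u)).trans ?_
    have v2 : ∑ a ∈ S, u a ^ 2 ≤ C * (M * (16 * Y) + (M * Y) ^ (2 / 3 : ℝ) * Y * θ ^ 2) :=
      hv.trans (mul_le_mul_of_nonneg_left (add_le_add (mul_le_mul_of_nonneg_left hnb hM.le)
        (mul_le_mul_of_nonneg_left h2 (by positivity))) C0)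
    refine (mul_le_mul cS v2 (sum_nonneg fun _ _ => sq_nonneg _) (by positivity)).trans ?_
    rw [mul_pow, mul_pow, Real.sq_sqrt (by positivity)]
    have := mul_le_mul_of_nonneg_left h1 (by positivity : 0 ≤ 256 * C)
    have e7 : 16 * M * (C * (M * (16 * Y) + (M * Y) ^ (2 / 3 : ℝ) * Y * θ ^ 2)) =
        256 * C * (M ^ 2 * Y) + 16 * C * θ ^ 2 * ((M * Y) ^ (2 / 3 : ℝ) * (M * Y)) := by ring
    rw [e7, e6]; linarith
  refine (norm_sum_le_of_le _ k1).trans ?_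
  rw [sum_add_distrib, ← mul_sum, add_mul, add_mul]
  refine add_le_add k3 ((mul_le_mul_of_nonneg_left (k2.trans
    (mul_le_mul_of_nonneg_left h3 (by positivity))) (by positivity)).trans_eq ?_)
  rw [← e5]; ring

end Vale.Agent.P006.M.T2M
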