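import Vale.Agent.P006.S2
import Vale.Agent.P006.M.GR

noncomputable section
open Complex MeasureTheory Filter Topology
open scoped Classical ComplexConjugate

namespace Vale.Agent.P006.M
open Vale.Agent.P026

namespace WPM

/-- Gaussian factor -/
def gE (T σ t : ℝ) : ℂ := cexp (((σ : ℂ) + t * I) ^ 2 / (4 * T ^ 2))
/-- Mellin coefficient -/
def cP (T σ t : ℝ) : ℂ := ((1 / (2 * Real.pi) : ℝ) : ℂ) * gE T σ t / (σ + t * I)

theorem gE_norm (T σ t : ℝ) :
    ‖gE T σ t‖ = Real.exp (σ ^ 2 / (4 * T ^ 2)) * Real.exp (-(1 / (4 * T ^ 2)) * t ^ 2) := by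
  have e : ((σ : ℂ) + t * I) ^ 2 / (4 * T ^ 2) =
      ((σ ^ 2 / (4 * T ^ 2) + -(1 / (4 * T ^ 2)) * t ^ 2 : ℝ) : ℂ) + ((2 * σ * t / (4 * T ^ 2) : ℝ) : ℂ) * I := by
    push_cast
    linear_combination (t : ℂ) ^ 2 / (4 * T ^ 2) * I_sq
  rw [gE, Complex.norm_exp, e, ← Real.exp_add]
  congr 1
  simp only [add_re, ofReal_re, mul_re, I_re, mul_zero, ofReal_im, I_im, mul_one, sub_self, add_zero]

theorem gE_cont (T σ : ℝ) : Continuous (gE T σ) := by
  unfold gE
  fun_prop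

theorem gE_int {T : ℝ} (hT : 0 < T) (σ : ℝ) : Integrable (gE T σ) := by
  refine ((integrable_exp_neg_mul_sq (b := 1 / (4 * T ^ 2)) (by positivity)).const_mul
    (Real.exp (σ ^ 2 / (4 * T ^ 2)))).mono' (gE_cont T σ).aestronglyMeasurable (.of_forall fun t => ?_)
  rw [gE_norm]

theorem four {T : ℝ} (hT : 0 < T) (σ v : ℝ) :
    ∫ t : ℝ, gE T σ t * cexp (-(σ + t * I) * v) =
      ((2 * Real.pi * (T / Real.sqrt Real.pi * Real.exp (-(T * v) ^ 2)) : ℝ) : ℂ) := by
  have T0 : (T : ℂ) ≠ 0 := ofReal_ne_zero.2 hT.ne'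
  have h := integral_cexp_quadratic (b := ((-(1 / (4 * T ^ 2)) : ℝ) : ℂ))
    (by rw [ofReal_re, neg_lt_zero]; positivity) (I * (σ / (2 * T ^ 2) - v)) (σ ^ 2 / (4 * T ^ 2) - σ * v)
  have e1 : ∀ t : ℝ, gE T σ t * cexp (-(σ + t * I) * v) = cexp (((-(1 / (4 * T ^ 2)) : ℝ) : ℂ) * t ^ 2 +
      I * (σ / (2 * T ^ 2) - v) * t + (σ ^ 2 / (4 * T ^ 2) - σ * v)) := fun t => by
    rw [gE, ← Complex.exp_add]
    congr 1
    push_cast
    linear_combination (t : ℂ) ^ 2 / (4 * T ^ 2) * I_sq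
  have e2 : (σ : ℂ) ^ 2 / (4 * T ^ 2) - σ * v - (I * (σ / (2 * T ^ 2) - v)) ^ 2 /
      (4 * ((-(1 / (4 * T ^ 2)) : ℝ) : ℂ)) = ((-(T * v) ^ 2 : ℝ) : ℂ) := by
    rw [mul_pow, I_sq]
    push_cast
    field_simp
    ring
  have e3 : ((Real.pi : ℂ) / -((-(1 / (4 * T ^ 2)) : ℝ) : ℂ)) ^ (1 / 2 : ℂ) =
      ((2 * T * Real.sqrt Real.pi : ℝ) : ℂ) := by
    have a : (Real.pi : ℂ) / -((-(1 / (4 * T ^ 2)) : ℝ) : ℂ) = (((2 * T) ^ 2 * Real.pi : ℝ) : ℂ) := by
      push_cast
      field_simp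
      ring
    rw [a, show (1 / 2 : ℂ) = ((1 / 2 : ℝ) : ℂ) by push_cast; ring, ← ofReal_cpow (by positivity),
      ← Real.sqrt_eq_rpow, Real.sqrt_mul (by positivity), Real.sqrt_sq (by positivity)]
  simp only [e1]
  rw [h, e2, e3, ← ofReal_exp, ← ofReal_mul]
  congr 1
  have s0 : 0 < Real.sqrt Real.pi := Real.sqrt_pos.2 Real.pi_pos
  have := Real.mul_self_sqrt Real.pi_pos.le
  field_simp
  rw [Real.sq_sqrt Real.pi_pos.le]

theorem rep {T σ x : ℝ} (hT : 0 < T) (hσ : 0 < σ) (hx : 0 < x) :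
    (S.Phi T x : ℂ) = ∫ t : ℝ, cP T σ t * (x : ℂ) ^ (-(σ : ℂ) - t * I) := by
  have pi0 : (Real.pi : ℂ) ≠ 0 := ofReal_ne_zero.2 Real.pi_ne_zero
  have i : Integrable (Function.uncurry fun (t v : ℝ) => gE T σ t * cexp (-(σ + t * I) * v))
      (volume.prod (volume.restrict (Set.Ioi (Real.log x)))) := by
    refine ((gE_int hT σ).norm.mul_prod (integrableOn_exp_mul_Ioi (a := -σ) (by linarith) _)).mono'
      (Continuous.aestronglyMeasurable ?_) (.of_forall fun p => le_of_eq ?_)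
    · have := gE_cont T σ
      unfold Function.uncurry
      fun_prop
    · simp [Function.uncurry, Complex.norm_exp]
  have s := integral_integral_swap i
  simp only [four hT] at s
  rw [integral_complex_ofReal, integral_const_mul, integral_const_mul, ← S.Phi] at s
  have e : ∀ t : ℝ, cP T σ t * (x : ℂ) ^ (-(σ : ℂ) - t * I) = ((1 / (2 * Real.pi) : ℝ) : ℂ) *
      ∫ v in Set.Ioi (Real.log x), gE T σ t * cexp (-(σ + t * I) * v) := fun t => by
    rw [integral_const_mul, integral_exp_mul_complex_Ioi (by simpa using hσ), cP,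
      Complex.cpow_def_of_ne_zero (ofReal_ne_zero.2 hx.ne'), ← ofReal_log hx.le, neg_div_neg_eq,
      show (Real.log x : ℂ) * (-(σ : ℂ) - t * I) = -(σ + t * I) * Real.log x by ring]
    ring
  simp only [e]
  rw [integral_const_mul, s]
  push_cast
  field_simp

theorem cP_cont (T : ℝ) {σ : ℝ} (hσ : 0 < σ) : Continuous (cP T σ) :=
  (continuous_const.mul (gE_cont T σ)).div (by fun_prop) fun t h => by
    have := congrArg re h
    simp at this
    linarith

theorem cP_le {T σ : ℝ} (hT : 1 ≤ T) (hσ : 0 < σ) (h1 : σ ≤ 1) (t : ℝ) :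
    ‖cP T σ t‖ ≤ Real.exp (-(1 / (4 * T ^ 2)) * t ^ 2) / (σ + |t|) := by
  have a1 := abs_re_le_norm ((σ : ℂ) + t * I)
  have a2 := abs_im_le_norm ((σ : ℂ) + t * I)
  simp only [add_re, ofReal_re, mul_re, I_re, mul_zero, ofReal_im, I_im, mul_one, sub_self, add_zero,
    add_im, mul_im, zero_add, abs_of_pos hσ] at a1 a2
  have a3 : Real.exp (σ ^ 2 / (4 * T ^ 2)) ≤ 3 := by
    refine le_trans (Real.exp_le_exp.2 ?_) Real.exp_one_lt_three.le
    rw [div_le_one (by positivity)]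
    nlinarith
  have pi := Real.pi_gt_three
  have a4 : 1 / (2 * Real.pi) * Real.exp (σ ^ 2 / (4 * T ^ 2)) ≤ 1 / 2 := by
    rw [one_div_mul_eq_div, div_le_iff₀ (by positivity)]
    linarith
  have t0 := abs_nonneg t
  rw [cP, norm_div, norm_mul, gE_norm, norm_real, Real.norm_of_nonneg (by positivity), ← mul_assoc,
    div_le_div_iff₀ (by linarith) (by linarith)]
  have e0 := Real.exp_pos (-(1 / (4 * T ^ 2)) * t ^ 2)
  calc _ ≤ 1 / 2 * Real.exp (-(1 / (4 * T ^ 2)) * t ^ 2) * (2 * ‖(σ : ℂ) + t * I‖) := by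
        gcongr
        linarith
    _ = _ := by ring

theorem sq_le {T b : ℝ} (hT : 0 < T) (hb : 1 / 8 ≤ b) : Real.sqrt (Real.pi / (b / T ^ 2)) ≤ 6 * T := by
  refine Real.sqrt_le_iff.2 ⟨by positivity, ?_⟩
  rw [div_div_eq_mul_div, div_le_iff₀ (by linarith)]
  nlinarith [Real.pi_lt_four, sq_pos_of_pos hT]

theorem mom {T σ : ℝ} (hT : 1 ≤ T) (hσ : 0 < σ) (h1 : σ ≤ 1) :
    Integrable (fun t => ‖cP T σ t‖ * (1 + |t|) ^ 8) ∧
    ∫ t, ‖cP T σ t‖ * (1 + |t|) ^ 8 ≤ 6 * 256 * Real.exp 32 * (σ⁻¹ * T ^ 9) := by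
  have T0 : 0 < T := by linarith
  have b : ∀ t : ℝ, ‖cP T σ t‖ * (1 + |t|) ^ 8 ≤
      σ⁻¹ * (2 * T) ^ 8 * Real.exp 32 * Real.exp (-(1 / 8 / T ^ 2) * t ^ 2) := fun t => by
    have t0 := abs_nonneg t
    have a1 : ‖cP T σ t‖ ≤ σ⁻¹ * Real.exp (-(1 / (4 * T ^ 2)) * t ^ 2) := by
      refine (cP_le hT hσ h1 t).trans ?_
      rw [inv_mul_eq_div]
      gcongr
      linarith
    have a2 : 1 + |t| ≤ 2 * T * Real.exp (|t| / (2 * T)) := by
      have := mul_le_mul_of_nonneg_left (Real.add_one_le_exp (|t| / (2 * T))) (by positivity : 0 ≤ 2 * T)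
      rw [mul_add, mul_div_cancel₀ _ (by positivity)] at this
      linarith
    have a3 : Real.exp (-(1 / (4 * T ^ 2)) * t ^ 2) * Real.exp (|t| / (2 * T)) ^ 8 ≤
        Real.exp 32 * Real.exp (-(1 / 8 / T ^ 2) * t ^ 2) := by
      rw [← Real.exp_nat_mul, ← Real.exp_add, ← Real.exp_add]
      refine Real.exp_le_exp.2 ?_
      have e1 : 1 / (4 * T ^ 2) * t ^ 2 = (|t| / (2 * T)) ^ 2 := by rw [div_pow, sq_abs]; field_simp; ring
      have e2 : 1 / 8 / T ^ 2 * t ^ 2 = (|t| / (2 * T)) ^ 2 / 2 := by rw [div_pow, sq_abs]; field_simp; ring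
      rw [neg_mul, neg_mul, e1, e2]
      push_cast
      nlinarith [sq_nonneg (|t| / (2 * T) - 8)]
    calc _ ≤ σ⁻¹ * Real.exp (-(1 / (4 * T ^ 2)) * t ^ 2) * (2 * T * Real.exp (|t| / (2 * T))) ^ 8 := by
          gcongr
      _ = σ⁻¹ * (2 * T) ^ 8 * (Real.exp (-(1 / (4 * T ^ 2)) * t ^ 2) * Real.exp (|t| / (2 * T)) ^ 8) := by
          ring
      _ ≤ σ⁻¹ * (2 * T) ^ 8 * (Real.exp 32 * Real.exp (-(1 / 8 / T ^ 2) * t ^ 2)) := by gcongr
      _ = _ := by ring
  have i := (integrable_exp_neg_mul_sq (b := 1 / 8 / T ^ 2) (by positivity)).const_mul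
    (σ⁻¹ * (2 * T) ^ 8 * Real.exp 32)
  have c := cP_cont T hσ
  have j : Integrable (fun t => ‖cP T σ t‖ * (1 + |t|) ^ 8) :=
    i.mono' (Continuous.aestronglyMeasurable (by fun_prop)) (.of_forall fun t => by
      rw [Real.norm_of_nonneg (by positivity)]
      exact b t)
  refine ⟨j, (integral_mono j i b).trans ?_⟩
  rw [integral_const_mul, integral_gaussian]
  refine (mul_le_mul_of_nonneg_left (sq_le T0 le_rfl) (by positivity)).trans (le_of_eq ?_)
  ring

theorem mass {T σ : ℝ} (hT : 1 ≤ T) (hσ : 0 < σ) (h1 : σ ≤ 1) :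
    Integrable (cP T σ) ∧ ∫ t, ‖cP T σ t‖ ≤ 2 * Real.log ((σ + T) / σ) + 6 := by
  have T0 : 0 < T := by linarith
  have c : Continuous fun t : ℝ => (σ + |t|)⁻¹ :=
    Continuous.inv₀ (by fun_prop) fun t => by positivity
  have i1 : Integrable ((Set.Ioc (-T) T).indicator fun t : ℝ => (σ + |t|)⁻¹) :=
    (integrable_indicator_iff measurableSet_Ioc).2 c.integrableOn_Ioc
  have i2 := (integrable_exp_neg_mul_sq (b := 1 / 4 / T ^ 2) (by positivity)).const_mul T⁻¹
  have b : ∀ t : ℝ, ‖cP T σ t‖ ≤ (Set.Ioc (-T) T).indicator (fun t : ℝ => (σ + |t|)⁻¹) t +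
      T⁻¹ * Real.exp (-(1 / 4 / T ^ 2) * t ^ 2) := fun t => by
    have t0 := abs_nonneg t
    refine (cP_le hT hσ h1 t).trans ?_
    rw [← div_div]
    by_cases h : t ∈ Set.Ioc (-T) T
    · rw [Set.indicator_of_mem h, inv_eq_one_div]
      refine le_add_of_le_of_nonneg ?_ (by positivity)
      gcongr
      exact Real.exp_le_one_iff.2 (by rw [neg_mul, neg_nonpos]; positivity)
    · rw [Set.indicator_of_notMem h, zero_add, inv_mul_eq_div]
      have : T ≤ |t| := by
        simp only [Set.mem_Ioc, not_and_or, not_lt, not_le] at h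
        rcases h with h | h
        · linarith [neg_abs_le t]
        · linarith [le_abs_self t]
      gcongr
      linarith
  have j : Integrable (cP T σ) := (i1.add i2).mono' (cP_cont T hσ).aestronglyMeasurable (.of_forall b)
  refine ⟨j, (integral_mono j.norm (i1.add i2) b).trans ?_⟩
  have e1 : ∫ t in (0 : ℝ)..T, (σ + |t|)⁻¹ = Real.log ((σ + T) / σ) := by
    rw [intervalIntegral.integral_congr (g := fun t => (σ + t)⁻¹) fun t ht => by
      rw [Set.uIcc_of_le T0.le] at ht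
      simp only [abs_of_nonneg ht.1], intervalIntegral.integral_comp_add_left (fun t => t⁻¹),
      integral_inv_of_pos (by linarith) (by linarith), add_zero]
  have e2 : ∫ t in (-T)..0, (σ + |t|)⁻¹ = Real.log ((σ + T) / σ) := by
    have := intervalIntegral.integral_comp_neg (a := 0) (b := T) fun t => (σ + |t|)⁻¹
    simp only [abs_neg, neg_zero] at this
    rw [← this, e1]
  simp only [Pi.add_apply]
  rw [integral_add i1 i2, integral_indicator measurableSet_Ioc,
    ← intervalIntegral.integral_of_le (by linarith), ← intervalIntegral.integral_add_adjacent_intervals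
      (b := 0) (c.intervalIntegrable _ _) (c.intervalIntegrable _ _), e1, e2, integral_const_mul,
    integral_gaussian]
  have := mul_le_mul_of_nonneg_left (sq_le (b := 1 / 4) T0 (by norm_num)) (inv_pos.2 T0).le
  rw [mul_left_comm, inv_mul_cancel₀ T0.ne'] at this
  linarith

end WPM

/-- the smooth cutoff is admissible -/
def WPStmt : Prop := ∃ K : ℝ, ∀ᶠ X : ℝ in atTop, Wt X K fun x => (S.Phi (Real.log X ^ 100) x : ℂ)

open WPM in
theorem wtPhi (hP : S.PHStmt) : WPStmt := by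
  refine ⟨207, ?_⟩
  filter_upwards [grS 902 1 one_pos, grS (6 * 256 * Real.exp 32) 1 one_pos] with X g1 g2
  obtain ⟨X3, l2, -, -, gL, -⟩ := g1
  have gC := g2.2.2.1
  have X0 : 0 < X := by linarith
  have L1 : 1 < Real.log X := by
    rw [Real.lt_log_iff_exp_lt X0]
    linarith [Real.exp_one_lt_three]
  have L0 : 0 < Real.log X := by linarith
  have lL : ll X + 1 ≤ Real.log X := by
    have := Real.add_one_le_exp (ll X)
    rwa [ll, Real.exp_log L0] at this
  have T1 : 1 ≤ Real.log X ^ 100 := one_le_pow₀ L1.le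
  have s0 : 0 < (Real.log X)⁻¹ := inv_pos.2 L0
  have s1 : (Real.log X)⁻¹ ≤ 1 := inv_le_one_of_one_le₀ L1.le
  obtain ⟨m1, m2⟩ := mom T1 s0 s1
  obtain ⟨m3, m4⟩ := mass T1 s0 s1
  refine ⟨⟨cP (Real.log X ^ 100) (Real.log X)⁻¹, m3, m1, fun x hx => rep (by linarith) s0 hx,
    m4.trans ?_, m2.trans ?_⟩, fun x hx => ?_, fun x hx => ?_⟩
  · have a : ((Real.log X)⁻¹ + Real.log X ^ 100) / (Real.log X)⁻¹ ≤ Real.log X ^ 100 * Real.log X *
        Real.log X := by
      rw [div_inv_eq_mul]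
      gcongr
      nlinarith
    have b := Real.log_le_log (by positivity) a
    rw [Real.log_mul (by positivity) L0.ne', Real.log_mul (by positivity) L0.ne', Real.log_pow, ← ll] at b
    push_cast at b
    linarith
  · rw [Real.rpow_one, show (902 : ℝ) = ((902 : ℕ) : ℝ) by norm_num, Real.rpow_natCast] at gL
    refine le_trans ?_ gL
    rw [inv_inv, ← pow_mul, ← pow_succ', pow_succ' _ 901]
    gcongr
    linarith
  · have h := (hP.1 (Real.log X ^ 100) x (by linarith) hx)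
    have e : Real.exp (-(Real.log X ^ 100 * Real.log x) ^ 2) ≤ 1 :=
      Real.exp_le_one_iff.2 (neg_nonpos.2 (sq_nonneg _))
    rw [norm_real, Real.norm_eq_abs]
    rw [abs_le] at h ⊢
    split_ifs at h <;> constructor <;> linarith [h.1, h.2]
  · have x0 : 0 < x := by linarith
    have h := (hP.1 (Real.log X ^ 100) x (by linarith) x0)
    rw [if_neg (by linarith), zero_sub, abs_neg] at h
    rw [norm_real, Real.norm_eq_abs, Real.rpow_def_of_pos X0, Real.rpow_def_of_pos x0, ← Real.exp_add]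
    refine h.trans ((half_le_self (Real.exp_pos _).le).trans (Real.exp_le_exp.2 ?_))
    have y : 1 / 2 ≤ Real.log x := le_trans (by linarith [Real.log_two_gt_d9]) (Real.log_le_log two_pos hx)
    have T3 : Real.log X ^ 3 ≤ Real.log X ^ 100 := pow_le_pow_right₀ L1.le (by norm_num)
    have L3 : 3 ≤ Real.log X := by linarith
    have T4 : 9 * Real.log X ≤ Real.log X ^ 100 := by nlinarith
    generalize Real.log X ^ 100 = T at *
    have T5 : 81 * Real.log X ^ 2 ≤ T ^ 2 := by nlinarith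
    have T6 : T ^ 2 * Real.log x / 2 ≤ (T * Real.log x) ^ 2 := by
      nlinarith [mul_nonneg (sq_nonneg T) (mul_nonneg (by linarith : 0 ≤ Real.log x)
        (by linarith : 0 ≤ Real.log x - 1 / 2))]
    nlinarith [mul_le_mul_of_nonneg_left y (sq_nonneg T), mul_le_mul_of_nonneg_right
      (show 12 ≤ T ^ 2 by nlinarith) (by linarith : 0 ≤ Real.log x)]

end Vale.Agent.P006.M
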